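import Vale.Agent.P101.ZStab.StepDefs

/-!
# P101 `Z`-stability: statements inside the half flip

`IBand a' a η δ X`: `X` moves labels by at most `δ`, commutes with the first tensor factor of a block
away from the upper end and with the second one away from the lower end.
-/

open scoped Kronecker Matrix.Norms.L2Operator

namespace Vale.P101.ZS

noncomputable section

variable {p : ℕ} {J : Type*} [Fintype J] [DecidableEq J]

/-- The first factor of every block. -/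
def ampP (E : Matrix (Fin p) (Fin p) ℂ) : Matrix (J × In p) (J × In p) ℂ :=
  (1 : Matrix J J ℂ) ⊗ₖ (E ⊗ₖ (1 : Matrix (Fin (p + 1)) (Fin (p + 1)) ℂ))

/-- The second factor of every block. -/
def ampQ (E : Matrix (Fin (p + 1)) (Fin (p + 1)) ℂ) : Matrix (J × In p) (J × In p) ℂ :=
  (1 : Matrix J J ℂ) ⊗ₖ ((1 : Matrix (Fin p) (Fin p) ℂ) ⊗ₖ E)

/-- Banded intertwiners of block diagonal functions. -/
structure IBand (a' a : J → ℝ) (η δ : ℝ) (X : Matrix (J × In p) (J × In p) ℂ) : Prop where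
  band : ∀ x y : J × In p, δ < |a' x.1 - a y.1| → X x y = 0
  pinv : ∀ (E : Matrix (Fin p) (Fin p) ℂ) (x y : J × In p), a' x.1 ≤ 1 - η → a y.1 ≤ 1 - η → (ampP (J := J) E * X) x y = (X * ampP (J := J) E) x y
  qinv : ∀ (E : Matrix (Fin (p + 1)) (Fin (p + 1)) ℂ) (x y : J × In p), η ≤ a' x.1 → η ≤ a y.1 → (ampQ (J := J) E * X) x y = (X * ampQ (J := J) E) x y

/-- Labels in `[0,1]` without gaps, reaching both ends. -/
structure Spread (a : J → ℝ) (δ : ℝ) : Prop where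
  mem : ∀ i, 0 ≤ a i ∧ a i ≤ 1
  chain : Chain a δ
  low : ∃ i, a i ≤ δ
  high : ∃ i, 1 - δ ≤ a i

/-- Winding number of a determinant. -/
def Winding {ι : Type*} [Fintype ι] [DecidableEq ι] (γ : II → Matrix ι ι ℂ) (n : ℤ) : Prop :=
  ∃ θ : II → ℝ, Continuous θ ∧ θ 1 - θ 0 = 2 * Real.pi * n ∧
    ∀ t, (γ t).det = Complex.exp (θ t * Complex.I)

/-- Intertwiners almost commute (module `ZStab/IntBasic`). -/
def IntNormStmt : Prop :=
  ∀ (p : ℕ) (J : Type) [Fintype J] [DecidableEq J] (a' a : J → ℝ) (η δ ε : ℝ)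
    (g : ℝ → Mat p (p + 1)) (X : Matrix (J × In p) (J × In p) ℂ),
    0 < p → 0 < δ → 0 ≤ ε → δ ≤ η → 10 * η ≤ 1 →
    (∀ i, 0 ≤ a i ∧ a i ≤ 1 ∧ 0 ≤ a' i ∧ a' i ≤ 1) →
    (∀ x y, |x - y| ≤ 3 * δ → ‖g x - g y‖ ≤ ε) →
    (∀ x ≤ 3 * η, ∃ A : Matrix (Fin p) (Fin p) ℂ,
      g x = A ⊗ₖ (1 : Matrix (Fin (p + 1)) (Fin (p + 1)) ℂ)) →
    (∀ x, 1 - 3 * η ≤ x → ∃ B : Matrix (Fin (p + 1)) (Fin (p + 1)) ℂ,
      g x = (1 : Matrix (Fin p) (Fin p) ℂ) ⊗ₖ B) →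
    X ∈ unitary (Matrix (J × In p) (J × In p) ℂ) → IBand a' a η δ X →
    ‖X * dg g a - dg g a' * X‖ ≤ 10 * ε

/-- Intertwining unitaries are connected, and loops without winding contract
(module `ZStab/IntConn`, from `BandStmt`). -/
def IntConnStmt : Prop :=
  ∀ (p : ℕ) (J : Type) [Fintype J] [DecidableEq J] (a : J → ℝ) (η δ : ℝ),
    0 < p → 0 < δ → δ ≤ η → 100 * η ≤ 1 → Spread a δ →
    (∀ X : Matrix (J × In p) (J × In p) ℂ, X ∈ unitary _ → IBand a a η δ X →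
      ∃ γ : C(II, Matrix (J × In p) (J × In p) ℂ), γ 0 = 1 ∧ γ 1 = X ∧
        ∀ t, γ t ∈ unitary _ ∧ IBand a a (10 * η) (100 * δ) (γ t)) ∧
    (∀ γ : C(II, Matrix (J × In p) (J × In p) ℂ), γ 0 = 1 → γ 1 = 1 →
      (∀ t, γ t ∈ unitary _ ∧ IBand a a η δ (γ t)) → NoWinding γ →
      ∃ H : C(II × II, Matrix (J × In p) (J × In p) ℂ),
        (∀ t, H (0, t) = γ t) ∧ (∀ t, H (1, t) = 1) ∧ (∀ h, H (h, 0) = 1 ∧ H (h, 1) = 1) ∧
        ∀ x, H x ∈ unitary _ ∧ IBand a a (10 * η) (100 * δ) (H x))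

/-- The permutation of the fibre matching the two lists. -/
def tau {p l : ℕ} (σ : Pos₀ p l ≃ Pos₁ p l) : Matrix (Out p l) (Out p l) ℂ :=
  fun x y => if x = (e₁ p l).symm (σ (e₀ p l y).1, (e₀ p l y).2) then 1 else 0

/-- The data of a connecting map: a close matching of the lists, a path of unitaries from `1` to
it, and the map itself. -/
structure IsStepMap {p l : ℕ} (σ : Pos₀ p l ≃ Pos₁ p l)
    (U : C(II, Matrix (Out p l) (Out p l) ℂ))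
    (φ : DD p (p + 1) →⋆ₐ[ℂ] DD (nextP p l) (nextP p l + 1)) : Prop where
  near : ∀ i, |lab₀ p l i - lab₁ p l (σ i)| ≤ 3 / ((l : ℝ) + 1)
  unitary' : ∀ s, U s ∈ unitary (Matrix (Out p l) (Out p l) ℂ)
  start : U 0 = 1
  finish : U 1 = tau σ
  formula : ∀ (f : DD p (p + 1)) (s : II), (φ f).1 s =
    U s * (dg (fun x => f.1 (Set.projIcc (0 : ℝ) 1 zero_le_one x))
      (fun i => (1 - (s : ℝ)) * lab₀ p l i + s * lab₁ p l (σ i))).submatrix (e₀ p l) (e₀ p l) *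
      star (U s)

/-- The fibres at the ends are the small fibres tensored with the identity, and connecting maps
exist (module `ZStab/StepMap`). -/
def StepMapStmt : Prop :=
  (∀ (p l : ℕ) (g : ℝ → Mat p (p + 1)),
    (∃ A : Matrix (Fin p) (Fin p) ℂ, g 0 = A ⊗ₖ (1 : Matrix (Fin (p + 1)) (Fin (p + 1)) ℂ)) →
    rep₀ p l g = small₀ p l g ⊗ₖ
      (1 : Matrix (Fin (nextP p l + 1)) (Fin (nextP p l + 1)) ℂ)) ∧
  (∀ (p l : ℕ) (hp : 0 < p) (g : ℝ → Mat p (p + 1)),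
    (∃ B : Matrix (Fin (p + 1)) (Fin (p + 1)) ℂ, g 1 = (1 : Matrix (Fin p) (Fin p) ℂ) ⊗ₖ B) →
    rep₁ p l g = (1 : Matrix (Fin (nextP p l)) (Fin (nextP p l)) ℂ) ⊗ₖ small₁ p l hp g) ∧
  ∀ (p l : ℕ), 2 ≤ p → 3 ≤ l → ∃ σ U φ, IsStepMap (p := p) (l := l) σ U φ ∧ Function.Injective φ

/-- Connecting maps have almost flipped tensor copies (module `ZStab/Flip`). -/
def FlipStmt : Prop :=
  ∀ (p : ℕ), 2 ≤ p → ∀ (F : Finset (DD p (p + 1))) (ε : ℝ), 0 < ε →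
    ∃ L : ℕ, ∀ l, L ≤ l → ∀ σ U φ, IsStepMap (p := p) (l := l) σ U φ →
      ∃ u : DD2 (nextP p l) (nextP p l + 1),
        u.1 ∈ unitary (C(II × II, Mat2 (nextP p l) (nextP p l + 1))) ∧
        ∀ f ∈ F, ‖u.1 * inc1 (φ f) * star u.1 - inc2 (φ f)‖ ≤ ε

end

end Vale.P101.ZS
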