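import Vale.Agent.P101.ZStab.Pins

/-!
# P101 `Z`-stability, module RW: `Z(n,n+1)` from the Rørdam–Winter relations

With `a = s₀⋆s₀` all functional calculus is taken at `a`: a function `G = c + t K(t)` with values
in `M_n` goes to `c + ∑ s_k K_kl(a) s_l⋆`.  Below `h = 1` there are `n + 1` frames: the cut-off
and `s_j v θ`.
-/

namespace Vale.P101.ZS.RW

noncomputable section

open Matrix
open scoped Kronecker Matrix.Norms.L2Operator

/-! ## Sums over frames and functions of one self-adjoint element -/

section general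

variable {E : Type*} [CStarAlgebra E] {κ : Type*} [Fintype κ]

/-- The sum `∑ r k * M k l * (r l)⋆`. -/
def lam (r : κ → E) (M : Matrix κ κ E) : E := ∑ k, ∑ l, r k * M k l * star (r l)

theorem lam_add (r : κ → E) (M N : Matrix κ κ E) : lam r (M + N) = lam r M + lam r N := by
  simp [lam, Matrix.add_apply, mul_add, add_mul, Finset.sum_add_distrib]

theorem lam_smul (r : κ → E) (c : ℂ) (M : Matrix κ κ E) : lam r (c • M) = c • lam r M := by
  simp [lam, Matrix.smul_apply, Finset.smul_sum]

theorem lam_star (r : κ → E) (M : Matrix κ κ E) : star (lam r M) = lam r Mᴴ := by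
  rw [lam, lam, Finset.sum_comm, star_sum]
  refine Finset.sum_congr rfl fun k _ => ?_
  rw [star_sum]
  exact Finset.sum_congr rfl fun l _ => by simp [mul_assoc]

theorem lam_mul [DecidableEq κ] {r : κ → E} {W : E}
    (hr : ∀ k l, star (r k) * r l = if k = l then W else 0) (M N : Matrix κ κ E) :
    lam r M * lam r N = lam r ((M.map (· * W)) * N) := by
  have h : ∀ k l l' m, r k * M k l * star (r l) * (r l' * N l' m * star (r m)) =
      if l = l' then r k * (M k l * W * N l m) * star (r m) else 0 := by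
    intro k l l' m
    rw [show r k * M k l * star (r l) * (r l' * N l' m * star (r m)) =
      r k * (M k l * (star (r l) * r l')) * (N l' m * star (r m)) by simp only [mul_assoc], hr]
    split_ifs with e
    · subst e
      simp only [mul_assoc]
    · simp
  calc lam r M * lam r N
      = ∑ k, ∑ l, ∑ l', ∑ m, r k * M k l * star (r l) * (r l' * N l' m * star (r m)) := by
        simp only [lam, Finset.sum_mul]
        refine Finset.sum_congr rfl fun k _ => Finset.sum_congr rfl fun l _ => ?_
        simp only [Finset.mul_sum]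
    _ = ∑ k, ∑ l, ∑ m, r k * (M k l * W * N l m) * star (r m) := by
        refine Finset.sum_congr rfl fun k _ => Finset.sum_congr rfl fun l _ => ?_
        rw [Finset.sum_comm]
        simp [h]
    _ = lam r ((M.map (· * W)) * N) := by
        simp only [lam, Matrix.mul_apply, Matrix.map_apply, Finset.mul_sum, Finset.sum_mul]
        exact Finset.sum_congr rfl fun k _ => Finset.sum_comm

theorem lam_left (r : κ → E) (T : E) (K M : Matrix κ κ E) (hT : ∀ l, T * r l = ∑ k, r k * K k l) :
    T * lam r M = lam r (K * M) := by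
  calc T * lam r M = ∑ l, ∑ m, T * r l * M l m * star (r m) := by
        simp only [lam, Finset.mul_sum, mul_assoc]
    _ = ∑ l, ∑ k, ∑ m, r k * (K k l * M l m) * star (r m) := by
        refine Finset.sum_congr rfl fun l _ => ?_
        rw [Finset.sum_comm]
        refine Finset.sum_congr rfl fun m _ => ?_
        simp only [hT, Finset.sum_mul, mul_assoc]
    _ = lam r (K * M) := by
        simp only [lam, Matrix.mul_apply, Finset.mul_sum, Finset.sum_mul]
        rw [Finset.sum_comm]
        exact Finset.sum_congr rfl fun k _ => Finset.sum_comm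

/-- Complex functions of `a`. -/
def ca (a : E) (g : ℝ → ℂ) : E := cfc (fun z : ℂ => g z.re) a

theorem ca_mul (a : E) {g g' : ℝ → ℂ} (hg : Continuous g) (hg' : Continuous g') :
    ca a (fun t => g t * g' t) = ca a g * ca a g' :=
  cfc_mul (fun z : ℂ => g z.re) (fun z : ℂ => g' z.re) a (by fun_prop) (by fun_prop)

theorem ca_add (a : E) {g g' : ℝ → ℂ} (hg : Continuous g) (hg' : Continuous g') :
    ca a (fun t => g t + g' t) = ca a g + ca a g' :=
  cfc_add (a := a) (fun z : ℂ => g z.re) (fun z : ℂ => g' z.re) (by fun_prop) (by fun_prop)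

theorem ca_smul (a : E) (c : ℂ) {g : ℝ → ℂ} (hg : Continuous g) :
    ca a (fun t => c * g t) = c • ca a g :=
  cfc_smul c (fun z : ℂ => g z.re) a (by fun_prop)

theorem ca_star (a : E) (g : ℝ → ℂ) : star (ca a g) = ca a (fun t => star (g t)) :=
  (cfc_star (fun z : ℂ => g z.re) a).symm

theorem ca_const {a : E} (ha : IsSelfAdjoint a) (c : ℂ) : ca a (fun _ => c) = c • 1 := by
  rw [ca, cfc_const c a ha.isStarNormal, Algebra.algebraMap_eq_smul_one]

theorem ca_real {a : E} (ha : IsSelfAdjoint a) (f : ℝ → ℝ) :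
    ca a (fun t => (f t : ℂ)) = cfc f a :=
  (cfc_real_eq_complex f ha).symm

theorem ca_id {a : E} (ha : IsSelfAdjoint a) : ca a (fun t => (t : ℂ)) = a := by
  rw [ca_real ha (fun t => t), cfc_id' ℝ a ha]

theorem ca_sum {a : E} (ha : IsSelfAdjoint a) {ι : Type*} (S : Finset ι) {g : ι → ℝ → ℂ}
    (hg : ∀ i, Continuous (g i)) : ca a (fun t => ∑ i ∈ S, g i t) = ∑ i ∈ S, ca a (g i) := by
  classical
  induction S using Finset.induction with
  | empty => simp only [Finset.sum_empty]; rw [ca_const ha, zero_smul]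
  | insert i S hi ih =>
    simp only [Finset.sum_insert hi]
    rw [ca_add a (hg i) (continuous_finsetSum _ fun j _ => hg j), ih]

theorem ca_eigen {a x : E} (ha : IsSelfAdjoint a) (h : a * x = x) {g : ℝ → ℂ} (hg : Continuous g) :
    ca a g * x = g 1 • x := by
  have e : g = fun t => ((g t).re : ℂ) + Complex.I * ((g t).im : ℂ) := by
    funext t; rw [mul_comm]; exact (Complex.re_add_im (g t)).symm
  have k : ∀ f : ℝ → ℝ, Continuous f → cfc f a * x = (f 1 : ℂ) • x := fun f hf => by
    rw [cfc_mul_of_eigen ha (c := 1) (by rw [h, one_smul]) hf, Complex.coe_smul]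
  conv_lhs => rw [e]
  rw [ca_add a (by fun_prop) (by fun_prop), ca_smul a _ (by fun_prop), ca_real ha, ca_real ha,
    add_mul, smul_mul_assoc, k _ (by fun_prop), k _ (by fun_prop), smul_smul, ← add_smul]
  congr 1
  exact (congrFun e 1).symm

end general

/-! ## The calculus of `c + t K(t)` -/

variable {E : Type*} [CStarAlgebra E] {n : ℕ}

/-- `n × n` matrices. -/
abbrev Mn (n : ℕ) := Matrix (Fin n) (Fin n) ℂ

/-- The relations, with `a = s₀⋆s₀`. -/
structure Rel (s : Fin n → E) (a v : E) : Prop where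
  sa : IsSelfAdjoint a
  orth : ∀ i j, star (s i) * s j = if i = j then a else 0
  absorb : a * v = v
  defect : star v * v = 1 - ∑ i, s i * star (s i)

/-- `G = c + t K(t)`. -/
def Rep (G : ℝ → Mn n) (c : ℂ) (K : ℝ → Mn n) : Prop :=
  Continuous K ∧ ∀ t : ℝ, G t = c • (1 : Mn n) + (t : ℂ) • K t

/-- The functions with a representation. -/
def R2 (G : ℝ → Mn n) : Prop := ∃ p : ℂ × (ℝ → Mn n), Rep G p.1 p.2

theorem Rep.continuous {G : ℝ → Mn n} {c : ℂ} {K : ℝ → Mn n} (h : Rep G c K) : Continuous G := by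
  rw [show G = fun t : ℝ => c • (1 : Mn n) + (t : ℂ) • K t from funext h.2]
  exact continuous_const.add (Complex.continuous_ofReal.smul h.1)

/-- Entrywise `ca`. -/
def caM (a : E) (K : ℝ → Mn n) : Matrix (Fin n) (Fin n) E :=
  Matrix.of fun k l => ca a fun t => K t k l

theorem caM_apply (a : E) (K : ℝ → Mn n) (k l : Fin n) :
    caM a K k l = ca a fun t => K t k l := rfl

/-- `∑ s_k K_kl(a) s_l⋆`. -/
def psi (s : Fin n → E) (a : E) (K : ℝ → Mn n) : E := lam s (caM a K)

open scoped Classical in
/-- The image of `c + t K(t)`. -/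
def sig (s : Fin n → E) (a : E) (G : ℝ → Mn n) : E :=
  if h : R2 G then h.choose.1 • 1 + psi s a h.choose.2 else 0

theorem Rep.unique [NeZero n] {G : ℝ → Mn n} {c d : ℂ} {K L : ℝ → Mn n} (h : Rep G c K)
    (h' : Rep G d L) : c = d ∧ K = L := by
  have e : c = d := by
    have := congrFun (congrFun ((h.2 0).symm.trans (h'.2 0)) 0) 0
    simpa using this
  refine ⟨e, Continuous.ext_on (dense_compl_singleton (0 : ℝ)) h.1 h'.1 fun t ht => ?_⟩
  have := (h.2 t).symm.trans (h'.2 t)
  rw [e, add_right_inj] at this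
  exact smul_right_injective (Mn n) (Complex.ofReal_ne_zero.2 ht) this

theorem sig_eq [NeZero n] (s : Fin n → E) (a : E) {G : ℝ → Mn n} {c : ℂ} {K : ℝ → Mn n}
    (h : Rep G c K) : sig s a G = c • 1 + psi s a K := by
  have hR : R2 G := ⟨(c, K), h⟩
  obtain ⟨e1, e2⟩ := hR.choose_spec.unique h
  rw [sig, dif_pos hR, e1, e2]

theorem Rep.add {G G' : ℝ → Mn n} {c d : ℂ} {K L : ℝ → Mn n} (h : Rep G c K) (h' : Rep G' d L) :
    Rep (fun t => G t + G' t) (c + d) (fun t => K t + L t) :=
  ⟨h.1.add h'.1, fun t => by simp only [h.2 t, h'.2 t, add_smul, smul_add]; abel⟩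

theorem Rep.smul {G : ℝ → Mn n} {c : ℂ} {K : ℝ → Mn n} (h : Rep G c K) (d : ℂ) :
    Rep (fun t => d • G t) (d * c) (fun t => d • K t) :=
  ⟨h.1.const_smul d, fun t => by simp only [h.2 t, smul_add, smul_smul, mul_comm d]⟩

theorem Rep.star {G : ℝ → Mn n} {c : ℂ} {K : ℝ → Mn n} (h : Rep G c K) :
    Rep (fun t => (G t)ᴴ) (Star.star c) (fun t => (K t)ᴴ) :=
  ⟨h.1.matrix_conjTranspose, fun t => by simp [h.2 t, -Complex.coe_smul]⟩

theorem Rep.mul {G G' : ℝ → Mn n} {c d : ℂ} {K L : ℝ → Mn n} (h : Rep G c K) (h' : Rep G' d L) :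
    Rep (fun t => G t * G' t) (c * d) (fun t : ℝ => c • L t + d • K t + (t : ℂ) • (K t * L t)) :=
  ⟨((h'.1.const_smul c).add (h.1.const_smul d)).add
      (Complex.continuous_ofReal.smul (h.1.mul h'.1)), fun t => by
    simp only [h.2 t, h'.2 t, add_mul, mul_add, smul_mul_assoc, mul_smul_comm, one_mul, mul_one,
      smul_add, smul_smul]
    module⟩

theorem Rep.const (c : ℂ) : Rep (fun _ => c • (1 : Mn n)) c (fun _ => 0) :=
  ⟨continuous_const, fun _ => by simp⟩

theorem R2.add {G G' : ℝ → Mn n} (h : R2 G) (h' : R2 G') : R2 fun t => G t + G' t :=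
  let ⟨_, h⟩ := h; let ⟨_, h'⟩ := h'; ⟨(_, _), h.add h'⟩

theorem R2.smul {G : ℝ → Mn n} (h : R2 G) (d : ℂ) : R2 fun t => d • G t :=
  let ⟨_, h⟩ := h; ⟨(_, _), h.smul d⟩

theorem R2.mul {G G' : ℝ → Mn n} (h : R2 G) (h' : R2 G') : R2 fun t => G t * G' t :=
  let ⟨_, h⟩ := h; let ⟨_, h'⟩ := h'; ⟨(_, _), h.mul h'⟩

theorem R2.star {G : ℝ → Mn n} (h : R2 G) : R2 fun t => (G t)ᴴ :=
  let ⟨_, h⟩ := h; ⟨(_, _), h.star⟩

theorem R2.sub {G G' : ℝ → Mn n} (h : R2 G) (h' : R2 G') : R2 fun t => G t - G' t := by
  simpa [neg_smul, ← sub_eq_add_neg] using h.add (h'.smul (-1))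

theorem R2.const (c : ℂ) : R2 fun _ => c • (1 : Mn n) := ⟨(_, _), Rep.const c⟩

theorem R2.zero : R2 fun _ => (0 : Mn n) := by simpa using R2.const (n := n) 0

theorem R2.sum {ι : Type*} (S : Finset ι) {G : ι → ℝ → Mn n} (h : ∀ i, R2 (G i)) :
    R2 fun t => ∑ i ∈ S, G i t := by
  classical
  induction S using Finset.induction with
  | empty => simpa using R2.zero
  | insert i S hi ih => simpa [Finset.sum_insert hi] using (h i).add ih

/-- Continuous and constant scalar up to `1 / 4`. -/
theorem R2.of_low {G : ℝ → Mn n} {c : ℂ} (hG : Continuous G)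
    (h0 : ∀ t ≤ 1 / 4, G t = c • (1 : Mn n)) : R2 G := by
  refine ⟨(c, fun t => ((max t (1 / 4) : ℝ) : ℂ)⁻¹ • (G t - c • (1 : Mn n))), ?_, fun t => ?_⟩
  · exact (Continuous.inv₀ (by fun_prop) fun t => Complex.ofReal_ne_zero.2
      (ne_of_gt (lt_max_of_lt_right (by norm_num)))).smul (hG.sub continuous_const)
  · dsimp only
    rcases le_total t (1 / 4) with h | h
    · simp [h0 t h]
    · rw [max_eq_left h, smul_smul, mul_inv_cancel₀ (Complex.ofReal_ne_zero.2 (by linarith)),
        one_smul, add_sub_cancel]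

section rel

variable [NeZero n] {s : Fin n → E} {a v : E}

omit [NeZero n] in
theorem psi_add (s : Fin n → E) (a : E) {K L : ℝ → Mn n} (hK : Continuous K) (hL : Continuous L) :
    psi s a (fun t => K t + L t) = psi s a K + psi s a L := by
  rw [psi, psi, psi, ← lam_add]
  congr 1
  refine Matrix.ext fun k l => ?_
  exact ca_add a (hK.matrix_elem k l) (hL.matrix_elem k l)

omit [NeZero n] in
theorem psi_smul (s : Fin n → E) (a : E) (c : ℂ) {K : ℝ → Mn n} (hK : Continuous K) :
    psi s a (fun t => c • K t) = c • psi s a K := by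
  rw [psi, psi, ← lam_smul]
  congr 1
  refine Matrix.ext fun k l => ?_
  exact ca_smul a c (hK.matrix_elem k l)

omit [NeZero n] in
theorem psi_star (s : Fin n → E) (a : E) (K : ℝ → Mn n) :
    star (psi s a K) = psi s a (fun t => (K t)ᴴ) := by
  rw [psi, psi, lam_star]
  congr 1
  refine Matrix.ext fun k l => ?_
  simp only [Matrix.conjTranspose_apply, caM_apply]
  exact ca_star a _

omit [NeZero n] in
theorem psi_mul (R : Rel s a v) {K L : ℝ → Mn n} (hK : Continuous K) (hL : Continuous L) :
    psi s a K * psi s a L = psi s a (fun t : ℝ => (t : ℂ) • (K t * L t)) := by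
  rw [psi, psi, psi, lam_mul R.orth]
  congr 1
  refine Matrix.ext fun k l => ?_
  simp only [caM_apply, Matrix.mul_apply, Matrix.map_apply, Matrix.smul_apply, smul_eq_mul,
    Finset.mul_sum]
  rw [ca_sum R.sa _ (g := fun j (t : ℝ) => (t : ℂ) * (K t k j * L t j l)) fun j =>
    Complex.continuous_ofReal.mul ((hK.matrix_elem k j).mul (hL.matrix_elem j l))]
  refine Finset.sum_congr rfl fun j _ => ?_
  calc ca a (fun t => K t k j) * a * ca a (fun t => L t j l)
      = ca a (fun t => K t k j) * ca a (fun t : ℝ => (t : ℂ)) * ca a (fun t => L t j l) := by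
        rw [ca_id R.sa]
    _ = ca a (fun t => K t k j * (t : ℂ) * L t j l) := by
        rw [← ca_mul a (g := fun t => K t k j) (g' := fun t : ℝ => (t : ℂ))
            (hK.matrix_elem k j) Complex.continuous_ofReal,
          ← ca_mul a (g := fun t => K t k j * (t : ℂ))
            ((hK.matrix_elem k j).mul Complex.continuous_ofReal) (hL.matrix_elem j l)]
    _ = _ := congrArg (ca a) (funext fun t => by ring)

theorem sig_add (s : Fin n → E) (a : E) {G G' : ℝ → Mn n} (h : R2 G) (h' : R2 G') :
    sig s a (fun t => G t + G' t) = sig s a G + sig s a G' := by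
  obtain ⟨⟨c, K⟩, h⟩ := h
  obtain ⟨⟨d, L⟩, h'⟩ := h'
  rw [sig_eq s a (h.add h'), sig_eq s a h, sig_eq s a h', psi_add s a h.1 h'.1, add_smul]
  abel

theorem sig_smul (s : Fin n → E) (a : E) (d : ℂ) {G : ℝ → Mn n} (h : R2 G) :
    sig s a (fun t => d • G t) = d • sig s a G := by
  obtain ⟨⟨c, K⟩, h⟩ := h
  rw [sig_eq s a (h.smul d), sig_eq s a h, psi_smul s a d h.1, smul_add, smul_smul]

theorem sig_star (s : Fin n → E) (a : E) {G : ℝ → Mn n} (h : R2 G) :
    star (sig s a G) = sig s a (fun t => (G t)ᴴ) := by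
  obtain ⟨⟨c, K⟩, h⟩ := h
  rw [sig_eq s a h.star, sig_eq s a h, star_add, star_smul, star_one, psi_star]

theorem sig_mul (R : Rel s a v) {G G' : ℝ → Mn n} (h : R2 G) (h' : R2 G') :
    sig s a G * sig s a G' = sig s a (fun t => G t * G' t) := by
  obtain ⟨⟨c, K⟩, h⟩ := h
  obtain ⟨⟨d, L⟩, h'⟩ := h'
  rw [sig_eq s a (h.mul h'), sig_eq s a h, sig_eq s a h',
    psi_add s a (K := fun t => c • L t + d • K t) (L := fun t : ℝ => (t : ℂ) • (K t * L t))
      ((h'.1.const_smul c).add (h.1.const_smul d))
      (Complex.continuous_ofReal.smul (h.1.mul h'.1)),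
    psi_add s a (K := fun t => c • L t) (L := fun t => d • K t) (h'.1.const_smul c)
      (h.1.const_smul d),
    psi_smul s a c h'.1, psi_smul s a d h.1, ← psi_mul R h.1 h'.1]
  simp only [add_mul, mul_add, smul_mul_assoc, mul_smul_comm, one_mul, mul_one, smul_smul,
    smul_add]
  rw [mul_comm d c]
  abel

theorem sig_const (R : Rel s a v) (c : ℂ) : sig s a (fun _ => c • (1 : Mn n)) = c • 1 := by
  rw [sig_eq s a (Rep.const c)]
  simp [psi, lam, caM_apply, ca_const R.sa]

theorem sig_zero (R : Rel s a v) : sig s a (fun _ => (0 : Mn n)) = 0 := by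
  simpa using sig_const R 0

theorem sig_sum (R : Rel s a v) {ι : Type*} (S : Finset ι) {G : ι → ℝ → Mn n}
    (hG : ∀ i, R2 (G i)) :
    sig s a (fun t => ∑ i ∈ S, G i t) = ∑ i ∈ S, sig s a (G i) := by
  classical
  induction S using Finset.induction with
  | empty => simp only [Finset.sum_empty]; exact sig_zero R
  | insert i S hi ih =>
    simp only [Finset.sum_insert hi]
    rw [sig_add s a (hG i) (R2.sum S hG), ih]

/-- The image of a function acts on the vectors `s j * v` by its value at `1`. -/
theorem sig_sv (R : Rel s a v) {G : ℝ → Mn n} (h : R2 G) (j : Fin n) :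
    sig s a G * (s j * v) = ∑ k, G 1 k j • (s k * v) := by
  obtain ⟨⟨c, K⟩, h⟩ := h
  have e : ∀ k l, s k * ca a (fun t => K t k l) * star (s l) * (s j * v) =
      if l = j then K 1 k j • (s k * v) else 0 := fun k l => by
    rw [show s k * ca a (fun t => K t k l) * star (s l) * (s j * v) =
      s k * ca a (fun t => K t k l) * (star (s l) * s j) * v by simp only [mul_assoc], R.orth]
    split_ifs with e
    · subst e
      rw [mul_assoc, R.absorb, mul_assoc, ca_eigen R.sa R.absorb (h.1.matrix_elem k l),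
        mul_smul_comm]
    · simp
  rw [sig_eq s a h]
  simp only [psi, lam, caM_apply, add_mul, Finset.sum_mul, e, Finset.sum_ite_eq', Finset.mem_univ, if_true,
    smul_mul_assoc, one_mul, h.2 1, Complex.ofReal_one, one_smul, Matrix.add_apply,
    Matrix.smul_apply, smul_eq_mul, add_smul, Finset.sum_add_distrib]
  congr 1
  simp [Matrix.one_apply]

end rel

/-! ## The frames below `h = 1` -/

/-- The squeeze of the interval: `0` up to `1 / 4`, `1` from `3 / 4` on. -/
def sq01 (t : ℝ) : ℝ := max 0 (min 1 (2 * t - 1 / 2))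

theorem sq01_low {t : ℝ} (h : t ≤ 1 / 4) : sq01 t = 0 := by
  rw [sq01, max_eq_left ((min_le_right _ _).trans (by linarith))]

theorem sq01_high {t : ℝ} (h : 3 / 4 ≤ t) : sq01 t = 1 := by
  rw [sq01, min_eq_left (by linarith), max_eq_right zero_le_one]

theorem sq01_one : sq01 1 = 1 := sq01_high (by norm_num)

theorem sq01_mem (t : ℝ) : sq01 t ∈ Set.Icc (0 : ℝ) 1 :=
  ⟨le_max_left _ _, max_le zero_le_one (min_le_left _ _)⟩

@[fun_prop] theorem continuous_sq01 : Continuous sq01 := by unfold sq01; fun_prop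

/-- `ν = 1` up to `3 / 4`, `0` from `7 / 8` on. -/
def nu (t : ℝ) : ℝ := max 0 (min 1 (7 - 8 * t))

@[fun_prop] theorem continuous_nu : Continuous nu := by unfold nu; fun_prop

theorem nu_low {t : ℝ} (h : t ≤ 3 / 4) : nu t = 1 := by
  rw [nu, min_eq_left (by linarith), max_eq_right zero_le_one]

theorem nu_high {t : ℝ} (h : 7 / 8 ≤ t) : nu t = 0 := by
  rw [nu, max_eq_left ((min_le_right _ _).trans (by linarith))]

/-- `√(1 - t)`, cut off below. -/
def rt (t : ℝ) : ℝ := √(max (1 - t) (1 / 16))

theorem rt_pos (t : ℝ) : 0 < rt t := Real.sqrt_pos.2 (lt_max_of_lt_right (by norm_num))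

@[fun_prop] theorem continuous_rt : Continuous rt := by unfold rt; fun_prop

/-- `ν / √(1 - t)`. -/
def th (t : ℝ) : ℝ := nu t / rt t

theorem th_spec (t : ℝ) : th t * (1 - t) * th t = nu t * nu t := by
  rcases le_total t (7 / 8) with h | h
  · have h1 : (0 : ℝ) < 1 - t := by linarith
    rw [th, rt, max_eq_left (by linarith), div_mul_eq_mul_div, div_mul_div_comm,
      Real.mul_self_sqrt h1.le]
    field_simp
  · simp [th, nu_high h]

/-- `(th t - 1) / t`, extended continuously. -/
def kth (t : ℝ) : ℝ :=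
  (nu t - 1) / (max t (1 / 4) * rt t) + (15 / 16) / (max t (15 / 16) * (rt t * (1 + rt t)))

theorem continuous_kth : Continuous kth := by
  unfold kth
  refine (Continuous.div (by fun_prop) (by fun_prop) fun t => ?_).add
    (Continuous.div (by fun_prop) (by fun_prop) fun t => ?_)
  · exact mul_ne_zero (ne_of_gt (lt_max_of_lt_right (by norm_num))) (rt_pos t).ne'
  · have := rt_pos t
    exact mul_ne_zero (ne_of_gt (lt_max_of_lt_right (by norm_num))) (by positivity)

theorem th_rep (t : ℝ) : th t = 1 + t * kth t := by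
  have hq := rt_pos t
  have h1 : t * ((nu t - 1) / (max t (1 / 4) * rt t)) = (nu t - 1) / rt t := by
    rcases le_total t (1 / 4) with h | h
    · simp [nu_low (h.trans (by norm_num))]
    · rw [max_eq_left h]
      have : t ≠ 0 := by linarith
      field_simp
  have h2 : t * ((15 / 16) / (max t (15 / 16) * (rt t * (1 + rt t)))) = (1 - rt t) / rt t := by
    have hm : t * (15 / 16) = (1 - rt t * rt t) * max t (15 / 16) := by
      rw [rt, Real.mul_self_sqrt (le_max_of_le_right (by norm_num))]
      rcases le_total t (15 / 16) with h | h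
      · rw [max_eq_right h, max_eq_left (by linarith)]; ring
      · rw [max_eq_left h, max_eq_right (by linarith)]; ring
    rw [mul_div_assoc', hm, div_eq_div_iff (mul_ne_zero
      (ne_of_gt (lt_max_of_lt_right (by norm_num))) (by positivity)) hq.ne']
    ring
  rw [kth, mul_add, h1, h2, th]
  field_simp
  ring

theorem R2_scalar {f : ℝ → ℝ} {k : ℝ → ℝ} {c : ℝ} (hk : Continuous k)
    (h : ∀ t, f t = c + t * k t) : R2 fun t => ((f t : ℂ) • (1 : Mn n)) := by
  refine ⟨((c : ℂ), fun t => (k t : ℂ) • (1 : Mn n)),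
    (Complex.continuous_ofReal.comp hk).smul continuous_const, fun t => ?_⟩
  dsimp only
  rw [smul_smul, ← add_smul, h t]
  push_cast
  ring_nf

theorem R2_th : R2 fun t => ((th t : ℂ) • (1 : Mn n)) := R2_scalar continuous_kth th_rep

theorem R2_nu : R2 fun t => ((nu t : ℂ) • (1 : Mn n)) :=
  R2.of_low (c := 1) ((Complex.continuous_ofReal.comp continuous_nu).smul continuous_const)
    fun t ht => by simp [nu_low (ht.trans (by norm_num : (1 : ℝ) / 4 ≤ 3 / 4))]

theorem R2_lin : R2 fun t : ℝ => (((1 - t : ℝ) : ℂ) • (1 : Mn n)) :=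
  R2_scalar (c := 1) (k := fun _ => -1) continuous_const fun t => by ring

theorem R2_sq (m : Mn n) : R2 fun t => (sq01 t : ℂ) • m :=
  R2.of_low (c := 0) ((Complex.continuous_ofReal.comp continuous_sq01).smul continuous_const)
    fun t ht => by simp [sq01_low ht]

/-- Blocks. -/
abbrev Bk (n : ℕ) := Matrix (Option (Fin n)) (Option (Fin n)) (Mn n)

/-- All entries have representations. -/
def BB (N : ℝ → Bk n) : Prop := ∀ k l, R2 fun t => N t k l

/-- Moreover vanishing from `3 / 4` on. -/
def C3 (N : ℝ → Bk n) : Prop := BB N ∧ ∀ t, 3 / 4 ≤ t → N t = 0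

theorem BB.add {N N' : ℝ → Bk n} (h : BB N) (h' : BB N') : BB fun t => N t + N' t :=
  fun k l => (h k l).add (h' k l)

theorem BB.sub {N N' : ℝ → Bk n} (h : BB N) (h' : BB N') : BB fun t => N t - N' t :=
  fun k l => (h k l).sub (h' k l)

theorem BB.mul {N N' : ℝ → Bk n} (h : BB N) (h' : BB N') : BB fun t => N t * N' t := fun k l => by
  simp only [Matrix.mul_apply]
  exact R2.sum _ fun j => (h k j).mul (h' j l)

theorem BB.star {N : ℝ → Bk n} (h : BB N) : BB fun t => (N t)ᴴ := fun k l => by
  simpa [Matrix.conjTranspose_apply, Matrix.star_eq_conjTranspose] using (h l k).star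

/-- The frames `ν`, `s_j v θ` below `h = 1`. -/
def fr (s : Fin n → E) (a v : E) : Option (Fin n) → E
  | none => sig s a fun t => (nu t : ℂ) • (1 : Mn n)
  | some j => s j * v * sig s a fun t => (th t : ℂ) • (1 : Mn n)

/-- Entrywise `sig`. -/
def sigM (s : Fin n → E) (a : E) (N : ℝ → Bk n) : Matrix (Option (Fin n)) (Option (Fin n)) E :=
  fun k l => sig s a fun t => N t k l

/-- The image of the functions vanishing from `3 / 4` on. -/
def Lam (s : Fin n → E) (a v : E) (N : ℝ → Bk n) : E := lam (fr s a v) (sigM s a N)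

/-- The endpoint part. -/
def Om (m : Mn n) (t : ℝ) : Bk n := Matrix.of fun k l =>
  match k, l with
  | none, none => (sq01 t : ℂ) • m
  | some i, some j => m i j • (1 : Mn n)
  | none, some _ => 0
  | some _, none => 0

/-- The matrix with one nonzero block. -/
def base (F : Mn n) : Bk n := Matrix.single none none F

theorem Om_BB (m : Mn n) : BB (Om m) := by
  rintro (_ | i) (_ | j)
  · exact R2_sq m
  · exact R2.zero
  · exact R2.zero
  · exact R2.const _

theorem Om_star (m : Mn n) (t : ℝ) : (Om m t)ᴴ = Om mᴴ t := by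
  refine Matrix.ext fun k l => ?_
  rcases k with _ | i <;> rcases l with _ | j <;>
    simp [Om, Matrix.conjTranspose_apply, Matrix.star_eq_conjTranspose, -Complex.coe_smul]

theorem Om_add (m m' : Mn n) (t : ℝ) : Om (m + m') t = Om m t + Om m' t := by
  refine Matrix.ext fun k l => ?_
  rcases k with _ | i <;> rcases l with _ | j <;> simp [Om, add_smul, smul_add]

theorem Om_smul (c : ℂ) (m : Mn n) (t : ℝ) : Om (c • m) t = c • Om m t := by
  refine Matrix.ext fun k l => ?_
  rcases k with _ | i <;> rcases l with _ | j <;> simp [Om, smul_smul, mul_comm, -Complex.coe_smul]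

theorem Om_mul (m m' : Mn n) (t : ℝ) :
    Om m t * Om m' t = Om (m * m') t + base (((sq01 t : ℂ) * sq01 t - sq01 t) • (m * m')) := by
  refine Matrix.ext fun k l => ?_
  rcases k with _ | i <;> rcases l with _ | j <;>
    simp [Om, base, Matrix.mul_apply, Fintype.sum_option, smul_smul, sub_smul, Finset.sum_smul,
      -Complex.coe_smul]
  refine Finset.sum_congr rfl fun x _ => ?_
  rw [mul_comm]

section rel

variable [NeZero n] {s : Fin n → E} {a v : E}

theorem sig_real_star (s : Fin n → E) (a : E) {f : ℝ → ℝ}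
    (h : R2 fun t => ((f t : ℂ) • (1 : Mn n))) :
    star (sig s a fun t => (f t : ℂ) • (1 : Mn n)) = sig s a fun t => (f t : ℂ) • (1 : Mn n) := by
  rw [sig_star s a h]
  simp [-Complex.coe_smul]

theorem fr_rel (R : Rel s a v) (k l : Option (Fin n)) :
    star (fr s a v k) * fr s a v l =
      if k = l then sig s a (fun t => (nu t : ℂ) • (1 : Mn n) * ((nu t : ℂ) • (1 : Mn n)))
      else 0 := by
  have hn : ∀ j, (sig s a fun t => (nu t : ℂ) • (1 : Mn n)) * (s j * v) = 0 := fun j => by
    rw [sig_sv R R2_nu]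
    simp [nu_high (show (7 : ℝ) / 8 ≤ 1 by norm_num)]
  have hn' : ∀ j, star v * star (s j) * (sig s a fun t => (nu t : ℂ) • (1 : Mn n)) = 0 :=
    fun j => by simpa only [star_mul, star_zero, sig_real_star s a R2_nu] using congrArg star (hn j)
  have hd : star v * v = sig s a fun t : ℝ => ((1 - t : ℝ) : ℂ) • (1 : Mn n) := by
    have hr : Rep (fun t : ℝ => ((1 - t : ℝ) : ℂ) • (1 : Mn n)) 1 fun _ => (-1 : Mn n) :=
      ⟨continuous_const, fun t => by
        simp [sub_smul, ← sub_eq_add_neg, -Complex.coe_smul]⟩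
    rw [sig_eq s a hr, R.defect, one_smul, sub_eq_add_neg]
    congr 1
    simp only [psi, lam, caM_apply]
    rw [← Finset.sum_neg_distrib]
    refine Finset.sum_congr rfl fun k _ => ?_
    rw [Finset.sum_eq_single k]
    · simp [ca_const R.sa]
    · intro b _ hb
      simp [Matrix.one_apply_ne hb.symm, ca_const R.sa]
    · simp
  rcases k with _ | i <;> rcases l with _ | j <;>
    simp only [fr, reduceCtorEq, if_false, if_true, star_mul, sig_real_star s a R2_nu,
      sig_real_star s a R2_th]
  · rw [sig_mul R R2_nu R2_nu]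
  · rw [← mul_assoc, hn, zero_mul]
  · simp only [mul_assoc] at hn' ⊢
    rw [hn', mul_zero]
  · rw [show (sig s a fun t => (th t : ℂ) • (1 : Mn n)) * (star v * star (s i)) *
      (s j * v * sig s a fun t => (th t : ℂ) • (1 : Mn n)) =
      (sig s a fun t => (th t : ℂ) • (1 : Mn n)) * (star v * ((star (s i) * s j) * v)) *
        sig s a fun t => (th t : ℂ) • (1 : Mn n) by simp only [mul_assoc], R.orth]
    rcases eq_or_ne i j with e | e
    · subst e
      rw [if_pos rfl, if_pos rfl, R.absorb, hd, sig_mul R R2_th R2_lin,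
        sig_mul R (R2_th.mul R2_lin) R2_th]
      congr 1
      funext t
      simp only [smul_mul_assoc, mul_smul_comm, one_mul, smul_smul]
      rw [← Complex.ofReal_mul, ← Complex.ofReal_mul, ← Complex.ofReal_mul]
      congr 2
      linarith [th_spec t]
    · rw [if_neg e, if_neg (by simpa using e)]
      simp

theorem Lam_add (s : Fin n → E) (a v : E) {N N' : ℝ → Bk n} (h : BB N) (h' : BB N') :
    Lam s a v (fun t => N t + N' t) = Lam s a v N + Lam s a v N' := by
  rw [Lam, Lam, Lam, ← lam_add]
  congr 1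
  funext k l
  exact sig_add s a (h k l) (h' k l)

theorem Lam_smul (s : Fin n → E) (a v : E) (c : ℂ) {N : ℝ → Bk n} (h : BB N) :
    Lam s a v (fun t => c • N t) = c • Lam s a v N := by
  rw [Lam, Lam, ← lam_smul]
  congr 1
  funext k l
  exact sig_smul s a c (h k l)

theorem Lam_star (s : Fin n → E) (a v : E) {N : ℝ → Bk n} (h : BB N) :
    star (Lam s a v N) = Lam s a v (fun t => (N t)ᴴ) := by
  rw [Lam, Lam, lam_star]
  congr 1
  funext k l
  simp only [Matrix.conjTranspose_apply, sigM, Matrix.star_eq_conjTranspose]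
  exact sig_star s a (h l k)

theorem sigM_mul (R : Rel s a v) {N N' : ℝ → Bk n} (h : BB N) (h' : BB N') :
    sigM s a (fun t => N t * N' t) = sigM s a N * sigM s a N' := by
  funext k l
  simp only [sigM, Matrix.mul_apply]
  rw [sig_sum R _ fun j => (h k j).mul (h' j l)]
  exact Finset.sum_congr rfl fun j _ => (sig_mul R (h k j) (h' j l)).symm

theorem Lam_mul (R : Rel s a v) {N N' : ℝ → Bk n} (h : C3 N) (h' : BB N') :
    Lam s a v N * Lam s a v N' = Lam s a v fun t => N t * N' t := by
  rw [Lam, Lam, Lam, sigM_mul R h.1 h', lam_mul (fr_rel R)]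
  congr 2
  funext k l
  simp only [Matrix.map_apply, sigM]
  rw [sig_mul R (h.1 k l) (R2_nu.mul R2_nu)]
  congr 1
  funext t
  rcases le_total t (3 / 4) with e | e
  · simp [nu_low e]
  · simp [h.2 t e]

theorem Om_left (R : Rel s a v) (m : Mn n) {N : ℝ → Bk n} (h : BB N) :
    sig s a (fun t => (sq01 t : ℂ) • m) * Lam s a v N = Lam s a v fun t => Om m t * N t := by
  rw [Lam, Lam, sigM_mul R (Om_BB m) h]
  refine lam_left _ _ _ _ fun l => ?_
  rw [Fintype.sum_option]
  rcases l with _ | j <;> simp only [sigM, fr, Om, Matrix.of_apply]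
  · simp only [sig_zero R, mul_zero, Finset.sum_const_zero, add_zero]
    rw [sig_mul R (R2_sq m) R2_nu, sig_mul R R2_nu (R2_sq m)]
    simp [smul_smul, mul_comm, -Complex.coe_smul]
  · rw [← mul_assoc, sig_sv R (R2_sq m)]
    simp only [sig_zero R, mul_zero, zero_add, sig_const R, mul_smul_comm, mul_one, Finset.sum_mul,
      smul_mul_assoc]
    simp [sq01_one]

theorem Om_right (R : Rel s a v) (m : Mn n) {N : ℝ → Bk n} (h : BB N) :
    Lam s a v N * sig s a (fun t => (sq01 t : ℂ) • m) = Lam s a v fun t => N t * Om m t := by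
  apply star_injective
  rw [star_mul, sig_star s a (R2_sq m), Lam_star s a v h, Lam_star s a v (h.mul (Om_BB m))]
  simp only [Matrix.conjTranspose_smul, Complex.star_def, Complex.conj_ofReal,
    Matrix.conjTranspose_mul, Om_star]
  exact Om_left R mᴴ h.star

theorem Lam_base (R : Rel s a v) {F : ℝ → Mn n} (h : R2 F) (h1 : ∀ t, 3 / 4 ≤ t → F t = 0) :
    Lam s a v (fun t => base (F t)) = sig s a F := by
  simp only [Lam, lam, sigM, base, Fintype.sum_option, Matrix.single_apply_same, fr,
    reduceCtorEq, not_false_eq_true, and_false, false_and, Matrix.single_apply_of_ne,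
    sig_zero R, mul_zero, zero_mul, Finset.sum_const_zero, add_zero]
  rw [sig_real_star s a R2_nu, sig_mul R R2_nu h, sig_mul R (R2_nu.mul h) R2_nu]
  congr 1
  funext t
  rcases le_total t (3 / 4) with e | e
  · simp [nu_low e]
  · simp [h1 t e]

/-! ## The homomorphism on the collapsed model -/

/-- Both ends collapsed. -/
def A3 (G : ℝ → Bk n) : Prop := BB G ∧ ∀ t, 3 / 4 ≤ t → G t = Om (G 1 none none) t

/-- The homomorphism on the collapsed model. -/
def piHom (s : Fin n → E) (a v : E) (G : ℝ → Bk n) : E :=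
  sig s a (fun t => (sq01 t : ℂ) • G 1 none none) +
    Lam s a v fun t => G t - Om (G 1 none none) t

theorem piHom_add (s : Fin n → E) (a v : E) {G G' : ℝ → Bk n} (h : A3 G) (h' : A3 G') :
    piHom s a v (fun t => G t + G' t) = piHom s a v G + piHom s a v G' := by
  simp only [piHom, Matrix.add_apply, smul_add, Om_add]
  rw [sig_add s a (R2_sq (G 1 none none)) (R2_sq (G' 1 none none)),
    show (fun t => G t + G' t - (Om (G 1 none none) t + Om (G' 1 none none) t)) =
      fun t => (G t - Om (G 1 none none) t) + (G' t - Om (G' 1 none none) t) from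
        funext fun t => by abel,
    Lam_add s a v (h.1.sub (Om_BB _)) (h'.1.sub (Om_BB _))]
  abel

theorem piHom_smul (s : Fin n → E) (a v : E) (c : ℂ) {G : ℝ → Bk n} (h : A3 G) :
    piHom s a v (fun t => c • G t) = c • piHom s a v G := by
  simp only [piHom, Matrix.smul_apply, Om_smul, ← smul_sub, smul_comm _ c]
  rw [sig_smul s a c (R2_sq _), Lam_smul s a v c (h.1.sub (Om_BB _)), smul_add]

theorem piHom_star (s : Fin n → E) (a v : E) {G : ℝ → Bk n} (h : A3 G) :
    star (piHom s a v G) = piHom s a v fun t => (G t)ᴴ := by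
  simp only [piHom, star_add, sig_star s a (R2_sq _), Lam_star s a v (h.1.sub (Om_BB _)),
    Matrix.conjTranspose_smul, Complex.star_def, Complex.conj_ofReal, Matrix.conjTranspose_sub,
    Om_star, Matrix.conjTranspose_apply, Matrix.star_eq_conjTranspose]

theorem piHom_one (R : Rel s a v) : piHom s a v (fun _ => 1) = 1 := by
  have e : (fun t => (1 : Bk n) - Om 1 t) =
      fun t => base ((1 - (sq01 t : ℂ)) • (1 : Mn n)) := by
    funext t
    refine Matrix.ext fun k l => ?_
    rcases k with _ | i <;> rcases l with _ | j <;>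
      simp [Om, base, sub_smul, Matrix.one_apply, -Complex.coe_smul]
  have hF : R2 fun t => (1 - (sq01 t : ℂ)) • (1 : Mn n) :=
    R2.of_low (c := 1) (by fun_prop) fun t ht => by simp [sq01_low ht]
  simp only [piHom, Matrix.one_apply_eq, e]
  rw [Lam_base R hF fun t ht => by simp [sq01_high ht], ← sig_add s a (R2_sq 1) hF]
  simp only [← add_smul, add_sub_cancel]
  simpa using sig_const R (1 : ℂ)

theorem piHom_mul (R : Rel s a v) {G G' : ℝ → Bk n} (h : A3 G) (h' : A3 G') :
    piHom s a v (fun t => G t * G' t) = piHom s a v G * piHom s a v G' := by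
  set m := G 1 none none with hm
  set m' := G' 1 none none with hm'
  have hmm : (G 1 * G' 1) none none = m * m' := by
    rw [h.2 1 (by norm_num), h'.2 1 (by norm_num), ← hm, ← hm']
    simp [Matrix.mul_apply, Fintype.sum_option, Om, sq01_one]
  let D : ℝ → Bk n := fun t => G t - Om m t
  let D' : ℝ → Bk n := fun t => G' t - Om m' t
  have hD : C3 D := ⟨h.1.sub (Om_BB _), fun t ht => sub_eq_zero.2 (h.2 t ht)⟩
  have hD' : BB D' := h'.1.sub (Om_BB _)
  let F : ℝ → Mn n := fun t => ((sq01 t : ℂ) * sq01 t - sq01 t) • (m * m')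
  have hF : R2 F := R2.of_low (c := 0) (by fun_prop) fun t ht => by simp [F, sq01_low ht]
  have hF1 : ∀ t, 3 / 4 ≤ t → F t = 0 := fun t ht => by simp [F, sq01_high ht]
  have hbF : BB fun t => base (F t) := by
    rintro (_ | i) (_ | j) <;> simp only [base, reduceCtorEq, not_false_eq_true, and_false,
      false_and, Matrix.single_apply_of_ne, Matrix.single_apply_same]
    · exact hF
    all_goals exact R2.zero
  have e : (fun t => G t * G' t - Om (m * m') t) =
      fun t => base (F t) + (Om m t * D' t + (D t * Om m' t + D t * D' t)) := by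
    funext t
    have := Om_mul m m' t
    simp only [D, D', sub_mul, mul_sub, this, F]
    abel
  have hP : sig s a (fun t => (sq01 t : ℂ) • m) * sig s a (fun t => (sq01 t : ℂ) • m') =
      sig s a (fun t => (sq01 t : ℂ) • (m * m')) + sig s a F := by
    rw [sig_mul R (R2_sq m) (R2_sq m'), ← sig_add s a (R2_sq (m * m')) hF]
    congr 1
    funext t
    simp [F, smul_smul, sub_smul, -Complex.coe_smul]
  simp only [piHom, hmm, ← hm, ← hm', e]
  rw [Lam_add s a v hbF (((Om_BB m).mul hD').add ((hD.1.mul (Om_BB m')).add (hD.1.mul hD'))),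
    Lam_add s a v ((Om_BB m).mul hD') ((hD.1.mul (Om_BB m')).add (hD.1.mul hD')),
    Lam_add s a v (hD.1.mul (Om_BB m')) (hD.1.mul hD'), Lam_base R hF hF1,
    ← Om_left R m hD', ← Om_right R m' hD.1, ← Lam_mul R hD hD',
    ← add_assoc, ← hP]
  simp only [add_mul, mul_add, D, D']
  abel

end rel

/-! ## The dimension drop algebra -/

/-- The indices of `M_n ⊗ M_{n+1}`. -/
abbrev Idx (n : ℕ) := Fin n × Fin (n + 1)

/-- Reading a matrix as `(n + 1) × (n + 1)` blocks. -/
def blk (X : Mat n (n + 1)) : Bk n := fun k l i j =>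
  X (i, (finSuccEquiv n).symm k) (j, (finSuccEquiv n).symm l)

theorem blk_mul (X Y : Mat n (n + 1)) : blk (X * Y) = blk X * blk Y := by
  refine Matrix.ext fun k l => Matrix.ext fun i j => ?_
  simp only [blk, Matrix.mul_apply, Matrix.sum_apply, Fintype.sum_prod_type]
  rw [Finset.sum_comm]
  exact ((finSuccEquiv n).symm.sum_comp fun q => ∑ p, X (i, (finSuccEquiv n).symm k) (p, q) *
    Y (p, q) (j, (finSuccEquiv n).symm l)).symm

theorem blk_one : blk (1 : Mat n (n + 1)) = 1 := by
  refine Matrix.ext fun k l => Matrix.ext fun i j => ?_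
  rcases eq_or_ne k l with e | e
  · subst e
    simp [blk, Matrix.one_apply]
  · rw [Matrix.one_apply_ne e]
    simp [blk, e]

theorem blk_star (X : Mat n (n + 1)) : blk Xᴴ = (blk X)ᴴ := by
  refine Matrix.ext fun k l => Matrix.ext fun i j => ?_
  simp [blk, Matrix.conjTranspose_apply]

/-- `(i, some p) ↦ (p, some i)`, fixing `(i, none)`. -/
def flipFun (x : Idx n) : Idx n :=
  match finSuccEquiv n x.2 with
  | none => x
  | some p => (p, (finSuccEquiv n).symm (some x.1))

theorem flipFun_invol : Function.Involutive (flipFun (n := n)) := by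
  rintro ⟨i, k⟩
  obtain ⟨o, rfl⟩ := (finSuccEquiv n).symm.surjective k
  rcases o with _ | p
  · simp [flipFun]
  · simp [flipFun]

/-- The permutation of the basis used at the upper end. -/
def flipE (n : ℕ) : Equiv.Perm (Idx n) := flipFun_invol.toPerm

/-- The projection belonging to the permutation. -/
def flipQ (n : ℕ) : Mat n (n + 1) := (1 / 2 : ℂ) • (1 - (flipE n).toPEquiv.toMatrix)

theorem flipMat_sq :
    ((flipE n).toPEquiv.toMatrix : Mat n (n + 1)) * (flipE n).toPEquiv.toMatrix = 1 := by
  rw [PEquiv.toMatrix_toPEquiv_mul, Matrix.submatrix]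
  refine Matrix.ext fun p q => ?_
  simp [PEquiv.toMatrix_apply, Matrix.one_apply, flipE, flipFun_invol p]

theorem flipMat_star :
    ((flipE n).toPEquiv.toMatrix : Mat n (n + 1))ᴴ = (flipE n).toPEquiv.toMatrix := by
  refine Matrix.ext fun p q => ?_
  simp only [Matrix.conjTranspose_apply, PEquiv.toMatrix_apply, Equiv.toPEquiv_apply,
    Option.mem_def, Option.some.injEq]
  rw [apply_ite star, star_one, star_zero]
  exact if_congr ⟨fun h => by rw [← h]; exact flipFun_invol q,
    fun h => by rw [← h]; exact flipFun_invol p⟩ rfl rfl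

theorem flipQ_sq : flipQ n * flipQ n = flipQ n := by
  simp only [flipQ, smul_mul_assoc, mul_smul_comm, sub_mul, mul_sub, one_mul, mul_one,
    flipMat_sq]
  module

theorem flipQ_star : (flipQ n)ᴴ = flipQ n := by
  simp only [flipQ, Matrix.conjTranspose_smul, Matrix.conjTranspose_sub, Matrix.conjTranspose_one,
    flipMat_star]
  norm_num

/-- A path of unitaries from `1` to the permutation, constant near both ends. -/
def path (n : ℕ) (t : ℝ) : Mat n (n + 1) :=
  1 + (Complex.exp (Real.pi * sq01 t * Complex.I) - 1) • flipQ n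

theorem continuous_path : Continuous (path n) := by unfold path; fun_prop

theorem path_unitary (t : ℝ) :
    (path n t)ᴴ * path n t = 1 ∧ path n t * (path n t)ᴴ = 1 := by
  set z := Complex.exp (Real.pi * sq01 t * Complex.I)
  have hz : (starRingEnd ℂ) z * z = 1 := by
    have hn : ‖z‖ = 1 := by simp [z, Complex.norm_exp]
    rw [← Complex.normSq_eq_conj_mul_self, Complex.normSq_eq_norm_sq, hn]
    simp
  have hs : (path n t)ᴴ = 1 + ((starRingEnd ℂ) z - 1) • flipQ n := by
    simp [path, z, flipQ_star]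
  have key : ∀ b c : ℂ, b + c + b * c = 0 → (1 + b • flipQ n) * (1 + c • flipQ n) = 1 :=
    fun b c h => by
      rw [add_mul, mul_add, mul_add, one_mul, mul_one, one_mul, smul_mul_smul_comm, flipQ_sq,
        add_assoc, ← add_smul, ← add_smul, show c + (b + b * c) = 0 by rw [← h]; ring, zero_smul,
        add_zero]
  rw [hs]
  exact ⟨key _ _ (by linear_combination hz), key _ _ (by linear_combination hz)⟩

theorem path_high {t : ℝ} (ht : 3 / 4 ≤ t) : path n t = (flipE n).toPEquiv.toMatrix := by
  rw [path, sq01_high ht, Complex.ofReal_one, mul_one, Complex.exp_pi_mul_I, flipQ, smul_smul]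
  norm_num

theorem path_low {t : ℝ} (ht : t ≤ 1 / 4) : path n t = 1 := by simp [path, sq01_low ht]

/-- The collapsed and conjugated function. -/
def collapse (f : C(II, Mat n (n + 1))) (t : ℝ) : Bk n :=
  blk (path n t * f ⟨1 - sq01 t, by constructor <;> linarith [(sq01_mem t).1, (sq01_mem t).2]⟩ *
    (path n t)ᴴ)

theorem blk_flip (A : Mn n) :
    blk ((A ⊗ₖ (1 : Matrix (Fin (n + 1)) (Fin (n + 1)) ℂ)).submatrix (flipE n) (flipE n)) =
      Om A 1 := by
  refine Matrix.ext fun k l => Matrix.ext fun i j => ?_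
  rcases k with _ | p <;> rcases l with _ | q <;>
    simp [blk, flipE, flipFun, Om, sq01_one, Matrix.one_apply, Matrix.kroneckerMap_apply,
      (Fin.succ_ne_zero _).symm]

theorem collapse_A3 {f : C(II, Mat n (n + 1))} (hf : f ∈ DD n (n + 1)) : A3 (collapse f) := by
  obtain ⟨⟨A, hA⟩, B, hB⟩ := hf
  have hc : Continuous fun t => path n t *
      f ⟨1 - sq01 t, by constructor <;> linarith [(sq01_mem t).1, (sq01_mem t).2]⟩ *
      (path n t)ᴴ :=
    (continuous_path.mul (f.continuous.comp (Continuous.subtype_mk (by fun_prop) _))).mul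
      continuous_path.matrix_conjTranspose
  have hlow : ∀ t ≤ 1 / 4, ∀ k l, collapse f t k l =
      B ((finSuccEquiv n).symm k) ((finSuccEquiv n).symm l) • (1 : Mn n) := fun t ht k l => by
    have h1 : collapse f t = blk ((1 : Mn n) ⊗ₖ B) := by
      rw [collapse, path_low ht, Matrix.conjTranspose_one, one_mul, mul_one, ← hB]
      congr 2
      apply Subtype.ext
      simp [sq01_low ht]
    rw [h1]
    refine Matrix.ext fun i j => ?_
    simp only [blk, Matrix.kroneckerMap_apply, Matrix.smul_apply, smul_eq_mul]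
    exact mul_comm _ _
  have hhigh : ∀ t, 3 / 4 ≤ t → collapse f t = Om A t := fun t ht => by
    have h1 : collapse f t =
        blk ((A ⊗ₖ (1 : Matrix (Fin (n + 1)) (Fin (n + 1)) ℂ)).submatrix (flipE n) (flipE n)) := by
      rw [collapse, path_high ht, flipMat_star, PEquiv.toMatrix_toPEquiv_mul,
        PEquiv.mul_toMatrix_toPEquiv, Matrix.submatrix_submatrix, Function.comp_id,
        Function.id_comp, show (flipE n).symm = flipE n from flipFun_invol.toPerm_symm, ← hA]
      congr 3
      apply Subtype.ext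
      simp [sq01_high ht]
    rw [h1, blk_flip]
    refine Matrix.ext fun k l => ?_
    rcases k with _ | p <;> rcases l with _ | q <;> simp [Om, sq01_high ht, sq01_one]
  refine ⟨fun k l => R2.of_low (continuous_matrix fun i j => (hc.matrix_elem _ _ : _))
    fun t ht => hlow t ht k l, fun t ht => ?_⟩
  rw [hhigh t ht, hhigh 1 (by norm_num)]
  simp [Om, sq01_one]

/-- The relations give a unital homomorphism from `Z(n,n+1)`. -/
theorem rwStmt : RWStmt := by
  intro E _ n hn s v _ h
  have : NeZero n := ⟨hn.ne'⟩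
  obtain ⟨r, hr⟩ := h.pos
  set s₀ := s ⟨0, hn⟩
  have h0 : IsSelfAdjoint s₀ := by rw [hr]; exact IsSelfAdjoint.star_mul_self r
  have R : Rel s (s₀ * s₀) v :=
    ⟨by rw [IsSelfAdjoint, star_mul, h0.star_eq], h.orth,
      by rw [mul_assoc, h.absorb, h.absorb], h.defect⟩
  have hA : ∀ f : DD n (n + 1), A3 (collapse f.1) := fun f => collapse_A3 f.2
  have hsmul : ∀ (c : ℂ) (f : DD n (n + 1)),
      collapse (c • f.1) = fun t => c • collapse f.1 t := fun c f => by
    funext t
    simp only [collapse, ContinuousMap.smul_apply, mul_smul_comm, smul_mul_assoc]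
    rfl
  have h1 : collapse (1 : DD n (n + 1)).1 = fun _ => (1 : Bk n) := by
    funext t
    simp [collapse, (path_unitary t).2, blk_one]
  refine ⟨{ toFun := fun f => piHom s (s₀ * s₀) v (collapse f.1), map_one' := ?_,
            map_mul' := fun f g => ?_, map_zero' := ?_, map_add' := fun f g => ?_,
            commutes' := fun c => ?_, map_star' := fun f => ?_ }⟩
  · rw [h1, piHom_one R]
  · show piHom s _ v (collapse (f.1 * g.1)) = _
    rw [← piHom_mul R (hA f) (hA g)]
    congr 1
    funext t
    simp only [collapse, ContinuousMap.mul_apply, ← blk_mul]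
    congr 1
    simp only [mul_assoc]
    rw [← mul_assoc (path n t)ᴴ (path n t), (path_unitary t).1, one_mul]
  · have := piHom_smul s (s₀ * s₀) v 0 (hA 0)
    rw [← hsmul, zero_smul ℂ (piHom _ _ _ _)] at this
    rw [show (0 : ℂ) • (0 : DD n (n + 1)).1 = (0 : DD n (n + 1)).1 from
      ContinuousMap.ext fun x => by simp] at this
    exact this
  · show piHom s _ v (collapse (f.1 + g.1)) = _
    rw [← piHom_add s _ v (hA f) (hA g)]
    congr 1
    funext t
    simp only [collapse, ContinuousMap.add_apply, mul_add, add_mul]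
    rfl
  · show piHom s _ v (collapse (algebraMap ℂ (DD n (n + 1)) c).1) = _
    rw [show (algebraMap ℂ (DD n (n + 1)) c).1 = c • (1 : DD n (n + 1)).1 by
        rw [Algebra.algebraMap_eq_smul_one]; rfl,
      hsmul, piHom_smul s _ v c (hA 1), h1, piHom_one R, Algebra.algebraMap_eq_smul_one]
  · show piHom s _ v (collapse (star f.1)) = _
    rw [piHom_star s _ v (hA f)]
    congr 1
    funext t
    simp [collapse, ← blk_star, Matrix.conjTranspose_mul, Matrix.star_eq_conjTranspose, mul_assoc]

end

end Vale.P101.ZS.RW
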