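import Vale.Agent.P101.ZStab.Pins

/-!
# P101: the Rørdam-Winter relations of `Z(2^k,2^k+1)` in an algebra with the copy property

The square-zero witness of `P101.exists_witness` is put into `k` commuting slots of each node of the
tree of `P101.exists_relations`, and is glued separately in each slot.  The products give an order
zero map of `M_(2^k)` whose defect is absorbed by every node.
-/

namespace Vale.P101.ZS

noncomputable section

/-- Splitting off the last slot. -/
def slotEquiv (k : ℕ) : Fin (2 ^ k) × Fin 2 ≃ Fin (2 ^ (k + 1)) :=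
  finProdFinEquiv.trans (finCongr (pow_succ 2 k).symm)

theorem slotEquiv_zero (k : ℕ) :
    slotEquiv k (⟨0, Nat.two_pow_pos k⟩, 0) = ⟨0, Nat.two_pow_pos (k + 1)⟩ := by
  apply Fin.ext
  simp [slotEquiv, finProdFinEquiv]

/-- Orthogonal frames from commuting square-zero elements. -/
theorem exists_frames {B : Type*} [Ring B] [StarRing B] {k : ℕ} (y : Fin k → B)
    (hy : ∀ i, y i * y i = 0)
    (hc : Pairwise fun i j => Commute (y i) (y j) ∧ Commute (y i) (star (y j))) :
    ∃ Θ : Fin (2 ^ k) → B, ∀ Z, (∀ i, y i * star (y i) * Z = Z) →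
      ∀ b c, star (Θ b) * (Θ c * Z) = if b = c then Z else 0 := by
  induction k with
  | zero =>
    refine ⟨fun _ => 1, fun Z _ b c => ?_⟩
    rw [if_pos (Fin.ext (by omega)), star_one, one_mul, one_mul]
  | succ k ih =>
    obtain ⟨Θ, hΘ⟩ := ih (fun i => y i.castSucc) (fun i => hy _)
      (fun i j h => hc (fun e => h (Fin.castSucc_injective _ e)))
    set Y := y (Fin.last k) with hYdef
    let e : Fin 2 → B := ![Y * star Y, star Y]
    refine ⟨fun b => Θ ((slotEquiv k).symm b).1 * e ((slotEquiv k).symm b).2,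
      fun Z hZ b c => ?_⟩
    have hYY : Y * star Y * Z = Z := hZ _
    have hYZ : Y * Z = 0 := by
      rw [← hYY, ← mul_assoc, ← mul_assoc, hy, zero_mul, zero_mul]
    have he : ∀ p q, star (e p) * (e q * Z) = if p = q then Z else 0 := by
      intro p q
      fin_cases p <;> fin_cases q
      · simp [e, mul_assoc, mul_assoc Y, show Y * (star Y * Z) = Z by rw [← mul_assoc, hYY]]
      · simp [e, mul_assoc, ← mul_assoc (star Y) (star Y),
          show star Y * star Y = 0 by rw [← star_mul, hy, star_zero]]
      · simp [e, hYY, hYZ]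
      · simp [e, ← mul_assoc, hYY]
    have hfix : ∀ q i, y (Fin.castSucc i) * star (y i.castSucc) * (e q * Z) = e q * Z := by
      intro q i
      have hne : Fin.castSucc i ≠ Fin.last k := Fin.castSucc_ne_last i
      have c1 : Commute (y i.castSucc * star (y i.castSucc)) Y :=
        (hc hne).1.mul_left (by simpa using (hc hne).2.star_star)
      have c2 : Commute (y i.castSucc * star (y i.castSucc)) (star Y) :=
        (hc hne).2.mul_left (hc hne).1.star_star
      have : Commute (y i.castSucc * star (y i.castSucc)) (e q) := by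
        fin_cases q
        · exact c1.mul_right c2
        · exact c2
      rw [← mul_assoc, this.eq, mul_assoc, hZ]
    show star (_ * _) * (_ * _ * Z) = _
    rw [star_mul, mul_assoc, mul_assoc (Θ _) (e _), hΘ _ (hfix _)]
    rw [if_congr (((slotEquiv k).symm.apply_eq_iff_eq (x := b) (y := c)).symm.trans Prod.ext_iff)
      (rfl : Z = Z) (rfl : (0 : B) = 0)]
    split_ifs with h1 h2 h2
    · rw [he, if_pos h2.2]
    · rw [he, if_neg fun h => h2 ⟨h1, h⟩]
    · exact absurd h2.1 h1
    · rw [mul_zero]

section Cone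

variable {E : Type*} [CStarAlgebra E] [PartialOrder E] [StarOrderedRing E]

/-- Commuting square-zero contractions give an order zero cone of `M_(2^k)`. -/
theorem exists_cone {k : ℕ} (x : Fin k → E) (hx : ∀ i, x i * x i = 0)
    (hc : Pairwise fun i j => Commute (x i) (x j) ∧ Commute (x i) (star (x j)))
    (hle : ∀ i, 0 ≤ 1 - (star (x i) * x i + x i * star (x i))) :
    ∃ s : Fin (2 ^ k) → E,
      (∀ i j, star (s i) * s j =
        if i = j then s ⟨0, Nat.two_pow_pos k⟩ * s ⟨0, Nat.two_pow_pos k⟩ else 0) ∧
      IsSelfAdjoint (s ⟨0, Nat.two_pow_pos k⟩) ∧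
      (∀ w, (∀ i, Commute w (x i) ∧ Commute w (star (x i))) →
        ∀ b, Commute w (s b) ∧ Commute w (star (s b))) ∧
      0 ≤ 1 - ∑ b, s b * star (s b) ∧
      (∀ a, (∀ i, a * (1 - (star (x i) * x i + x i * star (x i))) =
          1 - (star (x i) * x i + x i * star (x i))) →
        a * (1 - ∑ b, s b * star (s b)) = 1 - ∑ b, s b * star (s b)) ∧
      ∀ T, (∀ i, (star (x i) * x i + x i * star (x i)) * T = T) →
        (∑ b, s b * star (s b)) * T = T := by
  induction k with
  | zero =>
    refine ⟨fun _ => 1, fun i j => ?_, IsSelfAdjoint.one E, fun w _ b => ?_, ?_, ?_, ?_⟩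
    · rw [if_pos (Fin.ext (by omega)), star_one]
    · exact ⟨Commute.one_right w, by simp⟩
    · simp
    · simp
    · simp
  | succ k ih =>
    have hne : ∀ i : Fin k, Fin.castSucc i ≠ Fin.last k := fun i => Fin.castSucc_ne_last i
    obtain ⟨s, hs, hs0, hcom, hnn, ha, hT⟩ := ih (fun i => x i.castSucc) (fun i => hx _)
      (fun i j h => hc (fun e => h (Fin.castSucc_injective _ e))) (fun i => hle _)
    set X := x (Fin.last k) with hXdef
    set h := star X * X + X * star X with hh
    set a₀ := cfc Real.sqrt (X * star X) with ha₀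
    have hXsa : IsSelfAdjoint (X * star X) := IsSelfAdjoint.mul_star_self X
    have ha₀sa : star a₀ = a₀ := (cfc_predicate (p := IsSelfAdjoint) _ _).star_eq
    have ha₀sq : a₀ * a₀ = X * star X := by
      rw [ha₀, ← cfc_mul _ _ _ Real.continuous_sqrt.continuousOn Real.continuous_sqrt.continuousOn]
      conv_rhs => rw [← cfc_id' ℝ (X * star X) hXsa]
      exact cfc_congr fun t ht => Real.mul_self_sqrt
        (spectrum_nonneg_of_nonneg (mul_star_self_nonneg X) ht)
    have hXa₀ : X * a₀ = 0 := by
      rw [ha₀, mul_cfc_of_eigen hXsa (c := 0) (by rw [← mul_assoc, hx]; simp)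
        Real.continuous_sqrt]
      simp
    let e : Fin 2 → E := ![a₀, star X]
    have he : ∀ p q, star (e p) * e q = if p = q then a₀ * a₀ else 0 := by
      intro p q
      fin_cases p <;> fin_cases q
      · simp [e, ha₀sa]
      · simpa [e, star_mul, ha₀sa] using congrArg star hXa₀
      · simp [e, hXa₀]
      · simp [e, ha₀sq]
    have hesum : ∑ c, e c * star (e c) = h := by
      simp [e, Fin.sum_univ_two, ha₀sa, ha₀sq, hh, add_comm]
    have hecom : ∀ w, Commute w X → Commute w (star X) →
        ∀ c, Commute w (e c) ∧ Commute w (star (e c)) := by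
      intro w w1 w2 c
      have : Commute w a₀ := ((w1.mul_right w2).symm.cfc_real Real.sqrt).symm
      fin_cases c
      · exact ⟨this, by simpa [e, ha₀sa] using this⟩
      · exact ⟨w2, by simpa [e] using w1⟩
    have hXs : ∀ b, (Commute X (s b) ∧ Commute X (star (s b))) ∧
        (Commute (star X) (s b) ∧ Commute (star X) (star (s b))) := fun b =>
      ⟨hcom X (fun i => hc (hne i).symm) b, hcom (star X)
        (fun i => ⟨by simpa using (hc (hne i).symm).2.star_star, (hc (hne i).symm).1.star_star⟩) b⟩
    have hes : ∀ b c, (Commute (s b) (e c) ∧ Commute (s b) (star (e c))) ∧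
        (Commute (star (s b)) (e c) ∧ Commute (star (s b)) (star (e c))) := fun b c =>
      ⟨hecom _ (hXs b).1.1.symm (hXs b).2.1.symm c, hecom _ (hXs b).1.2.symm (hXs b).2.2.symm c⟩
    set o : Fin (2 ^ k) := ⟨0, Nat.two_pow_pos k⟩ with ho
    set H := ∑ b, s b * star (s b) with hH
    let t : Fin (2 ^ (k + 1)) → E := fun b =>
      s ((slotEquiv k).symm b).1 * e ((slotEquiv k).symm b).2
    have ht0 : t ⟨0, Nat.two_pow_pos (k + 1)⟩ = s o * a₀ := by
      simp only [t, ← slotEquiv_zero, Equiv.symm_apply_apply]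
      rfl
    have hsum : ∑ b, t b * star (t b) = H * h := by
      rw [← (slotEquiv k).sum_comp, Fintype.sum_prod_type, hH, Finset.sum_mul]
      refine Finset.sum_congr rfl fun b _ => ?_
      have : Commute (star (s b)) h :=
        ((hXs b).2.2.symm.mul_right (hXs b).1.2.symm).add_right
          ((hXs b).1.2.symm.mul_right (hXs b).2.2.symm)
      rw [mul_assoc, this.eq, ← hesum, Finset.sum_mul, Finset.mul_sum]
      refine Finset.sum_congr rfl fun c _ => ?_
      simp only [t, Equiv.symm_apply_apply, star_mul, mul_assoc]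
    have hsplit : 1 - H * h = (1 - h) + (1 - H) * h := by noncomm_ring
    refine ⟨t, fun i j => ?_, ?_, fun w hw b => ?_, ?_, fun a hha => ?_, fun T hhT => ?_⟩
    · rw [ht0]
      simp only [t, star_mul]
      set p := (slotEquiv k).symm i
      set q := (slotEquiv k).symm j
      have hso : Commute (s o) a₀ := (hes o 0).1.1
      rw [show star (e p.2) * star (s p.1) * (s q.1 * e q.2) =
        star (e p.2) * (star (s p.1) * s q.1) * e q.2 by noncomm_ring, hs,
        if_congr (((slotEquiv k).symm.apply_eq_iff_eq (x := i) (y := j)).symm.trans Prod.ext_iff)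
          (rfl : s o * a₀ * (s o * a₀) = _) (rfl : (0 : E) = 0)]
      by_cases h1 : p.1 = q.1
      · have cm : Commute (star (e p.2)) (s o * s o) :=
          ((hes o p.2).1.2.mul_left (hes o p.2).1.2).symm
        rw [if_pos h1, cm.eq, mul_assoc, he]
        by_cases h2 : p.2 = q.2
        · rw [if_pos h2, if_pos ⟨h1, h2⟩]
          simp only [mul_assoc]
          rw [← mul_assoc (a₀) (s o), ← hso.eq, mul_assoc]
        · rw [if_neg h2, if_neg fun h => h2 h.2, mul_zero]
      · rw [if_neg h1, if_neg fun h => h1 h.1, mul_zero, zero_mul]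
    · rw [ht0]
      exact (IsSelfAdjoint.commute_iff hs0 ha₀sa).1 (hes o 0).1.1
    · obtain ⟨w1, w2⟩ := hecom w (hw _).1 (hw _).2 ((slotEquiv k).symm b).2
      obtain ⟨v1, v2⟩ := hcom w (fun i => hw _) ((slotEquiv k).symm b).1
      exact ⟨v1.mul_right w1, by rw [star_mul]; exact w2.mul_right v2⟩
    · rw [hsum, hsplit]
      refine add_nonneg (hle _) ?_
      rw [← hesum, Finset.mul_sum]
      refine Finset.sum_nonneg fun c _ => ?_
      have : Commute (1 - H) (e c) := (Commute.one_left _).sub_left
        (Commute.sum_left _ _ _ fun b _ => ((hes b c).1.1.mul_left (hes b c).2.1))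
      rw [← mul_assoc, this.eq]
      exact star_right_conjugate_nonneg hnn (e c)
    · rw [hsum, hsplit, mul_add, ← mul_assoc, ha a (fun i => hha _), hha]
    · rw [hsum, mul_assoc, hhT, hT T fun i => hhT _]

end Cone

variable {E : Type*} [CStarAlgebra E]

/-- The witness of one node: `k` commuting slots. -/
theorem exists_node (hE : CopyProp E) (hc : Full (commSet E)) {k : ℕ} (hk : 0 < k) :
    ∃ (M : ℕ) (Y R : Fin k → E) (G : E) (Z : Fin M → E),
      (∀ i, Y i * Y i = 0) ∧
      (Pairwise fun i j => Commute (Y i) (Y j) ∧ Commute (Y i) (star (Y j)) ∧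
        Commute (Y i) (R j) ∧ Commute (R i) (R j)) ∧
      (∀ i, IsSelfAdjoint (R i)) ∧ IsSelfAdjoint G ∧
      (∀ i, R i * R i = 1 - (star (Y i) * Y i + Y i * star (Y i))) ∧
      (∀ i, R i * G = R i) ∧
      (∀ l i, Y i * star (Y i) * Z l = Z l) ∧
      (∀ l, G * Z l = 0 ∧ G * (star (Y ⟨0, hk⟩) * Z l) = 0) ∧
      ∑ l, star (Z l) * Z l = 1 := by
  classical
  obtain ⟨m, y, R, g, z, hy, hR, hg, hRR, hRg, hz, hsum⟩ := exists_witness hE hc
  let S : Set E := {y, R, g} ∪ Set.range z
  have hS : S.Finite := by simp [S, Set.finite_range]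
  let yb : gen S := ⟨y, StarAlgebra.subset_adjoin ℂ S (by simp [S])⟩
  let Rb : gen S := ⟨R, StarAlgebra.subset_adjoin ℂ S (by simp [S])⟩
  let gb : gen S := ⟨g, StarAlgebra.subset_adjoin ℂ S (by simp [S])⟩
  let zb : Fin m → gen S := fun l => ⟨z l, StarAlgebra.subset_adjoin ℂ S (by simp [S])⟩
  have hyb : yb * yb = 0 := Subtype.ext hy
  have hgb : star gb = gb := Subtype.ext hg.star_eq
  have hyz : ∀ l, yb * star yb * zb l = zb l := fun l => Subtype.ext (hz l).1
  have hgz : ∀ l, gb * zb l = 0 := fun l => Subtype.ext (hz l).2.1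
  have hgyz : ∀ l, gb * (star yb * zb l) = 0 := fun l => Subtype.ext (hz l).2.2
  have hsb : ∑ l, star (zb l) * zb l = 1 := by
    apply Subtype.ext
    simpa [AddSubmonoidClass.coe_finsetSum, zb] using hsum
  obtain ⟨ρ, hρ⟩ := hE.exists_copies hS (ι := Fin k)
  let π := prodMap ρ hρ
  let em := Fintype.equivFin (Fin k → Fin m)
  let P : E := π fun _ => 1 - gb
  refine ⟨Fintype.card (Fin k → Fin m), fun i => ρ i yb, fun i => ρ i Rb, 1 - P,
    fun l => π fun i => zb (em.symm l i), fun i => by rw [← map_mul, hyb, map_zero],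
    fun i j hij => ⟨hρ hij _ _, by rw [← map_star]; exact hρ hij _ _, hρ hij _ _, hρ hij _ _⟩,
    fun i => (show IsSelfAdjoint Rb from Subtype.ext hR.star_eq).map _, ?_, fun i => ?_,
    fun i => ?_, fun l i => ?_, fun l => ⟨?_, ?_⟩, ?_⟩
  · show star (1 - P) = 1 - P
    rw [star_sub, star_one, star_prodMap]
    congr 2
    funext i
    simp [hgb]
  · rw [← map_mul, show Rb * Rb = 1 - (star yb * yb + yb * star yb) from Subtype.ext hRR]
    simp [map_star]
  · beta_reduce
    rw [mul_sub, mul_one, sub_eq_self, ← prodMap_mulSingle ρ hρ i Rb, ← map_mul]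
    refine prodMap_eq_zero ρ hρ _ i ?_
    simp [mul_sub, show Rb * gb = Rb from Subtype.ext hRg]
  · beta_reduce
    rw [← map_star, ← map_mul, ← prodMap_mulSingle ρ hρ i (yb * star yb), ← map_mul]
    congr 1
    funext j
    by_cases h : j = i
    · subst h; simp [hyz]
    · simp [h]
  · beta_reduce
    rw [sub_mul, one_mul, sub_eq_zero, ← map_mul]
    congr 1
    funext i
    simp [sub_mul, hgz]
  · beta_reduce
    rw [sub_mul, one_mul, sub_eq_zero, ← map_star, ← prodMap_mulSingle ρ hρ ⟨0, hk⟩ (star yb),
      ← map_mul, ← map_mul]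
    congr 1
    funext j
    by_cases h : j = ⟨0, hk⟩
    · subst h; simp [sub_mul, hgyz]
    · simp [h, sub_mul, hgz]
  · rw [← em.sum_comp]
    simp only [Equiv.symm_apply_apply, π, star_prodMap, ← map_mul]
    refine Eq.trans ?_ (map_one π)
    show (∑ τ : Fin k → Fin m, prodMap ρ hρ fun i => star (zb (τ i)) * zb (τ i)) = _
    rw [← prodMap_sum ρ hρ (fun _ t => star (zb t) * zb t), hsb]
    rfl

/-- Chain of gluings, tracking exactly which elements it commutes with. -/
theorem exists_glue' {ι : Type*} [DecidableEq ι] (y R g : ι → E) (hy : ∀ i, y i * y i = 0)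
    (hR : ∀ i, IsSelfAdjoint (R i))
    (hRR : ∀ i, R i * R i = 1 - (star (y i) * y i + y i * star (y i)))
    (hRg : ∀ i, R i * g i = R i)
    (hc : Pairwise fun i j => Commute (y i) (y j) ∧ Commute (y i) (star (y j)) ∧
      Commute (y i) (R j) ∧ Commute (R i) (R j) ∧ Commute (g i) (R j))
    (S : Finset ι) :
    ∃ x r : E, x * x = 0 ∧ IsSelfAdjoint r ∧ r * r = 1 - (star x * x + x * star x) ∧
      (∀ w, (∀ i ∈ S, Commute w (y i) ∧ Commute w (star (y i)) ∧ Commute w (R i)) →
        Commute w x ∧ Commute w (star x) ∧ Commute w r) ∧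
      ∀ i ∈ S, r * g i = r := by
  induction S using Finset.induction_on with
  | empty => exact ⟨0, 1, by simp, IsSelfAdjoint.one E, by simp, fun w _ => ⟨Commute.zero_right w,
      by simp, Commute.one_right w⟩, by simp⟩
  | insert a S ha ih =>
    obtain ⟨x, r, hx, hr, hrr, hcom, hg⟩ := ih
    have hne : ∀ i ∈ S, a ≠ i := fun i hi h => ha (h ▸ hi)
    have c1 := (hcom (y a) fun i hi => ⟨(hc (hne i hi)).1, (hc (hne i hi)).2.1,
      (hc (hne i hi)).2.2.1⟩)
    have c2 := (hcom (star (y a)) fun i hi => ⟨(hc (hne i hi).symm).2.1.symm,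
      (hc (hne i hi)).1.star_star, by
        simpa [(hR i).star_eq] using (hc (hne i hi)).2.2.1.star_star⟩)
    have c3 := (hcom (R a) fun i hi => ⟨(hc (hne i hi).symm).2.2.1.symm, by
        simpa [(hR a).star_eq] using (hc (hne i hi).symm).2.2.1.symm.star_star,
      (hc (hne i hi)).2.2.2.1⟩)
    obtain ⟨x', r', hx', hr', hrr', hcom', hg', hgR⟩ := glue hx (hy a)
      c1.1.symm c2.1.symm c3.1.symm hr (hR a) hrr (hRR a)
    refine ⟨x', r', hx', hr', hrr', fun w hw => ?_, fun i hi => ?_⟩
    · obtain ⟨w1, w2, w3⟩ := hcom w fun i hi => hw i (Finset.mem_insert_of_mem hi)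
      obtain ⟨u1, u2, u3⟩ := hw a (Finset.mem_insert_self a S)
      exact hcom' w w1 w2 u1 u2 u3
    · rcases Finset.mem_insert.1 hi with rfl | hi
      · exact hgR _ (hRg i)
      · exact hg' _ (hc (hne i hi).symm).2.2.2.2 (hg i hi)

/-- An algebra with the copy property and full commutators has the relations of `Z(2^k, 2^k+1)`. -/
theorem tree_two_pow (hE : CopyProp E) (hc : Full (commSet E)) (k : ℕ) (hk : 1 ≤ k) :
    ∃ (s : Fin (2 ^ k) → E) (v : E), RWRel (2 ^ k) (Nat.two_pow_pos k) s v := by
  classical
  let _ := CStarAlgebra.spectralOrder E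
  have _ := CStarAlgebra.spectralOrderedRing E
  obtain ⟨m, y, R, g, z, hy, hcyR, hR, hg, hRR, hRg, hyz, hgz, hsum⟩ := exists_node hE hc hk
  rcases Nat.eq_zero_or_pos m with rfl | hm
  · have : Subsingleton E := subsingleton_of_zero_eq_one (by simpa using hsum)
    exact ⟨0, 0, ⟨⟨0, Subsingleton.elim _ _⟩, fun i j => Subsingleton.elim _ _,
      Subsingleton.elim _ _, Subsingleton.elim _ _⟩⟩
  let s : Set E := {g} ∪ Set.range y ∪ Set.range R ∪ Set.range z
  have hs : s.Finite := by simp [s, Set.finite_range]
  let Ys : Fin k → gen s := fun i => ⟨y i, StarAlgebra.subset_adjoin ℂ s (by simp [s])⟩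
  let Rs : Fin k → gen s := fun i => ⟨R i, StarAlgebra.subset_adjoin ℂ s (by simp [s])⟩
  let G : gen s := ⟨g, StarAlgebra.subset_adjoin ℂ s (by simp [s])⟩
  let Z : Fin m → gen s := fun l => ⟨z l, StarAlgebra.subset_adjoin ℂ s (by simp [s])⟩
  let Y : gen s := Ys ⟨0, hk⟩
  have hYs : ∀ i, Ys i * Ys i = 0 := fun i => Subtype.ext (hy i)
  have hY : Y * Y = 0 := hYs _
  have hGsa : star G = G := Subtype.ext hg
  have hYsZ : ∀ l i, Ys i * star (Ys i) * Z l = Z l := fun l i => Subtype.ext (hyz l i)
  have hYYZ : ∀ l, Y * star Y * Z l = Z l := fun l => hYsZ l _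
  have hGZ : ∀ l, G * Z l = 0 := fun l => Subtype.ext (hgz l).1
  have hGYZ : ∀ l, G * (star Y * Z l) = 0 := fun l => Subtype.ext (hgz l).2
  have hsumB : ∑ l, star (Z l) * Z l = 1 := by
    apply Subtype.ext
    simpa [AddSubmonoidClass.coe_finsetSum, Z] using hsum
  have hYZY : ∀ l l', star (star Y * Z l) * Z l' = 0 := fun l l' => by
    rw [star_mul, star_star, mul_assoc, ← hYYZ l',
      show Y * (Y * star Y * Z l') = Y * Y * (star Y * Z l') by simp only [mul_assoc], hY]
    simp
  obtain ⟨Θ, hΘ⟩ := exists_frames Ys hYs fun i j hij =>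
    ⟨Subtype.ext (hcyR hij).1.eq, Subtype.ext (hcyR hij).2.1.eq⟩
  obtain ⟨ρ, hρ⟩ := hE.exists_copies hs (ι := Node m)
  let π := prodMap ρ hρ
  let root : Node m := ⟨⟨0, by omega⟩, Fin.elim0⟩
  let S : Finset (Node m) := Finset.univ.erase root
  -- one gluing for every slot
  have hglue : ∀ i : Fin k, ∃ x r : E, x * x = 0 ∧ IsSelfAdjoint r ∧
      r * r = 1 - (star x * x + x * star x) ∧
      (∀ w, (∀ u ∈ S, Commute w (ρ u (Ys i)) ∧ Commute w (star (ρ u (Ys i))) ∧
        Commute w (ρ u (Rs i))) → Commute w x ∧ Commute w (star x) ∧ Commute w r) ∧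
      ∀ u ∈ S, r * ρ u G = r := fun i =>
    exists_glue' (fun u => ρ u (Ys i)) (fun u => ρ u (Rs i)) (fun u => ρ u G)
      (fun u => by rw [← map_mul, hYs, map_zero])
      (fun u => (show IsSelfAdjoint (Rs i) from Subtype.ext (hR i).star_eq).map _)
      (fun u => by
        rw [← map_mul, show Rs i * Rs i = 1 - (star (Ys i) * Ys i + Ys i * star (Ys i)) from
          Subtype.ext (hRR i)]
        simp [map_star])
      (fun u => by rw [← map_mul, show Rs i * G = Rs i from Subtype.ext (hRg i)])
      (fun u u' h => ⟨hρ h _ _, by rw [← map_star]; exact hρ h _ _, hρ h _ _, hρ h _ _,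
        hρ h _ _⟩) S
  choose x r hx hr hrr hcom hG using hglue
  have hxx : Pairwise fun i j => Commute (x i) (x j) ∧ Commute (x i) (star (x j)) := by
    intro i j hij
    have key : ∀ u ∈ S, ∀ b : gen s, Commute b (Ys j) → Commute b (star (Ys j)) →
        Commute b (Rs j) → Commute (ρ u b) (x j) ∧ Commute (ρ u b) (star (x j)) := by
      intro u _ b b1 b2 b3
      refine ⟨(hcom j (ρ u b) fun u' _ => ?_).1, (hcom j (ρ u b) fun u' _ => ?_).2.1⟩ <;>
      · rcases eq_or_ne u u' with rfl | h
        · exact ⟨b1.map _, by rw [← map_star]; exact b2.map _, b3.map _⟩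
        · exact ⟨hρ h _ _, by rw [← map_star]; exact hρ h _ _, hρ h _ _⟩
    have k1 := fun u hu => key u hu (Ys i) (Subtype.ext (hcyR hij).1.eq)
      (Subtype.ext (hcyR hij).2.1.eq) (Subtype.ext (hcyR hij).2.2.1.eq)
    have k2 := fun u hu => key u hu (Rs i) (Subtype.ext (hcyR hij.symm).2.2.1.symm.eq)
      (Subtype.ext (by
        simpa [(hR i).star_eq] using ((hcyR hij.symm).2.2.1.symm.star_star).eq))
      (Subtype.ext (hcyR hij).2.2.2.eq)
    have e1 := hcom i (x j) fun u hu => ⟨(k1 u hu).1.symm,
      by simpa using (k1 u hu).2.symm.star_star, (k2 u hu).1.symm⟩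
    exact ⟨e1.1.symm, by simpa using e1.2.1.symm.star_star⟩
  have hsub : ∀ i, 1 - (star (x i) * x i + x i * star (x i)) = star (r i) * r i := fun i => by
    rw [(hr i).star_eq, hrr]
  obtain ⟨c, hcorth, hc0, hccom, hnn, habsa, hHT'⟩ := exists_cone x hx hxx
    (fun i => hsub i ▸ star_mul_self_nonneg (r i))
  set o : Fin (2 ^ k) := ⟨0, Nat.two_pow_pos k⟩ with ho
  set H := ∑ b, c b * star (c b) with hH
  -- the defect
  let f : ℝ → ℝ := fun t => √(t * (2 - t))
  have hf : Continuous f := Real.continuous_sqrt.comp (by fun_prop)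
  have hDsa : IsSelfAdjoint (1 - H) := (IsSelfAdjoint.one E).sub
    (isSelfAdjoint_sum _ fun b _ => IsSelfAdjoint.mul_star_self _)
  set q := cfc f (1 - H) with hq
  have hqsa : star q = q := (cfc_predicate (p := IsSelfAdjoint) f (1 - H)).star_eq
  have hqq : q * q = 1 - H * H := by
    have hle : 1 - H ≤ algebraMap ℝ E 1 := by
      rw [map_one, sub_le_self_iff]
      exact Finset.sum_nonneg fun b _ => mul_star_self_nonneg _
    rw [hq, ← cfc_mul f f _ hf.continuousOn hf.continuousOn,
      cfc_congr (g := fun t => (2 : ℝ) * t - t * t) fun t ht => ?_,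
      cfc_sub (fun t => (2 : ℝ) * t) (fun t => t * t) _ (by fun_prop) (by fun_prop),
      cfc_const_mul 2 (fun t => t) _ (by fun_prop), cfc_mul (fun t => t) (fun t => t) _
        (by fun_prop) (by fun_prop), cfc_id' ℝ (1 - H) hDsa, two_smul]
    · noncomm_ring
    · have t0 : 0 ≤ t := spectrum_nonneg_of_nonneg hnn ht
      have t1 : t ≤ 1 := (le_algebraMap_iff_spectrum_le hDsa).1 hle t ht
      simp only [f]
      rw [Real.mul_self_sqrt (mul_nonneg t0 (by linarith))]
      ring
  have hrG : ∀ u ∈ S, ρ u G * q = q := by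
    intro u hu
    have h0 : (ρ u G - 1) * (1 - H) = (0 : ℝ) • (ρ u G - 1) := by
      rw [zero_smul, sub_mul, one_mul, habsa _ (fun i => ?_), sub_self]
      have := congrArg star (hG i u hu)
      rw [star_mul, (hr i).star_eq, ← map_star, hGsa] at this
      rw [← hrr, ← mul_assoc, this]
    have := mul_cfc_of_eigen hDsa h0 hf
    rw [← hq, show f 0 = 0 by simp [f], zero_smul, sub_mul, one_mul, sub_eq_zero] at this
    exact this
  -- leaf elements
  let F : (Fin (m + 1) → Fin m) → Node m → gen s := fun w u =>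
    if OnPath w u then
      if (u.1 : ℕ) = (w (Fin.last m) : ℕ) + 1 then star Y * Z (w u.1) else Z (w u.1)
    else G
  let Q : (Fin (m + 1) → Fin m) → Node m → gen s := fun w u =>
    if OnPath w u then star (Z (w u.1)) * Z (w u.1) else 1
  let T : E := ∑ w, π (F w)
  have hQ1 : ∑ w, π (Q w) = 1 := by
    calc ∑ w, π (Q w)
        = ∑ w, ∑ τ : Node m → Fin m,
            if (∀ j, w j = τ (nodeAt w j)) then π (fun u => star (Z (τ u)) * Z (τ u)) else 0 := by
          refine Finset.sum_congr rfl fun w _ => ?_
          rw [show Q w = fun u => ∑ t, if OnPath w u ∧ t ≠ w u.1 then 0 else star (Z t) * Z t by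
            funext u
            by_cases hu : OnPath w u
            · simp [Q, hu]
            · simp [Q, hu, hsumB],
            prodMap_sum ρ hρ (fun u t => if OnPath w u ∧ t ≠ w u.1 then 0 else star (Z t) * Z t)]
          refine Finset.sum_congr rfl fun τ _ => ?_
          split_ifs with hτ
          · congr 1
            funext u
            rw [if_neg]
            rintro ⟨hu, hne⟩
            exact hne (by rw [hτ u.1, ← eq_nodeAt_of_onPath hu])
          · simp only [not_forall] at hτ
            obtain ⟨j, hj⟩ := hτ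
            exact prodMap_eq_zero ρ hρ _ (nodeAt w j)
              (if_pos ⟨onPath_nodeAt w j, fun h => hj h.symm⟩)
      _ = ∑ τ : Node m → Fin m, π (fun u => star (Z (τ u)) * Z (τ u)) := by
          rw [Finset.sum_comm]
          refine Finset.sum_congr rfl fun τ _ => ?_
          obtain ⟨w, hw, hu⟩ := existsUnique_path τ
          rw [Finset.sum_eq_single w (fun w' _ h => if_neg fun h' => h (hu w' h'))
            (by simp), if_pos hw]
      _ = 1 := by
          rw [← prodMap_sum ρ hρ (fun _ t => star (Z t) * Z t), hsumB]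
          exact map_one π
  have hcross : ∀ w w', w ≠ w' → star (π (F w)) * π (F w') = 0 := by
    intro w w' hne
    rw [star_prodMap, ← map_mul]
    by_cases h : ∀ i : Fin (m + 1), i ≠ Fin.last m → w i = w' i
    · have hl : w (Fin.last m) ≠ w' (Fin.last m) := fun hl => hne (funext fun i =>
        if hi : i = Fin.last m then hi ▸ hl else h i hi)
      let j : Fin (m + 1) := ⟨(w (Fin.last m) : ℕ) + 1, by omega⟩
      have hp : OnPath w' (nodeAt w j) := fun i => h _ fun hi => by
        have := congrArg Fin.val hi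
        have := i.2
        simp only [nodeAt, Fin.val_last, j] at *
        omega
      refine prodMap_eq_zero ρ hρ _ (nodeAt w j) ?_
      have hne' : ¬ ((nodeAt w j).1 : ℕ) = (w' (Fin.last m) : ℕ) + 1 := fun hh =>
        hl (Fin.ext (by simpa [nodeAt, j] using hh))
      simp only [Pi.mul_apply, Pi.star_apply, F, if_pos (onPath_nodeAt w j), if_pos hp,
        if_neg hne', if_pos (show ((nodeAt w j).1 : ℕ) = (w (Fin.last m) : ℕ) + 1 from rfl)]
      exact hYZY _ _
    · simp only [not_forall] at h
      obtain ⟨i, hi, hwi⟩ := h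
      have him : (i : ℕ) < m := lt_of_le_of_ne (Nat.lt_succ_iff.1 i.2) fun e => hi (Fin.ext e)
      let j : Fin (m + 1) := ⟨(i : ℕ) + 1, by omega⟩
      refine prodMap_eq_zero ρ hρ _ (nodeAt w j) ?_
      simp only [Pi.mul_apply, Pi.star_apply, F, if_pos (onPath_nodeAt w j),
        if_neg (not_onPath_of_ne (j := j) (Nat.lt_succ_self (i : ℕ)) hwi)]
      rw [← star_star G, ← star_mul, hGsa]
      split_ifs <;> simp [hGZ, hGYZ]
  have hdiag : ∀ w, star (π (F w)) * π (F w) * q = π (Q w) * q := by
    intro w
    rw [star_prodMap, ← map_mul, show star (F w) * F w =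
      Q w * fun u => if OnPath w u then 1 else G * G by
        funext u
        simp only [Pi.mul_apply, Pi.star_apply, F, Q]
        split_ifs with hu hs
        · rw [mul_one, star_mul, star_star, mul_assoc, ← mul_assoc Y, hYYZ]
        · rw [mul_one]
        · rw [one_mul, hGsa],
      map_mul, mul_assoc]
    have habs : prodMap ρ hρ (fun u => if OnPath w u then 1 else G * G) * q = q := by
      refine prodMap_absorb ρ hρ _ fun u => ?_
      by_cases hu : OnPath w u
      · simp [hu]
      · have : u ∈ S := Finset.mem_erase.2 ⟨fun h => hu (root_onPath w (by simp [h, root])),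
          Finset.mem_univ u⟩
        rw [if_neg hu, map_mul, mul_assoc, hrG u this, hrG u this]
    exact congrArg (π (Q w) * ·) habs
  have hTT : star T * T * q = q := by
    rw [star_sum, Finset.sum_mul_sum, Finset.sum_mul]
    calc ∑ w, (∑ w', star (π (F w)) * π (F w')) * q = ∑ w, π (Q w) * q := by
          refine Finset.sum_congr rfl fun w _ => ?_
          rw [Finset.sum_eq_single w (fun w' _ h => hcross w w' h.symm) (by simp), hdiag]
      _ = q := by rw [← Finset.sum_mul, hQ1, one_mul]
  have hriT : ∀ i, r i * T = 0 := by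
    intro i
    rw [Finset.mul_sum]
    refine Finset.sum_eq_zero fun w _ => ?_
    let u := nodeAt w ⟨1, by omega⟩
    have huS : u ∈ S := Finset.mem_erase.2 ⟨fun h => by
      have := congrArg (fun v : Node m => (v.1 : ℕ)) h; simp [u, nodeAt, root] at this,
      Finset.mem_univ u⟩
    rw [← hG i u huS, mul_assoc, ← prodMap_mulSingle ρ hρ u G, ← map_mul,
      prodMap_eq_zero ρ hρ _ u, mul_zero]
    simp only [Pi.mul_apply, Pi.mulSingle_eq_same, F, if_pos (onPath_nodeAt w _), u]
    split_ifs <;> simp [hGZ, hGYZ]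
  have hHT : H * T = T := hHT' T fun i => by
    rw [show star (x i) * x i + x i * star (x i) = 1 - r i * r i by rw [hrr]; abel, sub_mul,
      one_mul, mul_assoc, hriT, mul_zero, sub_zero]
  -- the frames of the root copy
  have hroot : ∀ a b, star (ρ root (Θ a)) * (ρ root (Θ b) * T) = if a = b then T else 0 := by
    intro a b
    rw [← map_star, ← mul_assoc, ← map_mul]
    have key : ∀ w, ρ root (star (Θ a) * Θ b) * π (F w) =
        if a = b then π (F w) else 0 := by
      intro w
      have hFr : F w root = Z (w root.1) := by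
        simp only [F, if_pos (root_onPath w (u := root) rfl)]
        rw [if_neg (by simp [root])]
      have hz' : star (Θ a) * Θ b * F w root = if a = b then F w root else 0 := by
        rw [hFr, mul_assoc, hΘ _ (hYsZ _)]
      rw [← prodMap_mulSingle ρ hρ root, ← map_mul]
      by_cases hab : a = b
      · rw [if_pos hab]
        congr 1
        funext u
        rcases eq_or_ne u root with rfl | hu
        · rw [Pi.mul_apply, Pi.mulSingle_eq_same, hz', if_pos hab]
        · simp [hu]
      · rw [if_neg hab]
        exact prodMap_eq_zero ρ hρ _ root (by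
          rw [Pi.mul_apply, Pi.mulSingle_eq_same, hz', if_neg hab])
    rw [Finset.mul_sum, Finset.sum_congr rfl fun w _ => key w]
    split_ifs <;> simp [T]
  have hθc : ∀ b a, Commute (ρ root b) (c a) ∧ Commute (ρ root b) (star (c a)) := fun b a =>
    hccom _ (fun i => by
      obtain ⟨e1, e2, -⟩ := hcom i (ρ root b) fun u hu =>
        ⟨hρ (Finset.mem_erase.1 hu).1.symm _ _,
          by rw [← map_star]; exact hρ (Finset.mem_erase.1 hu).1.symm _ _,
          hρ (Finset.mem_erase.1 hu).1.symm _ _⟩
      exact ⟨e1, e2⟩) a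
  have hcl : ∀ a, H * c a = c a * (c o * c o) := fun a => by
    rw [hH, Finset.sum_mul, Finset.sum_eq_single a _ (by simp)]
    · rw [mul_assoc, hcorth, if_pos rfl]
    · intro b _ hb
      rw [mul_assoc, hcorth, if_neg hb, mul_zero]
  have hHsa : star H = H := (isSelfAdjoint_sum _ fun b _ => IsSelfAdjoint.mul_star_self _).star_eq
  have hcr : ∀ a, c o * c o * star (c a) = star (c a) * H := fun a => by
    have := congrArg star (hcl a)
    simpa [hHsa, hc0.star_eq] using this.symm
  have hHH : ∑ a, c a * (c o * c o) * star (c a) = H * H := by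
    calc ∑ a, c a * (c o * c o) * star (c a) = H * ∑ a, c a * star (c a) := by
          rw [Finset.mul_sum]
          exact Finset.sum_congr rfl fun a _ => by rw [← hcl, mul_assoc]
      _ = H * H := by rw [← hH]
  set W := ∑ a, c o * star (c a) * ρ root (Θ a) with hW
  have hWW : star W * W * T = T := by
    rw [hW, star_sum, Finset.sum_mul, Finset.sum_mul]
    calc ∑ a, star (c o * star (c a) * ρ root (Θ a)) * (∑ b, c o * star (c b) * ρ root (Θ b)) * T
        = ∑ a, c a * (c o * c o) * star (c a) * T := by
          refine Finset.sum_congr rfl fun a _ => ?_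
          rw [Finset.mul_sum (a := star (c o * star (c a) * ρ root (Θ a))), Finset.sum_mul,
            Finset.sum_eq_single a _ (by simp)]
          · have cm : Commute (star (ρ root (Θ a))) (c a * (c o * c o) * star (c a)) := by
              rw [← map_star]
              exact ((hθc _ a).1.mul_right ((hθc _ o).1.mul_right (hθc _ o).1)).mul_right
                (hθc _ a).2
            calc star (c o * star (c a) * ρ root (Θ a)) * (c o * star (c a) * ρ root (Θ a)) * T
                = star (ρ root (Θ a)) * (c a * (c o * c o) * star (c a)) *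
                    (ρ root (Θ a) * T) := by
                  rw [star_mul, star_mul, star_star, hc0.star_eq]; noncomm_ring
              _ = _ := by rw [cm.eq, mul_assoc, hroot, if_pos rfl]
          · intro b _ hb
            have cm : Commute (star (ρ root (Θ a))) (c a * (c o * c o) * star (c b)) := by
              rw [← map_star]
              exact ((hθc _ a).1.mul_right ((hθc _ o).1.mul_right (hθc _ o).1)).mul_right
                (hθc _ b).2
            calc star (c o * star (c a) * ρ root (Θ a)) * (c o * star (c b) * ρ root (Θ b)) * T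
                = star (ρ root (Θ a)) * (c a * (c o * c o) * star (c b)) *
                    (ρ root (Θ b) * T) := by
                  rw [star_mul, star_mul, star_star, hc0.star_eq]; noncomm_ring
              _ = _ := by rw [cm.eq, mul_assoc, hroot, if_neg hb.symm, mul_zero]
      _ = T := by rw [← Finset.sum_mul, hHH, mul_assoc, hHT, hHT]
  refine ⟨fun a => c a * c o, W * T * q, ⟨⟨c o, ?_⟩, fun a b => ?_, ?_, ?_⟩⟩
  · rw [hc0.star_eq]
  · rw [star_mul, hc0.star_eq, show c o * star (c a) * (c b * c o) =
      c o * (star (c a) * c b) * c o by noncomm_ring, hcorth]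
    by_cases hab : a = b
    · rw [if_pos hab, if_pos hab]; simp only [mul_assoc]; rfl
    · rw [if_neg hab, if_neg hab, mul_zero, zero_mul]
  · calc star (W * T * q) * (W * T * q) = q * (star T * (star W * W * T)) * q := by
          rw [star_mul, star_mul, hqsa]; noncomm_ring
      _ = 1 - H * H := by rw [hWW, mul_assoc, hTT, hqq]
      _ = _ := by
          rw [← hHH]
          congr 1
          refine Finset.sum_congr rfl fun a _ => ?_
          rw [star_mul, hc0.star_eq]
          noncomm_ring
  · show c o * c o * (W * T * q) = W * T * q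
    have e : c o * c o * W = W * H := by
      rw [hW, Finset.mul_sum, Finset.sum_mul]
      refine Finset.sum_congr rfl fun a _ => ?_
      have cm : Commute (ρ root (Θ a)) H :=
        Commute.sum_right _ _ _ fun b _ => (hθc _ b).1.mul_right (hθc _ b).2
      calc c o * c o * (c o * star (c a) * ρ root (Θ a))
          = c o * (c o * c o * star (c a)) * ρ root (Θ a) := by noncomm_ring
        _ = c o * star (c a) * (H * ρ root (Θ a)) := by rw [hcr]; noncomm_ring
        _ = _ := by rw [← cm.eq]; noncomm_ring
    rw [← mul_assoc, ← mul_assoc, e, mul_assoc W, hHT]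

/-- The pinned statement of module T. -/
theorem treeStmt : TreeStmt := fun _ _ hE hc k hk => tree_two_pow hE hc k hk

end

end Vale.P101.ZS
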