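import Vale.Agent.P101.ZStab.Pins
import Vale.Agent.P101.ZStab.Band.Sphere

/-!
# P101: banded unitaries are connected and banded loops without winding contract

Column elimination: at the smallest remaining label `a k` one rotates inside the coordinates with
label at most `a k + δ`.  This keeps the entries within `2δ` of the diagonal.  For loops the
column is a loop in a sphere of real dimension at least three.
-/

open Matrix Complex
open scoped Matrix.Norms.L2Operator

namespace Vale.P101.ZS.BandP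

noncomputable section

variable {ι : Type*} [Fintype ι] [DecidableEq ι] {a : ι → ℝ} {δ : ℝ}

/-- The matrices met while eliminating: nothing is left outside `T`. -/
structure Cls (a : ι → ℝ) (δ : ℝ) (T : Finset ι) (G : Matrix ι ι ℂ) : Prop where
  unit : G ∈ unitary (Matrix ι ι ℂ)
  low : ∀ r c, G r c ≠ 0 → a r ≤ a c + δ
  high : ∀ r ∈ T, ∀ c, G r c ≠ 0 →
    a c ≤ a r + δ ∨ ∀ i ∈ T, a r ≤ a i + δ ∧ a c ≤ a i + 2 * δ
  off : ∀ r c, r ∉ T ∨ c ∉ T → G r c = (1 : Matrix ι ι ℂ) r c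

/-- Unitaries with band `2δ`. -/
def Good (a : ι → ℝ) (δ : ℝ) : Set (Matrix ι ι ℂ) :=
  {G | G ∈ unitary (Matrix ι ι ℂ) ∧ ∀ r c, 2 * δ < |a r - a c| → G r c = 0}

/-- The remaining labels lie above the eliminated ones. -/
def Up (a : ι → ℝ) (T : Finset ι) : Prop := ∀ i ∈ T, ∀ j ∉ T, a j ≤ a i

lemma Cls.good (hδ : 0 ≤ δ) {T : Finset ι} {G : Matrix ι ι ℂ} (h : Cls a δ T G) :
    G ∈ Good a δ := by
  refine ⟨h.unit, fun r c hrc => ?_⟩
  by_contra h0
  have h1 := h.low r c h0
  by_cases hr : r ∈ T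
  · rcases h.high r hr c h0 with h2 | h2
    · rcases lt_abs.1 hrc with h3 | h3 <;> linarith
    · rcases lt_abs.1 hrc with h3 | h3 <;> linarith [(h2 r hr).2]
  · rw [h.off r c (.inl hr)] at h0
    have : r = c := by_contra fun hne => h0 (one_apply_ne hne)
    subst this
    rw [sub_self, abs_zero] at hrc
    linarith

lemma cls_one (hδ : 0 ≤ δ) (T : Finset ι) : Cls a δ T (1 : Matrix ι ι ℂ) := by
  have h : ∀ r c, (1 : Matrix ι ι ℂ) r c ≠ 0 → r = c := fun r c h0 =>
    by_contra fun hne => h0 (one_apply_ne hne)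
  exact ⟨one_mem _, fun r c h0 => by rw [h r c h0]; linarith,
    fun r _ c h0 => .inl (by rw [h r c h0]; linarith), fun _ _ _ => rfl⟩

/-- The coordinates rotated at the step `k`. -/
def block (a : ι → ℝ) (δ : ℝ) (T : Finset ι) (k : ι) : Finset ι := T.filter fun i => a i ≤ a k + δ

variable {T : Finset ι} {k : ι}

omit [Fintype ι] [DecidableEq ι] in
lemma self_mem_block (hδ : 0 ≤ δ) (hk : k ∈ T) : k ∈ block a δ T k :=
  Finset.mem_filter.2 ⟨hk, by linarith⟩

lemma Cls.mul {G U : Matrix ι ι ℂ} (h : Cls a δ T G) (hk : k ∈ T) (hmin : ∀ i ∈ T, a k ≤ a i)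
    (hU : U ∈ unitary (Matrix ι ι ℂ)) (hs : Supp (block a δ T k) U) : Cls a δ T (U * G) := by
  have hex : ∀ r c, (U * G) r c ≠ 0 → (r ∉ block a δ T k ∧ G r c ≠ 0) ∨
      (r ∈ block a δ T k ∧ ∃ l ∈ block a δ T k, G l c ≠ 0) := by
    intro r c h0
    rw [mul_apply] at h0
    obtain ⟨l, -, hl⟩ := Finset.exists_ne_zero_of_sum_ne_zero h0
    have hU0 : U r l ≠ 0 := left_ne_zero_of_mul hl
    have hG0 : G l c ≠ 0 := right_ne_zero_of_mul hl
    by_cases hr : r ∈ block a δ T k
    · refine .inr ⟨hr, l, ?_, hG0⟩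
      by_contra hl'
      rw [hs r l (.inr hl')] at hU0
      exact hl' ((by_contra fun hne => hU0 (one_apply_ne hne) : r = l) ▸ hr)
    · refine .inl ⟨hr, ?_⟩
      rw [hs r l (.inl hr)] at hU0
      rwa [(by_contra fun hne => hU0 (one_apply_ne hne) : r = l)]
  refine ⟨mul_mem hU h.unit, fun r c h0 => ?_, fun r hr c h0 => ?_, fun r c hrc => ?_⟩
  · rcases hex r c h0 with ⟨-, h1⟩ | ⟨hr, l, hl, h1⟩
    · exact h.low r c h1
    · have h2 := h.low l c h1
      by_cases hc : c ∈ T
      · linarith [(Finset.mem_filter.1 hr).2, hmin c hc]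
      · rw [h.off l c (.inr hc)] at h1
        have e : l = c := by_contra fun hne => h1 (one_apply_ne hne)
        exact absurd (Finset.mem_filter.1 hl).1 (e ▸ hc)
  · rcases hex r c h0 with ⟨-, h1⟩ | ⟨hr', l, hl, h1⟩
    · exact h.high r hr c h1
    · refine .inr fun i hi => ?_
      have hki := hmin i hi
      refine ⟨by linarith [(Finset.mem_filter.1 hr').2], ?_⟩
      rcases h.high l (Finset.mem_filter.1 hl).1 c h1 with h2 | h2
      · linarith [(Finset.mem_filter.1 hl).2]
      · linarith [(h2 k hk).2]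
  · rcases hrc with hr | hc
    · have hr' : r ∉ block a δ T k := fun hh => hr (Finset.mem_filter.1 hh).1
      rw [mul_apply, Finset.sum_eq_single r]
      · rw [hs r r (.inl hr'), one_apply_eq, one_mul, h.off r c (.inl hr)]
      · intro l _ hl
        rw [hs r l (.inl hr'), one_apply_ne (Ne.symm hl), zero_mul]
      · simp
    · have hc' : c ∉ block a δ T k := fun hh => hc (Finset.mem_filter.1 hh).1
      rw [mul_apply, Finset.sum_eq_single c]
      · rw [h.off c c (.inr hc), one_apply_eq, mul_one, hs r c (.inr hc')]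
      · intro l _ hl
        rw [h.off l c (.inr hc), one_apply_ne hl, mul_zero]
      · simp

lemma Cls.erase {G : Matrix ι ι ℂ} (h : Cls a δ T G) (hcol : G *ᵥ Pi.single k 1 = Pi.single k 1) :
    Cls a δ (T.erase k) G := by
  have hc : ∀ r, G r k = (1 : Matrix ι ι ℂ) r k := fun r => by
    have := congrFun hcol r
    simpa [mulVec_single, one_apply, Pi.single_apply] using this
  have hr : ∀ c, G k c = (1 : Matrix ι ι ℂ) k c := fun c => by
    have this : (star G * G : Matrix ι ι ℂ) k c = (1 : Matrix ι ι ℂ) k c := by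
      rw [Unitary.star_mul_self_of_mem h.unit]
    rw [mul_apply, Finset.sum_eq_single k] at this
    · simpa [star_apply, hc] using this
    · intro l _ hl
      simp [star_apply, hc, one_apply_ne hl]
    · simp
  refine ⟨h.unit, h.low, fun r hr c h0 => ?_, fun r c hrc => ?_⟩
  · exact (h.high r (Finset.mem_of_mem_erase hr) c h0).imp id
      fun h2 i hi => h2 i (Finset.mem_of_mem_erase hi)
  · simp only [Finset.mem_erase, not_and_or, not_not] at hrc
    rcases hrc with (rfl | h1) | (rfl | h1)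
    · exact hr c
    · exact h.off r c (.inl h1)
    · exact hc r
    · exact h.off r c (.inr h1)

omit [Fintype ι] in
lemma Up.erase (h : Up a T) (hmin : ∀ i ∈ T, a k ≤ a i) : Up a (T.erase k) := by
  intro i hi j hj
  by_cases hjk : j = k
  · exact hjk ▸ hmin i (Finset.mem_of_mem_erase hi)
  · exact h i (Finset.mem_of_mem_erase hi) j fun h' => hj (Finset.mem_erase.2 ⟨hjk, h'⟩)

lemma Cls.column {G : Matrix ι ι ℂ} (h : Cls a δ T G) (hk : k ∈ T) :
    UnitOn (block a δ T k) (G *ᵥ Pi.single k 1) := by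
  refine ⟨?_, fun i hi => ?_⟩
  · rw [star_mulVec, ← dotProduct_mulVec, mulVec_mulVec, ← star_eq_conjTranspose,
      Unitary.star_mul_self_of_mem h.unit, one_mulVec]
    simp
  · by_contra h0
    simp only [mulVec_single_one, col_apply] at h0
    by_cases hiT : i ∈ T
    · exact hi (Finset.mem_filter.2 ⟨hiT, h.low i k h0⟩)
    · rw [h.off i k (.inl hiT)] at h0
      exact h0 (one_apply_ne fun e : i = k => hiT (e ▸ hk))

/-- Banded unitaries are connected to the identity. -/
lemma joined_one (hδ : 0 ≤ δ) : ∀ (T : Finset ι) (G : Matrix ι ι ℂ), Cls a δ T G →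
    JoinedIn (Good a δ) G 1 := by
  intro T
  induction T using Finset.strongInduction with
  | _ T ih =>
    intro G h
    rcases T.eq_empty_or_nonempty with rfl | hne
    · have : G = 1 := by
        ext r c
        exact h.off r c (.inl (Finset.notMem_empty r))
      subst this
      exact JoinedIn.refl (h.good hδ)
    obtain ⟨k, hk, hmin⟩ := T.exists_min_image a hne
    set e : ι → ℂ := Pi.single k 1
    set v : ι → ℂ := G *ᵥ e
    have hv : UnitOn (block a δ T k) v := h.column hk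
    have he : UnitOn (block a δ T k) e := unitOn_single (self_mem_block hδ hk)
    set φ : ℝ := (-phase (star v ⬝ᵥ e)).arg
    set W : ℝ → Matrix ι ι ℂ := fun s => ref (mid v e) (exp ((s * Real.pi : ℝ) * I)) *
      ref v (exp ((s * φ : ℝ) * I))
    have hm0 := mid_ne_zero hv.1 he.1
    have hW : ∀ s, W s ∈ unitary (Matrix ι ι ℂ) ∧ Supp (block a δ T k) (W s) := fun s =>
      ⟨mul_mem (ref_unitary hm0 (norm_exp_ofReal_mul_I _))
        (ref_unitary (ne_zero_of_unit hv.1) (norm_exp_ofReal_mul_I _)),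
        (supp_ref (fun i hi => by simp [mid, hv.2 i hi, he.2 i hi]) _).mul (supp_ref hv.2 _)⟩
    have hW1 : W 1 = rot v e := by
      simp only [W, rot, one_mul, exp_pi_mul_I]
      congr 2
      have := norm_mul_exp_arg_mul_I (-phase (star v ⬝ᵥ e))
      rwa [norm_neg, norm_phase, ofReal_one, one_mul] at this
    have hc : Continuous W :=
      (continuous_ref continuous_const (by fun_prop) fun _ => hm0).matrix_mul
        (continuous_ref continuous_const (by fun_prop) fun _ => ne_zero_of_unit hv.1)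
    have hmem : ∀ s : unitInterval, W s * G ∈ Good a δ := fun s =>
      (h.mul hk hmin (hW _).1 (hW _).2).good hδ
    have hj : JoinedIn (Good a δ) G (W 1 * G) :=
      ⟨⟨⟨fun s => W s * G, (hc.comp continuous_subtype_val).matrix_mul continuous_const⟩,
        by simp [W, ref_one], by simp⟩, hmem⟩
    refine hj.trans (ih (T.erase k) (Finset.erase_ssubset hk) _ ?_)
    refine (h.mul hk hmin (hW 1).1 (hW 1).2).erase ?_
    rw [← mulVec_mulVec, hW1]
    exact rot_mulVec hv.1 he.1

/-- Based loops of unitaries with band `2δ`. -/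
def Loops (a : ι → ℝ) (δ : ℝ) : Set C(II, Matrix ι ι ℂ) :=
  {γ | γ 0 = 1 ∧ γ 1 = 1 ∧ ∀ t, γ t ∈ Good a δ}

/-- One homotopy, given by unitaries on the block. -/
lemma joined_mul (hδ : 0 ≤ δ) (hk : k ∈ T) (hmin : ∀ i ∈ T, a k ≤ a i)
    (γ : C(II, Matrix ι ι ℂ)) (h0 : γ 0 = 1) (h1 : γ 1 = 1) (h : ∀ t, Cls a δ T (γ t))
    (U : C(II × II, Matrix ι ι ℂ))
    (hU : ∀ x, U x ∈ unitary (Matrix ι ι ℂ) ∧ Supp (block a δ T k) (U x))
    (hb : ∀ h, U (h, 0) = 1 ∧ U (h, 1) = 1) (hz : ∀ t, U (0, t) = 1) :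
    ∃ γ' : C(II, Matrix ι ι ℂ), (∀ t, γ' t = U (1, t) * γ t) ∧ γ' 0 = 1 ∧ γ' 1 = 1 ∧
      (∀ t, Cls a δ T (γ' t)) ∧ JoinedIn (Loops a δ) γ γ' := by
  let F : C(II × II, Matrix ι ι ℂ) :=
    ⟨fun x => U x * γ x.2, U.continuous.matrix_mul (γ.continuous.comp continuous_snd)⟩
  refine ⟨F.curry 1, fun t => rfl, by simp [F, hb, h0], by simp [F, hb, h1],
    fun t => (h t).mul hk hmin (hU _).1 (hU _).2, ⟨⟨F.curry, ?_, rfl⟩, fun s => ?_⟩⟩
  · ext t : 1
    simp [F, hz]
  · exact ⟨by simp [F, hb, h0], by simp [F, hb, h1],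
      fun t => ((h t).mul hk hmin (hU _).1 (hU _).2).good hδ⟩

/-- Loops without winding contract. -/
lemma joined_loop (hδ : 0 ≤ δ) (hch : ∀ i j, a i < a j → ∃ l, a i < a l ∧ a l ≤ a i + δ) :
    ∀ (T : Finset ι), Up a T → ∀ γ : C(II, Matrix ι ι ℂ), γ 0 = 1 → γ 1 = 1 →
      (∀ t, Cls a δ T (γ t)) →
      ∀ θ : II → ℝ, Continuous θ → θ 0 = θ 1 → (∀ t, (γ t).det = exp (θ t * I)) →
        JoinedIn (Loops a δ) γ 1 := by
  intro T
  induction T using Finset.strongInduction with
  | _ T ih =>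
    intro hup γ h0 h1 h θ hθ hθ01 hdet
    rcases T.eq_empty_or_nonempty with rfl | hne
    · have : γ = 1 := by
        ext t r c
        exact (h t).off r c (.inl (Finset.notMem_empty r))
      subst this
      exact JoinedIn.refl ⟨rfl, rfl, fun t => (cls_one hδ ∅).good hδ⟩
    obtain ⟨k, hk, hmin⟩ := T.exists_min_image a hne
    have hkS : k ∈ block a δ T k := self_mem_block hδ hk
    have he : UnitOn (block a δ T k) (Pi.single k (1 : ℂ)) := unitOn_single hkS
    by_cases hT : T = {k}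
    · subst hT
      have hγ : ∀ t, γ t = ref (Pi.single k 1) (exp (θ t * I)) := fun t => by
        have e : γ t = ref (Pi.single k 1) (γ t k k) := by
          ext r c
          have hs : sq (Pi.single k (1 : ℂ) : ι → ℂ) = 1 := by
            exact_mod_cast (dot_self _).symm.trans he.1
          by_cases hrc : r = k ∧ c = k
          · obtain ⟨rfl, rfl⟩ := hrc
            simp [ref, hs, vecMulVec_apply]
          · rw [(h t).off r c ((not_and_or.1 hrc).imp (by simp) (by simp))]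
            rcases not_and_or.1 hrc with hh | hh <;>
              simp [ref, vecMulVec_apply, Pi.single_apply, hh]
        have hd := congrArg Matrix.det e
        rw [det_ref (ne_zero_of_unit he.1), hdet] at hd
        rw [hd]
        exact e
      have hz0 : exp (θ 0 * I) = 1 := by rw [← hdet, h0, det_one]
      let F : C(II × II, Matrix ι ι ℂ) :=
        ⟨fun x => ref (Pi.single k 1) (exp (((1 - (x.1 : ℝ)) * (θ x.2 - θ 0) : ℝ) * I)),
          continuous_ref continuous_const (by fun_prop) fun _ => ne_zero_of_unit he.1⟩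
      refine ⟨⟨F.curry, ?_, ?_⟩, fun s => ?_⟩
      · ext t : 1
        show ref _ (exp (((1 - ((0 : II) : ℝ)) * (θ t - θ 0) : ℝ) * I)) = γ t
        rw [hγ t, Set.Icc.coe_zero, sub_zero, one_mul, ofReal_sub, sub_mul, Complex.exp_sub, hz0,
          div_one]
      · ext t : 1
        simp [F, ref_one]
      · refine ⟨by simp [F, ref_one], by simp [F, ← hθ01, ref_one], fun t => ?_⟩
        have := (cls_one (a := a) hδ {k}).mul hk hmin
          (ref_unitary (ne_zero_of_unit he.1)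
            (norm_exp_ofReal_mul_I ((1 - (s : ℝ)) * (θ t - θ 0)))) (supp_ref he.2 _)
        rw [mul_one] at this
        exact this.good hδ
    obtain ⟨j, hj, hjk⟩ : ∃ j ∈ block a δ T k, j ≠ k := by
      obtain ⟨i, hi, hik⟩ : ∃ i ∈ T, i ≠ k := by
        by_contra hh
        push Not at hh
        exact hT (Finset.eq_singleton_iff_unique_mem.2 ⟨hk, hh⟩)
      rcases (hmin i hi).eq_or_lt with e | e
      · exact ⟨i, Finset.mem_filter.2 ⟨hi, by linarith⟩, hik⟩
      · obtain ⟨l, hl1, hl2⟩ := hch k i e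
        refine ⟨l, Finset.mem_filter.2 ⟨?_, hl2⟩, fun e' => by simp [e'] at hl1⟩
        by_contra hlT
        linarith [hup k hk l hlT]
    let v : C(II, ι → ℂ) :=
      ⟨fun t => γ t *ᵥ Pi.single k 1, γ.continuous.matrix_mulVec continuous_const⟩
    obtain ⟨K₁, K₂, hK, hKb, hKe⟩ := exists_contraction hkS hj hjk v (fun t => (h t).column hk)
      (by show γ 0 *ᵥ _ = _; rw [h0, one_mulVec]) (by show γ 1 *ᵥ _ = _; rw [h1, one_mulVec])
    obtain ⟨U₁, θ₁, hθ₁, hU₁, hb₁, hz₁⟩ := exists_lift K₁ (fun x => (hK x).1) fun s => (hKb s).1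
    obtain ⟨U₂, θ₂, hθ₂, hU₂, hb₂, hz₂⟩ := exists_lift K₂ (fun x => (hK x).2) fun s => (hKb s).2
    obtain ⟨γ₁, e₁, h10, h11, hc₁, hJ₁⟩ := joined_mul hδ hk hmin γ h0 h1 h U₁
      (fun x => ⟨(hU₁ x).1, (hU₁ x).2.1⟩) (fun s => ⟨(hb₁ s).1, (hb₁ s).2.1⟩) hz₁
    obtain ⟨γ₂, e₂, h20, h21, hc₂, hJ₂⟩ := joined_mul hδ hk hmin γ₁ h10 h11 hc₁ U₂
      (fun x => ⟨(hU₂ x).1, (hU₂ x).2.1⟩) (fun s => ⟨(hb₂ s).1, (hb₂ s).2.1⟩) hz₂
    refine (hJ₁.trans hJ₂).trans (ih (T.erase k) (Finset.erase_ssubset hk) (hup.erase hmin) γ₂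
      h20 h21 (fun t => (hc₂ t).erase ?_) (fun t => θ₂ (1, t) + (θ₁ (1, t) + θ t))
      ((hθ₂.comp (continuous_const.prodMk continuous_id)).add
        ((hθ₁.comp (continuous_const.prodMk continuous_id)).add hθ))
      ?_ fun t => ?_)
    · rw [e₂, e₁, ← mulVec_mulVec, ← mulVec_mulVec]
      have a1 := (hU₁ (1, t)).2.2.1
      have a2 := (hU₂ (1, t)).2.2.1
      simp only [(hKe t).1] at a1
      change U₁ (1, t) *ᵥ (γ t *ᵥ Pi.single k 1) = _ at a1
      rw [a1, (hKe t).2.1, a2, (hKe t).2.2]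
    · simp [(hb₁ _).2.2.1, (hb₁ _).2.2.2, (hb₂ _).2.2.1, (hb₂ _).2.2.2, hθ01]
    · rw [e₂, e₁, det_mul, det_mul, (hU₁ _).2.2.2, (hU₂ _).2.2.2, hdet, ← Complex.exp_add,
        ← Complex.exp_add]
      push_cast
      ring_nf

lemma cls_of_band {G : Matrix ι ι ℂ} (hU : G ∈ unitary (Matrix ι ι ℂ)) (hG : Band a a δ G) :
    Cls a δ Finset.univ G := by
  have hb : ∀ r c, G r c ≠ 0 → |a r - a c| ≤ δ := fun r c h0 =>
    not_lt.1 fun hlt => h0 (hG r c hlt)
  exact ⟨hU, fun r c h0 => by linarith [(abs_le.1 (hb r c h0)).2],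
    fun r _ c h0 => .inl (by linarith [(abs_le.1 (hb r c h0)).1]),
    fun r c hh => by simp at hh⟩

lemma band_of_good (hδ : 0 ≤ δ) {G : Matrix ι ι ℂ} (h : G ∈ Good a δ) :
    G ∈ unitary (Matrix ι ι ℂ) ∧ Band a a (8 * δ) G :=
  ⟨h.1, fun r c hrc => h.2 r c (lt_of_le_of_lt (by linarith) hrc)⟩

end

end Vale.P101.ZS.BandP

namespace Vale.P101.ZS

open BandP

/-- The module `Band`. -/
theorem bandStmt : BandStmt := by
  intro ι _ _ a δ hδ
  refine ⟨fun G hU hG => ?_, fun hch γ h0 h1 h ⟨θ, hθ, hθ01, hdet⟩ => ?_⟩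
  · obtain ⟨p, hp⟩ := (joined_one hδ _ G (cls_of_band hU hG)).symm
    exact ⟨⟨fun t => p t, p.continuous⟩, p.source, p.target,
      fun t => band_of_good hδ (hp t)⟩
  · obtain ⟨p, hp⟩ := joined_loop hδ hch Finset.univ (fun i _ j hj => absurd (Finset.mem_univ j) hj)
      γ h0 h1 (fun t => cls_of_band (h t).1 (h t).2) θ hθ hθ01 hdet
    refine ⟨⟨fun x => p x.1 x.2, ContinuousMap.continuous_uncurry_of_continuous
      ⟨fun s => p s, p.continuous⟩⟩, fun t => ?_, fun t => ?_, fun s => ⟨(hp s).1, (hp s).2.1⟩,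
      fun x => band_of_good hδ ((hp x.1).2.2 x.2)⟩
    · show p (0 : II) t = γ t
      exact congrArg (fun f : C(II, Matrix ι ι ℂ) => f t) p.source
    · show p (1 : II) t = 1
      exact congrArg (fun f : C(II, Matrix ι ι ℂ) => f t) p.target

end Vale.P101.ZS
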