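import Vale.Agent.P101.ZStab.Flip.Assemble
import Vale.Agent.P101.ZStab.Flip.Square

/-!
# P101 `Z`-stability: connecting maps have almost flipped tensor copies (module `ZStab/Flip`)
-/

namespace Vale.P101.ZS

/-- `FlipStmt` from the intertwiner lemmas. -/
theorem flip (intN : IntNormStmt) (hC : IntConnStmt) (hS : StepMapStmt) : FlipStmt :=
  Fl.flip_of_square
    (fun hC _ _ hp h σ δ hδ hσ hs => Fl.exists_square hC hp h σ δ hδ hσ hs) intN hC hS

end Vale.P101.ZS
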