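import Vale.Agent.P101.ZStab.StepPins

/-!
# P101 `Z`-stability: algebra and norm of banded intertwiners (module S1)

* `ibone`, `ibstar`, `ibmul`, `ibiff`: closure properties and a criterion through cut-off block
  diagonals.
* `intNorm`: a banded intertwiner almost intertwines block diagonals of slowly varying functions.
-/

open scoped Kronecker Matrix.Norms.L2Operator

namespace Vale.P101.ZS

noncomputable section

variable {p : ℕ} {J : Type*} [Fintype J] [DecidableEq J]

/-- A block of a matrix. -/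
def blk (X : Matrix (J × In p) (J × In p) ℂ) (i j : J) : Mat p (p + 1) :=
  fun u v => X (i, u) (j, v)

omit [Fintype J] [DecidableEq J] in
theorem blk_apply (X : Matrix (J × In p) (J × In p) ℂ) (i j : J) (u v : In p) :
    blk X i j u v = X (i, u) (j, v) := rfl

omit [Fintype J] [DecidableEq J] in
theorem blk_ext {X Y : Matrix (J × In p) (J × In p) ℂ} (h : ∀ i j, blk X i j = blk Y i j) :
    X = Y := by
  ext ⟨i, u⟩ ⟨j, v⟩
  exact congrFun (congrFun (h i j) u) v

omit [DecidableEq J] in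
theorem blk_mul (X Y : Matrix (J × In p) (J × In p) ℂ) (i j : J) :
    blk (X * Y) i j = ∑ k, blk X i k * blk Y k j := by
  ext u v
  simp only [blk, Matrix.mul_apply, Matrix.sum_apply]
  rw [Fintype.sum_prod_type]

theorem blk_dg_mul (h : ℝ → Mat p (p + 1)) (c : J → ℝ) (X : Matrix (J × In p) (J × In p) ℂ)
    (i j : J) : blk (dg h c * X) i j = h (c i) * blk X i j := by
  ext u v
  simp [blk, dg, Matrix.mul_apply, Fintype.sum_prod_type]

theorem blk_mul_dg (h : ℝ → Mat p (p + 1)) (c : J → ℝ) (X : Matrix (J × In p) (J × In p) ℂ)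
    (i j : J) : blk (X * dg h c) i j = blk X i j * h (c j) := by
  ext u v
  simp [blk, dg, Matrix.mul_apply, Fintype.sum_prod_type]

theorem ampP_eq (E : Matrix (Fin p) (Fin p) ℂ) :
    ampP (J := J) E =
      dg (fun _ => E ⊗ₖ (1 : Matrix (Fin (p + 1)) (Fin (p + 1)) ℂ)) (fun _ : J => (0 : ℝ)) := by
  ext ⟨i, u⟩ ⟨j, v⟩
  by_cases h : i = j <;> simp [ampP, dg, Matrix.kroneckerMap_apply, Matrix.one_apply, h]

theorem ampQ_eq (E : Matrix (Fin (p + 1)) (Fin (p + 1)) ℂ) :
    ampQ (J := J) E =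
      dg (fun _ => (1 : Matrix (Fin p) (Fin p) ℂ) ⊗ₖ E) (fun _ : J => (0 : ℝ)) := by
  ext ⟨i, u⟩ ⟨j, v⟩
  by_cases h : i = j <;> simp [ampQ, dg, Matrix.kroneckerMap_apply, Matrix.one_apply, h]

namespace IBand

variable {a' a : J → ℝ} {η δ : ℝ} {X : Matrix (J × In p) (J × In p) ℂ}

theorem blk_zero (h : IBand a' a η δ X) {i j : J} (hij : δ < |a' i - a j|) : blk X i j = 0 := by
  ext u v
  exact h.band (i, u) (j, v) hij

theorem near_of_ne (h : IBand a' a η δ X) {i j : J} (hne : blk X i j ≠ 0) : |a' i - a j| ≤ δ :=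
  not_lt.1 fun hlt => hne (h.blk_zero hlt)

theorem commP (h : IBand a' a η δ X) {i j : J} (hi : a' i ≤ 1 - η) (hj : a j ≤ 1 - η)
    (E : Matrix (Fin p) (Fin p) ℂ) :
    Commute (E ⊗ₖ (1 : Matrix (Fin (p + 1)) (Fin (p + 1)) ℂ)) (blk X i j) := by
  have e : blk (ampP (J := J) E * X) i j = blk (X * ampP (J := J) E) i j := by
    ext u v
    exact h.pinv E (i, u) (j, v) hi hj
  rw [ampP_eq, blk_dg_mul, blk_mul_dg] at e
  exact e

theorem commQ (h : IBand a' a η δ X) {i j : J} (hi : η ≤ a' i) (hj : η ≤ a j)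
    (E : Matrix (Fin (p + 1)) (Fin (p + 1)) ℂ) :
    Commute ((1 : Matrix (Fin p) (Fin p) ℂ) ⊗ₖ E) (blk X i j) := by
  have e : blk (ampQ (J := J) E * X) i j = blk (X * ampQ (J := J) E) i j := by
    ext u v
    exact h.qinv E (i, u) (j, v) hi hj
  rw [ampQ_eq, blk_dg_mul, blk_mul_dg] at e
  exact e

/-- The block conditions give an intertwiner. -/
theorem of_blk (hb : ∀ i j, δ < |a' i - a j| → blk X i j = 0)
    (hP : ∀ i j, a' i ≤ 1 - η → a j ≤ 1 - η → ∀ E : Matrix (Fin p) (Fin p) ℂ,
      Commute (E ⊗ₖ (1 : Matrix (Fin (p + 1)) (Fin (p + 1)) ℂ)) (blk X i j))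
    (hQ : ∀ i j, η ≤ a' i → η ≤ a j → ∀ E : Matrix (Fin (p + 1)) (Fin (p + 1)) ℂ,
      Commute ((1 : Matrix (Fin p) (Fin p) ℂ) ⊗ₖ E) (blk X i j)) :
    IBand a' a η δ X := by
  refine ⟨fun x y hxy => ?_, fun E x y hx hy => ?_, fun E x y hx hy => ?_⟩
  · exact congrFun (congrFun (hb x.1 y.1 hxy) x.2) y.2
  · have e : blk (ampP (J := J) E * X) x.1 y.1 = blk (X * ampP (J := J) E) x.1 y.1 := by
      rw [ampP_eq, blk_dg_mul, blk_mul_dg]; exact hP _ _ hx hy E
    exact congrFun (congrFun e x.2) y.2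
  · have e : blk (ampQ (J := J) E * X) x.1 y.1 = blk (X * ampQ (J := J) E) x.1 y.1 := by
      rw [ampQ_eq, blk_dg_mul, blk_mul_dg]; exact hQ _ _ hx hy E
    exact congrFun (congrFun e x.2) y.2

end IBand

omit [Fintype J] in
theorem blk_one (i j : J) :
    blk (1 : Matrix (J × In p) (J × In p) ℂ) i j = if i = j then 1 else 0 := by
  ext u v
  by_cases h : i = j <;> simp [blk, Matrix.one_apply, h]

theorem ibone {a' a : J → ℝ} {η d : ℝ} (h : ∀ i, |a' i - a i| ≤ d) :
    IBand a' a η d (1 : Matrix (J × In p) (J × In p) ℂ) := by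
  refine IBand.of_blk (fun i j hij => ?_) (fun i j _ _ E => ?_) (fun i j _ _ E => ?_)
  · rw [blk_one, if_neg]
    rintro rfl
    exact absurd hij (not_lt.2 (h i))
  · rw [blk_one]; split_ifs <;> simp
  · rw [blk_one]; split_ifs <;> simp

theorem ibstar {a' a : J → ℝ} {η δ : ℝ} {X : Matrix (J × In p) (J × In p) ℂ}
    (h : IBand a' a η δ X) : IBand a a' η δ X.conjTranspose := by
  have e : ∀ i j, blk X.conjTranspose i j = star (blk X j i) := fun i j => by
    ext u v; rfl
  refine IBand.of_blk (fun i j hij => ?_) (fun i j hi hj E => ?_) (fun i j hi hj E => ?_)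
  · rw [e, h.blk_zero (by rwa [abs_sub_comm]), star_zero]
  · rw [e]
    simpa [Matrix.star_eq_conjTranspose, Matrix.conjTranspose_kronecker] using
      (h.commP hj hi E.conjTranspose).star_star
  · rw [e]
    simpa [Matrix.star_eq_conjTranspose, Matrix.conjTranspose_kronecker] using
      (h.commQ hj hi E.conjTranspose).star_star

theorem ibmul {a'' a' a : J → ℝ} {η η' δ δ' : ℝ} {X Y : Matrix (J × In p) (J × In p) ℂ}
    (hX : IBand a'' a' η δ X) (hY : IBand a' a η' δ' Y) :
    IBand a'' a (max η η' + δ + δ') (δ + δ') (X * Y) := by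
  have hm1 := le_max_left η η'
  have hm2 := le_max_right η η'
  refine IBand.of_blk (fun i j hij => ?_) (fun i j hi hj E => ?_) (fun i j hi hj E => ?_) <;>
    rw [blk_mul]
  · refine Finset.sum_eq_zero fun k _ => ?_
    by_contra hne
    have h1 := hX.near_of_ne (left_ne_zero_of_mul hne)
    have h2 := hY.near_of_ne (right_ne_zero_of_mul hne)
    have h3 := abs_sub_le (a'' i) (a' k) (a j)
    linarith
  · refine Commute.sum_right _ _ _ fun k _ => ?_
    by_cases hne : blk X i k * blk Y k j = 0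
    · rw [hne]; exact Commute.zero_right _
    · have h1 := abs_le.1 (hX.near_of_ne (left_ne_zero_of_mul hne))
      have h2 := abs_le.1 (hY.near_of_ne (right_ne_zero_of_mul hne))
      exact (hX.commP (by linarith) (by linarith) E).mul_right
        (hY.commP (by linarith) (by linarith) E)
  · refine Commute.sum_right _ _ _ fun k _ => ?_
    by_cases hne : blk X i k * blk Y k j = 0
    · rw [hne]; exact Commute.zero_right _
    · have h1 := abs_le.1 (hX.near_of_ne (left_ne_zero_of_mul hne))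
      have h2 := abs_le.1 (hY.near_of_ne (right_ne_zero_of_mul hne))
      exact (hX.commQ (by linarith) (by linarith) E).mul_right
        (hY.commQ (by linarith) (by linarith) E)

/-- The criterion through cut-off block diagonals. -/
theorem ibiff {a' a : J → ℝ} {η δ : ℝ} (X : Matrix (J × In p) (J × In p) ℂ) :
    IBand a' a η δ X ↔
      (∀ x : ℝ, dg ((Set.Ioi (x + δ)).indicator fun _ => (1 : Mat p (p + 1))) a' * X *
        dg ((Set.Iic x).indicator fun _ => (1 : Mat p (p + 1))) a = 0) ∧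
      (∀ x : ℝ, dg ((Set.Iio (x - δ)).indicator fun _ => (1 : Mat p (p + 1))) a' * X *
        dg ((Set.Ici x).indicator fun _ => (1 : Mat p (p + 1))) a = 0) ∧
      (∀ E : Matrix (Fin p) (Fin p) ℂ,
        dg ((Set.Iic (1 - η)).indicator fun _ =>
            E ⊗ₖ (1 : Matrix (Fin (p + 1)) (Fin (p + 1)) ℂ)) a' * X *
          dg ((Set.Iic (1 - η)).indicator fun _ => (1 : Mat p (p + 1))) a =
        dg ((Set.Iic (1 - η)).indicator fun _ => (1 : Mat p (p + 1))) a' * X *
          dg ((Set.Iic (1 - η)).indicator fun _ =>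
            E ⊗ₖ (1 : Matrix (Fin (p + 1)) (Fin (p + 1)) ℂ)) a) ∧
      ∀ E : Matrix (Fin (p + 1)) (Fin (p + 1)) ℂ,
        dg ((Set.Ici η).indicator fun _ => (1 : Matrix (Fin p) (Fin p) ℂ) ⊗ₖ E) a' * X *
          dg ((Set.Ici η).indicator fun _ => (1 : Mat p (p + 1))) a =
        dg ((Set.Ici η).indicator fun _ => (1 : Mat p (p + 1))) a' * X *
          dg ((Set.Ici η).indicator fun _ => (1 : Matrix (Fin p) (Fin p) ℂ) ⊗ₖ E) a := by
  have sand : ∀ (h k : ℝ → Mat p (p + 1)) (i j : J),
      blk (dg h a' * X * dg k a) i j = h (a' i) * blk X i j * k (a j) := fun h k i j => by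
    rw [blk_mul_dg, blk_dg_mul]
  constructor
  · refine fun H => ⟨fun x => blk_ext fun i j => ?_, fun x => blk_ext fun i j => ?_,
      fun E => blk_ext fun i j => ?_, fun E => blk_ext fun i j => ?_⟩
    · rw [sand]
      by_cases h1 : a' i ∈ Set.Ioi (x + δ)
      · by_cases h2 : a j ∈ Set.Iic x
        · rw [H.blk_zero (lt_of_lt_of_le (by simp only [Set.mem_Ioi, Set.mem_Iic] at h1 h2; linarith)
            (le_abs_self _)), mul_zero, zero_mul]
          rfl
        · rw [Set.indicator_of_notMem h2, mul_zero]; rfl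
      · rw [Set.indicator_of_notMem h1, zero_mul, zero_mul]; rfl
    · rw [sand]
      by_cases h1 : a' i ∈ Set.Iio (x - δ)
      · by_cases h2 : a j ∈ Set.Ici x
        · rw [H.blk_zero (lt_of_lt_of_le (by simp only [Set.mem_Iio, Set.mem_Ici] at h1 h2; linarith)
            (neg_le_abs _)), mul_zero, zero_mul]
          rfl
        · rw [Set.indicator_of_notMem h2, mul_zero]; rfl
      · rw [Set.indicator_of_notMem h1, zero_mul, zero_mul]; rfl
    · rw [sand, sand]
      by_cases h1 : a' i ∈ Set.Iic (1 - η)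
      · by_cases h2 : a j ∈ Set.Iic (1 - η)
        · simp only [Set.indicator_of_mem h1, Set.indicator_of_mem h2, one_mul, mul_one]
          exact (H.commP h1 h2 E).eq
        · simp [Set.indicator_of_notMem h2]
      · simp [Set.indicator_of_notMem h1]
    · rw [sand, sand]
      by_cases h1 : a' i ∈ Set.Ici η
      · by_cases h2 : a j ∈ Set.Ici η
        · simp only [Set.indicator_of_mem h1, Set.indicator_of_mem h2, one_mul, mul_one]
          exact (H.commQ h1 h2 E).eq
        · simp [Set.indicator_of_notMem h2]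
      · simp [Set.indicator_of_notMem h1]
  · rintro ⟨h1, h2, h3, h4⟩
    refine IBand.of_blk (fun i j hij => ?_) (fun i j hi hj E => ?_) (fun i j hi hj E => ?_)
    · rcases lt_abs.1 hij with h | h
      · have e := congrArg (fun M => blk M i j) (h1 (a j))
        simp only [sand] at e
        rw [Set.indicator_of_mem (show a' i ∈ Set.Ioi (a j + δ) by
            simp only [Set.mem_Ioi]; linarith),
          Set.indicator_of_mem (show a j ∈ Set.Iic (a j) by simp), one_mul, mul_one] at e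
        exact e.trans rfl
      · have e := congrArg (fun M => blk M i j) (h2 (a j))
        simp only [sand] at e
        rw [Set.indicator_of_mem (show a' i ∈ Set.Iio (a j - δ) by
            simp only [Set.mem_Iio]; linarith),
          Set.indicator_of_mem (show a j ∈ Set.Ici (a j) by simp), one_mul, mul_one] at e
        exact e.trans rfl
    · have e := congrArg (fun M => blk M i j) (h3 E)
      simp only [sand] at e
      rw [Set.indicator_of_mem (show a' i ∈ Set.Iic (1 - η) from hi),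
        Set.indicator_of_mem (show a j ∈ Set.Iic (1 - η) from hj),
        Set.indicator_of_mem (show a' i ∈ Set.Iic (1 - η) from hi),
        Set.indicator_of_mem (show a j ∈ Set.Iic (1 - η) from hj), one_mul, mul_one] at e
      exact e
    · have e := congrArg (fun M => blk M i j) (h4 E)
      simp only [sand] at e
      rw [Set.indicator_of_mem (show a' i ∈ Set.Ici η from hi),
        Set.indicator_of_mem (show a j ∈ Set.Ici η from hj),
        Set.indicator_of_mem (show a' i ∈ Set.Ici η from hi),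
        Set.indicator_of_mem (show a j ∈ Set.Ici η from hj), one_mul, mul_one] at e
      exact e

/-! ## The norm estimate -/

/-- Block diagonal matrices as a star homomorphism. -/
def dgHom (p : ℕ) (J : Type*) [Fintype J] [DecidableEq J] :
    (J → Mat p (p + 1)) →⋆ₙₐ[ℂ] Matrix (J × In p) (J × In p) ℂ where
  toFun F := Matrix.of fun x y => if x.1 = y.1 then F x.1 x.2 y.2 else 0
  map_smul' c F := by ext x y; by_cases h : x.1 = y.1 <;> simp [h]
  map_zero' := by ext x y; by_cases h : x.1 = y.1 <;> simp [h]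
  map_add' F G := by ext x y; by_cases h : x.1 = y.1 <;> simp [h]
  map_mul' F G := by
    ext ⟨i, u⟩ ⟨j, v⟩
    by_cases h : i = j
    · subst h; simp [Matrix.mul_apply, Fintype.sum_prod_type]
    · simp [Matrix.mul_apply, Fintype.sum_prod_type, h]
  map_star' F := by
    ext ⟨i, u⟩ ⟨j, v⟩
    by_cases h : i = j
    · subst h; simp [Matrix.star_apply]
    · simp [Matrix.star_apply, h, Ne.symm h]

theorem norm_dg_le {h : ℝ → Mat p (p + 1)} {c : J → ℝ} {ε : ℝ} (hε : 0 ≤ ε)
    (hh : ∀ i, ‖h (c i)‖ ≤ ε) : ‖dg h c‖ ≤ ε := by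
  have e : dg h c = dgHom p J fun i => h (c i) := rfl
  rw [e]
  exact (NonUnitalStarAlgHom.norm_apply_le (dgHom p J) _).trans
    ((pi_norm_le_iff_of_nonneg hε).2 hh)

/-- A matrix commuting with both tensor factors is central. -/
theorem commute_of_both {B : Mat p (p + 1)}
    (h1 : ∀ E : Matrix (Fin p) (Fin p) ℂ,
      Commute (E ⊗ₖ (1 : Matrix (Fin (p + 1)) (Fin (p + 1)) ℂ)) B)
    (h2 : ∀ E : Matrix (Fin (p + 1)) (Fin (p + 1)) ℂ,
      Commute ((1 : Matrix (Fin p) (Fin p) ℂ) ⊗ₖ E) B)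
    (M : Mat p (p + 1)) : Commute M B := by
  rw [Matrix.matrix_eq_sum_single M]
  refine Commute.sum_left _ _ _ fun u _ => Commute.sum_left _ _ _ fun v _ => ?_
  rw [← mul_one (M u v), ← Matrix.single_kronecker_single u.1 v.1 u.2 v.2 (M u v) 1,
    show Matrix.single u.1 v.1 (M u v) = Matrix.single u.1 v.1 (M u v) * 1 by rw [Matrix.mul_one],
    show Matrix.single u.2 v.2 (1 : ℂ) = 1 * Matrix.single u.2 v.2 (1 : ℂ) by rw [Matrix.one_mul],
    Matrix.mul_kronecker_mul]
  exact (h1 _).mul_left (h2 _)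

theorem bin_close {δ x y : ℝ} (hδ : 0 < δ) (h : |x - y| ≤ δ) :
    ⌊x / δ⌋ - ⌊y / δ⌋ = -1 ∨ ⌊x / δ⌋ - ⌊y / δ⌋ = 0 ∨ ⌊x / δ⌋ - ⌊y / δ⌋ = 1 := by
  obtain ⟨h1, h2⟩ := abs_le.1 h
  have e1 : x / δ ≤ y / δ + 1 := by rw [div_add_one hδ.ne']; gcongr; linarith
  have e2 : y / δ ≤ x / δ + 1 := by rw [div_add_one hδ.ne']; gcongr; linarith
  have f1 := Int.floor_le_floor e1
  have f2 := Int.floor_le_floor e2
  rw [Int.floor_add_one] at f1 f2
  omega

/-- Intertwiners almost commute. -/
theorem intNorm : IntNormStmt := by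
  intro p J _ _ a' a η δ ε g X _ hδ hε hδη hη ha hg hgA hgB hXu hX
  let n : ℝ → ℤ := fun t => ⌊t / δ⌋
  let c : ℝ → ℝ := fun t => n t * δ
  have hcle : ∀ t, c t ≤ t := fun t => (le_div_iff₀ hδ).1 (Int.floor_le (t / δ))
  have hcge : ∀ t, t - δ ≤ c t := fun t => by
    have h1 := Int.lt_floor_add_one (t / δ)
    rw [div_lt_iff₀ hδ] at h1
    simp only [c, n]
    linarith
  have hε0 : ∀ d : ℤ, d = -1 ∨ d = 0 ∨ d = 1 → ∀ t,
      ‖g (c t - d * δ) - g (c t)‖ ≤ ε := fun d hd t => hg _ _ <| by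
    rcases hd with rfl | rfl | rfl <;> simp [abs_of_pos hδ] <;> linarith
  -- the phases
  set ω : ℂ := Complex.exp (2 * Real.pi * Complex.I / (3 : ℕ)) with hω
  have hprim : IsPrimitiveRoot ω 3 := Complex.isPrimitiveRoot_exp 3 (by norm_num)
  have hω0 : ω ≠ 0 := hprim.ne_zero (by norm_num)
  have hωn : ∀ z : ℤ, ‖ω ^ z‖ = 1 := fun z => by
    rw [norm_zpow, hprim.norm'_eq_one (by norm_num), one_zpow]
  have hsum : ∀ z : ℤ, z ∈ ({-2, -1, 0, 1, 2} : Set ℤ) →
      1 + ω ^ z + ω ^ (2 * z) = if z = 0 then 3 else 0 := by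
    intro z hz
    split_ifs with h0
    · subst h0; norm_num
    · have hne : ω ^ z ≠ 1 := by
        rw [Ne, hprim.zpow_eq_one_iff_dvd]
        simp only [Set.mem_insert_iff, Set.mem_singleton_iff] at hz
        omega
      have h3 : (ω ^ z) ^ 3 = 1 := by
        rw [← zpow_natCast, ← zpow_mul, mul_comm, zpow_mul, zpow_natCast, hprim.pow_eq_one,
          one_zpow]
      rw [two_mul, zpow_add₀ hω0]
      refine (mul_eq_zero.1 (?_ : (ω ^ z - 1) * (1 + ω ^ z + ω ^ z * ω ^ z) = 0)).resolve_left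
        (sub_ne_zero.2 hne)
      linear_combination h3
  let ph : ℕ → (J → ℝ) → Matrix (J × In p) (J × In p) ℂ := fun s b =>
    dg (fun t => ω ^ ((s : ℤ) * n t) • (1 : Mat p (p + 1))) b
  let ph' : ℕ → (J → ℝ) → Matrix (J × In p) (J × In p) ℂ := fun s b =>
    dg (fun t => ω ^ (-((s : ℤ) * n t)) • (1 : Mat p (p + 1))) b
  have hone : ‖(1 : Mat p (p + 1))‖ ≤ 1 := by
    rcases subsingleton_or_nontrivial (Mat p (p + 1)) with _ | _
    · simp [Subsingleton.elim (1 : Mat p (p + 1)) 0]
    · simp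
  have hph : ∀ (z : ℝ → ℤ) (b : J → ℝ), ‖dg (fun t => ω ^ z t • (1 : Mat p (p + 1))) b‖ ≤ 1 :=
    fun z b => norm_dg_le zero_le_one fun i => by rw [norm_smul, hωn, one_mul]; exact hone
  have hXn : ‖X‖ ≤ 1 := by
    have h : ‖star X * X‖ = ‖X‖ * ‖X‖ := CStarRing.norm_star_mul_self
    rw [(Unitary.mem_iff.1 hXu).1] at h
    rcases subsingleton_or_nontrivial (Matrix (J × In p) (J × In p) ℂ) with _ | _
    · simp [Subsingleton.elim X 0]
    · rw [norm_one] at h; nlinarith [norm_nonneg X]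
  -- the part of X moving the bins by d
  let Y : ℤ → Matrix (J × In p) (J × In p) ℂ := fun d => (3 : ℂ)⁻¹ •
    (X + ω ^ (-d) • (ph 1 a' * X * ph' 1 a) + ω ^ (-(2 * d)) • (ph 2 a' * X * ph' 2 a))
  have hYn : ∀ d, ‖Y d‖ ≤ 1 := by
    intro d
    have key : ∀ (z : ℤ) s, ‖ω ^ z • (ph s a' * X * ph' s a)‖ ≤ 1 := fun z s => by
      rw [norm_smul, hωn, one_mul]
      calc _ ≤ ‖ph s a'‖ * ‖X‖ * ‖ph' s a‖ :=
            (norm_mul_le _ _).trans (mul_le_mul_of_nonneg_right (norm_mul_le _ _) (norm_nonneg _))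
        _ ≤ 1 * 1 * 1 := mul_le_mul (mul_le_mul (hph _ _) hXn (norm_nonneg _) zero_le_one)
            (hph _ _) (norm_nonneg _) (by norm_num)
        _ = 1 := by norm_num
    calc ‖Y d‖ ≤ (3 : ℝ)⁻¹ * (1 + 1 + 1) := by
          rw [show Y d = _ from rfl, norm_smul, norm_inv, Complex.norm_ofNat]
          gcongr
          exact (norm_add_le _ _).trans (add_le_add ((norm_add_le _ _).trans
            (add_le_add hXn (key _ _))) (key _ _))
      _ = 1 := by norm_num
  have hYblk : ∀ d, d = -1 ∨ d = 1 → ∀ i j, blk (Y d) i j =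
      if n (a' i) - n (a j) = d then blk X i j else 0 := by
    intro d hd i j
    have e : blk (Y d) i j = ((3 : ℂ)⁻¹ * (1 + ω ^ (n (a' i) - n (a j) - d) +
        ω ^ (2 * (n (a' i) - n (a j) - d)))) • blk X i j := by
      have hs : ∀ s : ℕ, blk (ph s a' * X * ph' s a) i j =
          (ω ^ ((s : ℤ) * n (a' i)) * ω ^ (-((s : ℤ) * n (a j)))) • blk X i j := fun s => by
        rw [blk_mul_dg, blk_dg_mul, smul_mul_assoc, mul_smul_comm, one_mul, mul_one, smul_smul]
        rw [mul_comm]
      have hlin : blk (Y d) i j = (3 : ℂ)⁻¹ • (blk X i j +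
          ω ^ (-d) • blk (ph 1 a' * X * ph' 1 a) i j +
          ω ^ (-(2 * d)) • blk (ph 2 a' * X * ph' 2 a) i j) := by
        ext u v; rfl
      rw [hlin, hs, hs, smul_smul, smul_smul, ← zpow_add₀ hω0, ← zpow_add₀ hω0,
        ← zpow_add₀ hω0, ← zpow_add₀ hω0]
      rw [show -d + (((1 : ℕ) : ℤ) * n (a' i) + -(((1 : ℕ) : ℤ) * n (a j))) =
          n (a' i) - n (a j) - d by push_cast; ring,
        show -(2 * d) + (((2 : ℕ) : ℤ) * n (a' i) + -(((2 : ℕ) : ℤ) * n (a j))) =
          2 * (n (a' i) - n (a j) - d) by push_cast; ring]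
      module
    rw [e]
    by_cases hB : blk X i j = 0
    · simp [hB]
    · have hnear : n (a' i) - n (a j) = -1 ∨ n (a' i) - n (a j) = 0 ∨ n (a' i) - n (a j) = 1 :=
        bin_close hδ (hX.near_of_ne hB)
      rw [hsum _ (by simp only [Set.mem_insert_iff, Set.mem_singleton_iff]; omega)]
      by_cases hz : n (a' i) - n (a j) = d
      · rw [if_pos hz, if_pos (by omega)]; norm_num
      · rw [if_neg hz, if_neg (by omega)]; simp
  let K : ℤ → Matrix (J × In p) (J × In p) ℂ := fun d =>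
    dg (fun t => g (c t - d * δ) - g (c t)) a' * Y d
  have hK : ∀ d, d = -1 ∨ d = 1 → ‖K d‖ ≤ ε := fun d hd =>
    calc ‖K d‖ ≤ ε * 1 := (norm_mul_le _ _).trans (mul_le_mul
          (norm_dg_le hε fun i => hε0 d (hd.imp id Or.inr) (a' i)) (hYn d) (norm_nonneg _) hε)
      _ = ε := mul_one ε
  let L : Matrix (J × In p) (J × In p) ℂ := dg (fun t => g t - g (c t)) a
  let L' : Matrix (J × In p) (J × In p) ℂ := dg (fun t => g t - g (c t)) a'
  have hL : ∀ b : J → ℝ, ‖dg (fun t => g t - g (c t)) b‖ ≤ ε := fun b =>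
    norm_dg_le hε fun i => hg _ _ <| by
      rw [abs_le]; constructor <;> linarith [hcle (b i), hcge (b i)]
  have hid : X * dg g a - dg g a' * X = K (-1) + K 1 + X * L - L' * X := by
    refine blk_ext fun i j => ?_
    have hlin : ∀ A B C D : Matrix (J × In p) (J × In p) ℂ,
        blk (A + B + C - D) i j = blk A i j + blk B i j + blk C i j - blk D i j := fun A B C D => by
      ext u v; rfl
    have hsub : ∀ A B : Matrix (J × In p) (J × In p) ℂ,
        blk (A - B) i j = blk A i j - blk B i j := fun A B => by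
      ext u v; rfl
    rw [hlin, hsub]
    simp only [K, L, L', blk_mul_dg, blk_dg_mul]
    rw [hYblk _ (Or.inl rfl), hYblk _ (Or.inr rfl)]
    by_cases hB : blk X i j = 0
    · simp [hB]
    have hnr := hX.near_of_ne hB
    have hnear : n (a' i) - n (a j) = -1 ∨ n (a' i) - n (a j) = 0 ∨ n (a' i) - n (a j) = 1 :=
      bin_close hδ hnr
    obtain ⟨q1, q2⟩ := abs_le.1 hnr
    have hcomm : Commute (g (c (a j))) (blk X i j) := by
      rcases le_or_gt (a j) (2 * η) with h | h
      · obtain ⟨A, hA⟩ := hgA (c (a j)) (by linarith [hcle (a j)])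
        rw [hA]
        exact hX.commP (by linarith) (by linarith) A
      · rcases le_or_gt (1 - 2 * η) (a j) with h' | h'
        · obtain ⟨B, hB'⟩ := hgB (c (a j)) (by linarith [hcge (a j)])
          rw [hB']
          exact hX.commQ (by linarith) (by linarith) B
        · exact commute_of_both (hX.commP (by linarith) (by linarith))
            (hX.commQ (by linarith) (by linarith)) _
    have hcd : ∀ d : ℤ, n (a' i) - n (a j) = d → c (a' i) - d * δ = c (a j) := fun d hd => by
      simp only [c, ← hd]; push_cast; ring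
    rcases hnear with h | h | h
    · rw [if_pos h, if_neg (by omega), hcd _ h]
      simp only [sub_mul, mul_sub, mul_zero, hcomm.eq]
      abel
    · rw [if_neg (by omega), if_neg (by omega), mul_zero, mul_zero,
        show c (a' i) = c (a j) by simpa using hcd _ h, mul_sub, sub_mul, hcomm.eq]
      noncomm_ring
    · rw [if_neg (by omega), if_pos h, hcd _ h]
      simp only [sub_mul, mul_sub, mul_zero, hcomm.eq]
      abel
  rw [hid]
  calc ‖K (-1) + K 1 + X * L - L' * X‖
      ≤ ‖K (-1)‖ + ‖K 1‖ + ‖X * L‖ + ‖L' * X‖ :=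
        (norm_sub_le _ _).trans (add_le_add_left ((norm_add_le _ _).trans
          (add_le_add_left (norm_add_le _ _) _)) _)
    _ ≤ ε + ε + 1 * ε + ε * 1 := by
        gcongr
        · exact hK _ (Or.inl rfl)
        · exact hK _ (Or.inr rfl)
        · exact (norm_mul_le _ _).trans (mul_le_mul hXn (hL a) (norm_nonneg _) zero_le_one)
        · exact (norm_mul_le _ _).trans (mul_le_mul (hL a') hXn (norm_nonneg _) hε)
    _ ≤ 10 * ε := by linarith

end

end Vale.P101.ZS
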