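import Vale.Agent.P101.ZStab.IntConn.Parts

/-!
# P101 `Z`-stability: intertwiners are connected and their loops without winding contract

Two cuts near the ends make an intertwiner block diagonal.  The three parts are banded unitaries
with multiplicities, to which the module `Band` applies.  For loops the windings of the parts are
first removed by phases on the two sides of a cut.
-/

open scoped Kronecker Matrix.Norms.L2Operator

namespace Vale.P101.ZS.IC

noncomputable section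

set_option linter.unusedSectionVars false

/-! ### Windings of loops in the circle -/

/-- The loop `d` has winding number `n`. -/
def Wd (d : II → ℂ) (n : ℤ) : Prop :=
  ∃ θ : II → ℝ, Continuous θ ∧ θ 1 - θ 0 = 2 * Real.pi * n ∧
    ∀ t, d t = Complex.exp (θ t * Complex.I)

theorem Wd.mul {d e : II → ℂ} {n m : ℤ} (h : Wd d n) (h' : Wd e m) :
    Wd (fun t => d t * e t) (n + m) := by
  obtain ⟨θ, hc, he, hd⟩ := h
  obtain ⟨θ', hc', he', hd'⟩ := h'
  refine ⟨fun t => θ t + θ' t, hc.add hc', by push_cast; linarith, fun t => ?_⟩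
  show d t * e t = _
  rw [hd, hd', ← Complex.exp_add]
  push_cast
  ring_nf

theorem Wd.pow {d : II → ℂ} {n : ℤ} (h : Wd d n) (k : ℕ) : Wd (fun t => d t ^ k) (k * n) := by
  obtain ⟨θ, hc, he, hd⟩ := h
  refine ⟨fun t => k * θ t, hc.const_mul _, ?_, fun t => ?_⟩
  · push_cast
    linear_combination (k : ℝ) * he
  · show d t ^ k = _
    rw [hd, ← Complex.exp_nat_mul]
    push_cast
    ring_nf

theorem Wd.unique {d e : II → ℂ} {n m : ℤ} (h : Wd d n) (h' : Wd e m) (heq : ∀ t, d t = e t) :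
    n = m := by
  obtain ⟨θ, hc, he, hd⟩ := h
  obtain ⟨θ', hc', he', hd'⟩ := h'
  have h0 := arg_unique hc hc' (fun t => by rw [← hd, ← hd', heq]) 1 0
  have h1 : 2 * Real.pi * ((n : ℝ) - m) = 0 := by linarith
  have h2 : (n : ℝ) = m := by
    have := (mul_eq_zero.1 h1).resolve_left (by positivity)
    linarith
  exact_mod_cast h2

theorem exists_wd {d : II → ℂ} (hd : Continuous d) (h : ∀ t, ‖d t‖ = 1) (he : d 0 = d 1) :
    ∃ n, Wd d n := by
  obtain ⟨θ, hθ, hθd⟩ := exists_arg hd h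
  rw [hθd, hθd] at he
  obtain ⟨n, hn⟩ := Complex.exp_eq_exp_iff_exists_int.1 he
  refine ⟨-n, θ, hθ, ?_, hθd⟩
  have := congrArg Complex.im hn
  simp at this
  push_cast
  linarith

theorem exists_wd_det {ι : Type*} [Fintype ι] [DecidableEq ι] {γ : II → Matrix ι ι ℂ}
    (hc : Continuous γ) (hu : ∀ t, γ t ∈ unitary (Matrix ι ι ℂ)) (h0 : γ 0 = 1) (h1 : γ 1 = 1) :
    ∃ n, Wd (fun t => (γ t).det) n := by
  refine exists_wd hc.matrix_det (fun t => ?_) (by rw [h0, h1])
  exact CStarRing.norm_of_mem_unitary (Matrix.det_of_mem_unitary (hu t))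

/-! ### Homotopies -/

variable {p : ℕ} {J : Type} [Fintype J] [DecidableEq J]

/-- The unitary intertwiners allowed on the way. -/
def Tg (p : ℕ) (a : J → ℝ) (η δ : ℝ) : Set (Matrix (J × In p) (J × In p) ℂ) :=
  {X | X ∈ unitary (Matrix (J × In p) (J × In p) ℂ) ∧ IBand a a (10 * η) (100 * δ) X}

/-- The based loops in them. -/
def TgL (p : ℕ) (a : J → ℝ) (η δ : ℝ) : Set C(II, Matrix (J × In p) (J × In p) ℂ) :=
  {γ | γ 0 = 1 ∧ γ 1 = 1 ∧ ∀ t, γ t ∈ Tg p a η δ}

variable {a : J → ℝ} {η δ : ℝ}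

theorem loop_joined {γ γ' : C(II, Matrix (J × In p) (J × In p) ℂ)}
    {F : II × II → Matrix (J × In p) (J × In p) ℂ} (hF : Continuous F) (h0 : ∀ t, F (0, t) = γ t)
    (h1 : ∀ t, F (1, t) = γ' t) (he : ∀ h, F (h, 0) = 1 ∧ F (h, 1) = 1)
    (hT : ∀ x, F x ∈ Tg p a η δ) : JoinedIn (TgL p a η δ) γ γ' := by
  let G : C(II × II, Matrix (J × In p) (J × In p) ℂ) := ⟨F, hF⟩
  exact ⟨⟨G.curry, ContinuousMap.ext h0, ContinuousMap.ext h1⟩,
    fun h => ⟨(he h).1, (he h).2, fun t => hT _⟩⟩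

theorem chain_sub {κ : Type} (hch : Chain a δ) {δ' : ℝ} (hδ : δ ≤ δ') {P : J → Prop}
    (hP : ∀ i j k, P i → P j → a i ≤ a k → a k ≤ a j → P k) :
    Chain (fun x : {i // P i} × κ => a x.1) δ' := by
  rintro ⟨i, u⟩ ⟨j, v⟩ hij
  obtain ⟨k, h1, h2⟩ := hch (i : J) j hij
  by_cases h3 : a k ≤ a j
  · exact ⟨(⟨k, hP i j k i.2 j.2 h1.le h3⟩, u), h1, by simp only; linarith⟩
  · refine ⟨(j, v), hij, ?_⟩
    push Not at h3
    simp only at hij ⊢
    linarith

/-- The labels on both sides of a cut. -/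
theorem exists_straddle (hsp : Spread a δ) {c : ℝ} (hc : δ ≤ c) (hc' : c < 1 - δ) :
    ∃ i j, (c - δ < a i ∧ a i ≤ c) ∧ c < a j ∧ a j ≤ c + δ := by
  classical
  obtain ⟨i₀, hi₀⟩ := hsp.low
  obtain ⟨j₀, hj₀⟩ := hsp.high
  obtain ⟨i, hi, hmax⟩ := (Finset.univ.filter fun i => a i ≤ c).exists_max_image a
    ⟨i₀, Finset.mem_filter.2 ⟨Finset.mem_univ _, hi₀.trans hc⟩⟩
  have hic := (Finset.mem_filter.1 hi).2
  obtain ⟨j, h1, h2⟩ := hsp.chain i j₀ (by linarith)
  have hjc : c < a j := by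
    by_contra hh
    push Not at hh
    linarith [hmax j (Finset.mem_filter.2 ⟨Finset.mem_univ _, hh⟩)]
  exact ⟨i, j, ⟨by linarith, hic⟩, hjc, by linarith⟩

section Res

variable {κ μ : Type} [Fintype κ] [DecidableEq κ] [Fintype μ] [DecidableEq μ]
  (P : J → Prop) [DecidablePred P] (f : In p ≃ κ × μ) (m₀ : μ)

theorem res_part (Y : Matrix ({i // P i} × κ) ({i // P i} × κ) ℂ) :
    res P f m₀ (part P f Y) = Y := by
  ext ⟨⟨i, hi⟩, s⟩ ⟨⟨k, hk⟩, t⟩
  simp [res, part_apply P f hi hk]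

theorem res_one : res P f m₀ (1 : Matrix (J × In p) (J × In p) ℂ) = 1 := by
  rw [← part_one P f, res_part]

theorem rest_one : rest P (1 : Matrix (J × In p) (J × In p) ℂ) = 1 := by
  ext x y
  simp [rest]

theorem continuous_res {X : Type*} [TopologicalSpace X]
    {Z : X → Matrix (J × In p) (J × In p) ℂ} (hZ : Continuous Z) :
    Continuous fun x => res P f m₀ (Z x) :=
  continuous_matrix fun _ _ => hZ.matrix_elem _ _

theorem res_diag (d : J → ℂ) (Z : Matrix (J × In p) (J × In p) ℂ) :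
    res P f m₀ (up p (Matrix.diagonal d) * Z) =
      Matrix.diagonal (fun x : {i // P i} × κ => d x.1) * res P f m₀ Z := by
  ext x y
  rw [Matrix.diagonal_mul, res, Matrix.submatrix_apply, up_mul_apply]
  simp [res, Matrix.diagonal_apply]

end Res

/-! ### Windows -/

theorem continuous_up {X : Type*} [TopologicalSpace X] {G : X → Matrix J J ℂ} (hG : Continuous G) :
    Continuous fun x => up p (G x) :=
  continuous_matrix fun i k => (hG.matrix_elem i.1 k.1).mul continuous_const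

theorem det_up (G : Matrix J J ℂ) : (up p G).det = G.det ^ Fintype.card (In p) := by
  simp [up, Matrix.det_kronecker]

/-- The window block of a matrix. -/
def wres (a : J → ℝ) (c d : ℝ) (G : Matrix J J ℂ) :
    Matrix ({i // InW a c d i} × Unit) ({i // InW a c d i} × Unit) ℂ :=
  Matrix.of fun x y => G x.1 y.1

theorem up_eq_part {c d : ℝ} [DecidablePred (InW a c d)] {G : Matrix J J ℂ}
    (hw : WinU a c d G) : up p G = part (InW a c d) (fM p) (wres a c d G) := by
  rw [part_fM_eq_up]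
  congr 1
  ext i k
  by_cases h : InW a c d i ∧ InW a c d k
  · simp [wmat, h, wres]
  · simp [wmat, h, hw i k (not_and_or.1 h)]

theorem winU_wmat {c d : ℝ} [DecidablePred (InW a c d)]
    (Y : Matrix ({i // InW a c d i} × Unit) ({i // InW a c d i} × Unit) ℂ) :
    WinU a c d (wmat (InW a c d) Y) := fun i k hik => by
  simp [wmat, not_and_or.2 hik]

theorem idOn_up {c d : ℝ} {G : Matrix J J ℂ} (hw : WinU a c d G) (P : J → Prop)
    (hP : ∀ i, P i → ¬InW a c d i) : IdOn P (up p G) := by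
  intro x y hxy
  have e : G x.1 y.1 = (1 : Matrix J J ℂ) x.1 y.1 := hw _ _ (hxy.imp (hP _) (hP _))
  simp only [up, Matrix.kroneckerMap_apply, e]
  simp [Matrix.one_apply, Prod.ext_iff, ite_and]
  split_ifs <;> simp_all

theorem idOn_mul {P : J → Prop} {A B : Matrix (J × In p) (J × In p) ℂ} (hA : IdOn P A)
    (hB : IdOn P B) : IdOn P (A * B) := by
  intro x y hxy
  rw [Matrix.mul_apply]
  rcases hxy with hx | hy
  · rw [Finset.sum_eq_single x (fun z _ hz => by
      rw [hA x z (Or.inl hx), Matrix.one_apply_ne (Ne.symm hz), zero_mul])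
      (fun h => absurd (Finset.mem_univ _) h), hA x x (Or.inl hx), Matrix.one_apply_eq, one_mul,
      hB x y (Or.inl hx)]
  · rw [Finset.sum_eq_single y (fun z _ hz => by
      rw [hB z y (Or.inr hy), Matrix.one_apply_ne hz, mul_zero])
      (fun h => absurd (Finset.mem_univ _) h), hB y y (Or.inr hy), Matrix.one_apply_eq, mul_one,
      hA x y (Or.inr hy)]

theorem win_path {c d : ℝ} {G : Matrix J J ℂ}
    (hu : G ∈ unitary (Matrix J J ℂ)) (hw : WinU a c d G) :
    ∃ g : II → Matrix J J ℂ, Continuous g ∧ g 0 = 1 ∧ g 1 = G ∧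
      ∀ t, g t ∈ unitary (Matrix J J ℂ) ∧ WinU a c d (g t) := by
  classical
  obtain ⟨g, hgc, hg0, hg1, hgu, hgcom⟩ := exists_unitary_path hu
  have hsingle : ∀ i, ¬InW a c d i → Commute G (Matrix.single i i (1 : ℂ)) := fun i hi =>
    (single_commute_of_cut (a := a) (c := c) (δ := d) (Qg := G - 1 + cut a c)
      (fun i k hik => by simp [hw i k hik]) i hi).symm |> fun h => by
      have h1 : Commute (cut a c) (Matrix.single i i (1 : ℂ)) :=
        (single_commute_of_cut (a := a) (c := c) (δ := d) (fun _ _ _ => rfl) i hi).symm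
      have := (h.sub_left h1).add_left (Commute.one_left _)
      simpa using this
  have hcom : ∀ t i, ¬InW a c d i → Commute (Matrix.single i i (1 : ℂ)) (g t) := fun t i hi => by
    have h2 := (hsingle i hi).star_star
    rw [show star (Matrix.single i i (1 : ℂ)) = Matrix.single i i 1 by
      simp [Matrix.star_eq_conjTranspose]] at h2
    exact (hgcom _ (hsingle i hi) h2 t).symm
  refine ⟨fun t => trunc a c d (g t), ?_, ?_, ?_, fun t =>
    ⟨trunc_unitary (hgu t) (hcom t), fun i k hik => ?_⟩⟩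
  · refine continuous_matrix fun i k => ?_
    simp only [trunc, Matrix.of_apply]
    split_ifs
    · exact hgc.matrix_elem i k
    · exact continuous_const
  · ext i k; simp [trunc, hg0]
  · ext i k
    simp only [trunc, Matrix.of_apply, hg1]
    split_ifs with h
    · rfl
    · exact (hw i k (not_and_or.1 h)).symm
  · simp only [trunc, Matrix.of_apply]
    rw [if_neg (by tauto)]

theorem win_contract (hB : BandStmt) (hp : 0 < p) {c d : ℝ} (hd : 0 ≤ d) {G : II → Matrix J J ℂ}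
    (hc : Continuous G) (h0 : G 0 = 1) (h1 : G 1 = 1)
    (hG : ∀ t, G t ∈ unitary (Matrix J J ℂ) ∧ WinU a c d (G t))
    (hw : Wd (fun t => (G t).det) 0) :
    ∃ H : II × II → Matrix J J ℂ, Continuous H ∧ (∀ t, H (0, t) = G t) ∧ (∀ t, H (1, t) = 1) ∧
      (∀ h, H (h, 0) = 1 ∧ H (h, 1) = 1) ∧
      ∀ x, H x ∈ unitary (Matrix J J ℂ) ∧ WinU a c d (H x) := by
  classical
  let w : In p := (⟨0, hp⟩, 0)
  let P : J → Prop := InW a c d
  let Y : C(II, Matrix ({i // P i} × Unit) ({i // P i} × Unit) ℂ) :=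
    ⟨fun t => wres a c d (G t), continuous_matrix fun _ _ => hc.matrix_elem _ _⟩
  have hYu : ∀ t, Y t ∈ unitary (Matrix ({i // P i} × Unit) ({i // P i} × Unit) ℂ) := fun t => by
    have h := up_mem_unitary (p := p) (hG t).1
    rw [up_eq_part (hG t).2, Unitary.mem_iff, part_star, part_mul, part_mul, ← part_one P (fM p)] at h
    exact Unitary.mem_iff.2
      ⟨(res_part P (fM p) w _).symm.trans ((congrArg (res P (fM p) w) h.1).trans
        (res_part P (fM p) w 1)),
       (res_part P (fM p) w _).symm.trans ((congrArg (res P (fM p) w) h.2).trans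
        (res_part P (fM p) w 1))⟩
  have hY1 : ∀ t, G t = 1 → Y t = 1 := fun t ht => by
    ext ⟨i, u⟩ ⟨k, v⟩
    simp [Y, wres, ht, Matrix.one_apply, Subtype.ext_iff]
  obtain ⟨n, hn⟩ := exists_wd_det Y.continuous hYu (hY1 0 h0) (hY1 1 h1)
  have hn0 : n = 0 := by
    have e := (hn.pow (Fintype.card (In p))).unique (hw.pow (Fintype.card (In p))) fun t => by
      rw [← det_up (p := p) (G t), up_eq_part (hG t).2, det_part]
      rfl
    rw [mul_zero, mul_eq_zero] at e
    refine e.resolve_left ?_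
    simp only [Fintype.card_prod, Fintype.card_fin]
    exact_mod_cast (Nat.mul_pos hp (Nat.succ_pos p)).ne'
  subst hn0
  obtain ⟨θ, hθ, hθ01, hdet⟩ := hn
  have hnear : ∀ x y : {i // P i} × Unit, |a x.1 - a y.1| ≤ 2 * d := fun x y => by
    obtain ⟨h1', h2'⟩ := x.1.2
    obtain ⟨h3', h4'⟩ := y.1.2
    rw [abs_le]; constructor <;> linarith
  obtain ⟨H, hH0, hH1, hHe, hHu⟩ :=
    (hB ({i // P i} × Unit) (fun x => a x.1) (2 * d) (by linarith)).2
      (fun x y hxy => ⟨y, hxy, by linarith [(abs_le.1 (hnear y x)).2]⟩) Y (hY1 0 h0) (hY1 1 h1)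
      (fun t => ⟨hYu t, fun x y hxy => absurd (hnear x y) (not_le.2 hxy)⟩)
      ⟨θ, hθ, by simp at hθ01; linarith, hdet⟩
  refine ⟨fun x => wmat P (H x), ?_, fun t => ?_, fun t => ?_, fun h => ?_, fun x => ⟨?_, winU_wmat _⟩⟩
  · refine continuous_matrix fun i k => ?_
    by_cases h : P i ∧ P k
    · simpa [wmat, h] using H.continuous.matrix_elem (⟨i, h.1⟩, ()) (⟨k, h.2⟩, ())
    · simpa [wmat, h] using continuous_const
  · show wmat P (H (0, t)) = G t
    rw [hH0]
    apply up_injective (p := p) hp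
    rw [← part_fM_eq_up, up_eq_part (hG t).2]
    rfl
  · show wmat P (H (1, t)) = 1
    rw [hH1]
    ext i k
    by_cases h : P i ∧ P k <;> simp [wmat, Matrix.one_apply]
  · have hw1 : wmat P (1 : Matrix ({i // P i} × Unit) ({i // P i} × Unit) ℂ) = 1 := by
      ext i k
      by_cases h : P i ∧ P k <;> simp [wmat, Matrix.one_apply]
    exact ⟨by show wmat P (H (h, 0)) = 1; rw [(hHe h).1, hw1],
      by show wmat P (H (h, 1)) = 1; rw [(hHe h).2, hw1]⟩
  · have h := part_mem_unitary P (fM p) (hHu x).1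
    rw [part_fM_eq_up, Unitary.mem_iff, up_star, up_mul_up, up_mul_up, ← up_one] at h
    exact Unitary.mem_iff.2 ⟨up_injective hp h.1, up_injective hp h.2⟩

/-- A phase at one label. -/
def phaseAt (i : J) (n : ℤ) (t : II) : J → ℂ :=
  Function.update (fun _ => 1) i (Complex.exp ((2 * Real.pi * n * (t : ℝ) : ℝ) * Complex.I))

theorem phaseAt_spec {c d : ℝ} {i : J} (hi : InW a c d i) (n : ℤ) :
    Continuous (fun t => Matrix.diagonal (phaseAt i n t)) ∧
      Matrix.diagonal (phaseAt i n 0) = 1 ∧ Matrix.diagonal (phaseAt i n 1) = 1 ∧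
      (∀ t, Matrix.diagonal (phaseAt i n t) ∈ unitary (Matrix J J ℂ) ∧
        WinU a c d (Matrix.diagonal (phaseAt i n t)) ∧
        Commute (Matrix.diagonal (phaseAt i n t)) (cut a c)) ∧
      Wd (fun t => (Matrix.diagonal (phaseAt i n t)).det) n := by
  have hone : phaseAt i n 0 = fun _ => 1 := by
    funext k; simp [phaseAt, Function.update_apply]
  have hone' : phaseAt i n 1 = fun _ => 1 := by
    funext k
    simp only [phaseAt, Function.update_apply, Set.Icc.coe_one, mul_one]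
    split_ifs
    · rw [Complex.exp_eq_one_iff]
      exact ⟨n, by push_cast; ring⟩
    · rfl
  refine ⟨?_, by rw [hone, Matrix.diagonal_one], by rw [hone', Matrix.diagonal_one],
    fun t => ⟨?_, fun j k hjk => ?_, ?_⟩, ?_⟩
  · refine (continuous_pi fun k => ?_).matrix_diagonal
    simp only [phaseAt, Function.update_apply]
    split_ifs <;> fun_prop
  · have e : ∀ k, star (phaseAt i n t k) * phaseAt i n t k = 1 := fun k => by
      rw [Complex.star_def, ← Complex.normSq_eq_conj_mul_self, Complex.normSq_eq_norm_sq]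
      simp only [phaseAt, Function.update_apply]
      split_ifs
      · rw [Complex.norm_exp_ofReal_mul_I]; simp
      · simp
    have h1 : star (Matrix.diagonal (phaseAt i n t)) * Matrix.diagonal (phaseAt i n t) = 1 := by
      rw [Matrix.star_eq_conjTranspose, Matrix.diagonal_conjTranspose, Matrix.diagonal_mul_diagonal,
        ← Matrix.diagonal_one]
      exact congrArg _ (funext e)
    exact Unitary.mem_iff.2 ⟨h1, mul_eq_one_comm.1 h1⟩
  · by_cases hjk' : j = k
    · subst hjk'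
      have : j ≠ i := fun e => by
        rcases hjk with h | h <;> exact h (e ▸ hi)
      simp [phaseAt, this]
    · simp [hjk']
  · show _ * _ = _ * _
    simp only [cut, Matrix.diagonal_mul_diagonal, mul_comm]
  · refine ⟨fun t => 2 * Real.pi * n * (t : ℝ), by fun_prop, by simp, fun t => ?_⟩
    simp [Matrix.det_diagonal, phaseAt, Finset.prod_update_of_mem]

/-! ### One cut -/

variable {η₀ δ₀ c : ℝ}

theorem commute_of_cutG (hp : 0 < p) (hδ₀ : 0 ≤ δ₀) (hc : η₀ ≤ c - 2 * δ₀)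
    (hc' : c + 2 * δ₀ ≤ 1 - η₀) {X : Matrix (J × In p) (J × In p) ℂ}
    (hX : X ∈ unitary (Matrix (J × In p) (J × In p) ℂ)) (h : IBand a a η₀ δ₀ X)
    {G : Matrix J J ℂ} (hG : G ∈ unitary (Matrix J J ℂ))
    (hconj : G * cutG p hp a c X * star G = cut a c) :
    Commute (up p (cut a c)) (up p G * X) := by
  have e := congrArg (up p) hconj
  rw [← up_mul_up, ← up_mul_up, (cut_spec hp hδ₀ hc hc' hX h).1, ← up_star] at e
  show up p (cut a c) * (up p G * X) = up p G * X * up p (cut a c)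
  nth_rewrite 1 [← e]
  simp only [mul_assoc]
  rw [← mul_assoc (star (up p G)) (up p G), Unitary.star_mul_self_of_mem (up_mem_unitary hG),
    one_mul, Unitary.star_mul_self_of_mem hX, mul_one]

theorem up_win_mul (hδ₀ : 0 ≤ δ₀) {G : Matrix J J ℂ} (hw : WinU a c δ₀ G)
    {X : Matrix (J × In p) (J × In p) ℂ} (h : IBand a a η₀ δ₀ X) :
    IBand a a (η₀ + 2 * δ₀) (3 * δ₀) (up p G * X) :=
  (up_mul (by linarith) (hw.band hδ₀) h).mono le_rfl (by linarith)

theorem cut_path (hp : 0 < p) (hδ₀ : 0 ≤ δ₀) (hc : η₀ ≤ c - 2 * δ₀)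
    (hc' : c + 2 * δ₀ ≤ 1 - η₀) (hη : η₀ + 2 * δ₀ ≤ 10 * η) (hδ : 3 * δ₀ ≤ 100 * δ)
    {X : Matrix (J × In p) (J × In p) ℂ} (hX : X ∈ unitary (Matrix (J × In p) (J × In p) ℂ))
    (h : IBand a a η₀ δ₀ X) :
    ∃ G ∈ unitary (Matrix J J ℂ), WinU a c δ₀ G ∧ Commute (up p (cut a c)) (up p G * X) ∧
      JoinedIn (Tg p a η δ) X (up p G * X) := by
  obtain ⟨G, hG, hw, hconj⟩ := exists_cut hp hδ₀ hc hc' hX h
  obtain ⟨g, hgc, hg0, hg1, hgu⟩ := win_path hG hw
  refine ⟨G, hG, hw, commute_of_cutG hp hδ₀ hc hc' hX h hG hconj,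
    ⟨⟨⟨fun t => up p (g t) * X, ?_⟩, ?_, ?_⟩, fun t => ⟨mul_mem (up_mem_unitary (hgu t).1) hX,
      (up_win_mul hδ₀ (hgu t).2 h).mono hη hδ⟩⟩⟩
  · exact (continuous_up hgc).mul
      continuous_const
  · show up p (g 0) * X = X
    rw [hg0, up_one, one_mul]
  · show up p (g 1) * X = up p G * X
    rw [hg1]

variable {κ μ : Type} [Fintype κ] [DecidableEq κ] [Fintype μ] [DecidableEq μ]
  {P : J → Prop} [DecidablePred P] {f : In p ≃ κ × μ} {m₀ : μ}

theorem part_path (hB : BandStmt) (hδ₀ : 0 ≤ δ₀) (h8 : 8 * δ₀ ≤ 100 * δ) (hη : η₀ ≤ 10 * η)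
    (hpart : ∀ Y, Band (fun x : {i // P i} × κ => a x.1) (fun x => a x.1) (100 * δ) Y →
      IBand a a (10 * η) (100 * δ) (part P f Y))
    {Z : Matrix (J × In p) (J × In p) ℂ} (hZ : Z ∈ unitary (Matrix (J × In p) (J × In p) ℂ))
    (h : IBand a a η₀ δ₀ Z) (ha : Across P Z) (hs : Scal P f m₀ Z) :
    rest P Z ∈ unitary (Matrix (J × In p) (J × In p) ℂ) ∧
      JoinedIn (Tg p a η δ) Z (rest P Z) := by
  obtain ⟨hY, hR, he⟩ := split P f hZ ha hs
  obtain ⟨γ, hγ0, hγ1, hγ⟩ :=
    (hB ({i // P i} × κ) (fun x => a x.1) δ₀ hδ₀).1 _ hY (band_res P f m₀ h)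
  have hRb := (iband_rest hδ₀ P h).mono hη (show δ₀ ≤ 100 * δ by linarith)
  refine ⟨hR, JoinedIn.symm ⟨⟨⟨fun t => part P f (γ t) * rest P Z,
    (continuous_part P f γ.continuous).mul continuous_const⟩, ?_, ?_⟩, fun t =>
    ⟨mul_mem (part_mem_unitary P f (hγ t).1) hR, iband_part_mul P f (idOn_rest P Z)
      (hpart _ fun x y hxy => (hγ t).2 x y (by linarith)) hRb⟩⟩⟩
  · show part P f (γ 0) * _ = _
    rw [hγ0, part_one, one_mul]
  · show part P f (γ 1) * _ = _
    rw [hγ1, he]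

/-- One cut of a loop, removing the part on `P`. -/
theorem loop_step (hB : BandStmt) (hp : 0 < p) (hδ₀ : 0 < δ₀) (hc : η₀ ≤ c - 2 * δ₀)
    (hc' : c + 2 * δ₀ ≤ 1 - η₀) (hη : η₀ + 2 * δ₀ ≤ 10 * η) (hδ : 24 * δ₀ ≤ 100 * δ)
    (hch : Chain (fun x : {i // P i} × κ => a x.1) (3 * δ₀))
    (hpart : ∀ Y, Band (fun x : {i // P i} × κ => a x.1) (fun x => a x.1) (100 * δ) Y →
      IBand a a (10 * η) (100 * δ) (part P f Y))
    {i₀ j₀ : J} (hi₀ : InW a c δ₀ i₀) (hj₀ : InW a c δ₀ j₀) (hPi : P i₀) (hPj : ¬P j₀)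
    (γ : C(II, Matrix (J × In p) (J × In p) ℂ)) (h0 : γ 0 = 1) (h1 : γ 1 = 1)
    (hγ : ∀ t, γ t ∈ unitary (Matrix (J × In p) (J × In p) ℂ) ∧ IBand a a η₀ δ₀ (γ t))
    (hw : Wd (fun t => (γ t).det) 0)
    (hsplit : ∀ t G, G ∈ unitary (Matrix J J ℂ) → WinU a c δ₀ G →
      Commute (up p (cut a c)) (up p G * γ t) →
      Across P (up p G * γ t) ∧ Scal P f m₀ (up p G * γ t))
    (hdiv : ∀ G : II → Matrix J J ℂ, Continuous G → G 0 = 1 → G 1 = 1 →
      (∀ t, G t ∈ unitary (Matrix J J ℂ) ∧ WinU a c δ₀ (G t) ∧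
        Commute (up p (cut a c)) (up p (G t) * γ t)) →
      Wd (fun t => (up p (G t) * γ t).det) 0 →
      ∃ r : ℤ, Wd (fun t => (res P f m₀ (up p (G t) * γ t)).det) (Fintype.card κ * r)) :
    ∃ γ' : C(II, Matrix (J × In p) (J × In p) ℂ), γ' 0 = 1 ∧ γ' 1 = 1 ∧
      (∀ t, γ' t ∈ unitary (Matrix (J × In p) (J × In p) ℂ) ∧
        IBand a a (η₀ + 2 * δ₀) (3 * δ₀) (γ' t)) ∧
      Wd (fun t => (γ' t).det) 0 ∧
      (∀ t, ∃ G ∈ unitary (Matrix J J ℂ), WinU a c δ₀ G ∧
        Commute (up p (cut a c)) (up p G * γ t) ∧ γ' t = rest P (up p G * γ t)) ∧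
      JoinedIn (TgL p a η δ) γ γ' := by
  obtain ⟨G₀, hG₀c, hG₀0, hG₀1, hG₀⟩ := exists_cut_loop hp hδ₀.le hc hc' γ.continuous h0 h1
    (fun t => (hγ t).1) fun t => (hγ t).2
  -- phases commuting with the cut
  have hmul : ∀ (d : II → J → ℂ) (G : II → Matrix J J ℂ),
      (∀ t, Matrix.diagonal (d t) ∈ unitary (Matrix J J ℂ) ∧
        WinU a c δ₀ (Matrix.diagonal (d t)) ∧ Commute (Matrix.diagonal (d t)) (cut a c)) →
      (∀ t, G t ∈ unitary (Matrix J J ℂ) ∧ WinU a c δ₀ (G t) ∧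
        Commute (up p (cut a c)) (up p (G t) * γ t)) →
      ∀ t, Matrix.diagonal (d t) * G t ∈ unitary (Matrix J J ℂ) ∧
        WinU a c δ₀ (Matrix.diagonal (d t) * G t) ∧
        Commute (up p (cut a c)) (up p (Matrix.diagonal (d t) * G t) * γ t) := by
    intro d G hd hG t
    refine ⟨mul_mem (hd t).1 (hG t).1, fun i k hik => ?_, ?_⟩
    · rw [Matrix.diagonal_mul]
      by_cases hik' : i = k
      · subst hik'
        have e1 := (hd t).2.1 i i hik
        have e2 := (hG t).2.1 i i hik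
        simp only [Matrix.diagonal_apply_eq, Matrix.one_apply_eq] at e1
        rw [e1, e2, one_mul]
      · rw [(hG t).2.1 i k hik, Matrix.one_apply_ne hik', mul_zero]
    · rw [← up_mul_up, mul_assoc]
      refine Commute.mul_right ?_ (hG t).2.2
      show up p (cut a c) * up p _ = up p _ * up p (cut a c)
      rw [up_mul_up, up_mul_up, (hd t).2.2.eq]
  obtain ⟨g, hg⟩ := exists_wd_det hG₀c (fun t => (hG₀ t).1) hG₀0 hG₀1
  obtain ⟨hac, ha0, ha1, ha, hadet⟩ := phaseAt_spec hj₀ (-g)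
  set G₁ : II → Matrix J J ℂ := fun t => Matrix.diagonal (phaseAt j₀ (-g) t) * G₀ t
  have hG₁ := hmul (phaseAt j₀ (-g)) G₀ ha fun t => ⟨(hG₀ t).1, (hG₀ t).2.1,
    commute_of_cutG hp hδ₀.le hc hc' (hγ t).1 (hγ t).2 (hG₀ t).1 (hG₀ t).2.2⟩
  have hG₁c : Continuous G₁ := hac.mul hG₀c
  have hG₁0 : G₁ 0 = 1 := by simp only [G₁, ha0, hG₀0, one_mul]
  have hG₁1 : G₁ 1 = 1 := by simp only [G₁, ha1, hG₀1, one_mul]
  have hw₁ : Wd (fun t => (G₁ t).det) 0 := by
    have := hadet.mul hg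
    rw [neg_add_cancel] at this
    simpa only [G₁, Matrix.det_mul] using this
  obtain ⟨r, hr⟩ := hdiv G₁ hG₁c hG₁0 hG₁1 hG₁ (by
    have := (hw₁.pow (Fintype.card (In p))).mul hw
    rw [mul_zero, add_zero] at this
    simpa only [Matrix.det_mul, det_up] using this)
  -- move the winding of the part across the cut
  obtain ⟨hic, hi0, hi1, hi, hidet⟩ := phaseAt_spec hi₀ (-r)
  obtain ⟨hjc, hj0, hj1, hj, hjdet⟩ := phaseAt_spec hj₀ r
  set dd : II → J → ℂ := fun t k => phaseAt i₀ (-r) t k * phaseAt j₀ r t k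
  have hdd : ∀ t, Matrix.diagonal (dd t) =
      Matrix.diagonal (phaseAt i₀ (-r) t) * Matrix.diagonal (phaseAt j₀ r t) := fun t =>
    (Matrix.diagonal_mul_diagonal _ _).symm
  set G : II → Matrix J J ℂ := fun t => Matrix.diagonal (dd t) * G₁ t
  have hG := hmul dd G₁ (fun t => by
    refine ⟨hdd t ▸ mul_mem (hi t).1 (hj t).1, fun i k hik => ?_, hdd t ▸ (hi t).2.2.mul_left (hj t).2.2⟩
    rw [hdd, Matrix.diagonal_mul]
    by_cases hik' : i = k
    · subst hik'
      have e1 := (hi t).2.1 i i hik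
      have e2 := (hj t).2.1 i i hik
      rw [Matrix.diagonal_apply_eq, Matrix.one_apply_eq] at e1
      rw [e1, e2, one_mul]
    · rw [(hj t).2.1 i k hik, Matrix.one_apply_ne hik', mul_zero]) hG₁
  have hGc : Continuous G := by
    simp only [G, hdd]
    exact (hic.mul hjc).mul hG₁c
  have hG0 : G 0 = 1 := by simp only [G, hdd, hi0, hj0, hG₁0, one_mul]
  have hG1 : G 1 = 1 := by simp only [G, hdd, hi1, hj1, hG₁1, one_mul]
  have hwG : Wd (fun t => (G t).det) 0 := by
    have := (hidet.mul hjdet).mul hw₁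
    rw [neg_add_cancel, zero_add] at this
    simpa only [G, hdd, Matrix.det_mul] using this
  have hupc : Continuous fun t => up p (G t) := continuous_up hGc
  let Z : C(II, Matrix (J × In p) (J × In p) ℂ) :=
    ⟨fun t => up p (G t) * γ t, hupc.mul γ.continuous⟩
  have hZ : ∀ t, Z t ∈ unitary (Matrix (J × In p) (J × In p) ℂ) ∧
      IBand a a (η₀ + 2 * δ₀) (3 * δ₀) (Z t) ∧ Across P (Z t) ∧ Scal P f m₀ (Z t) := fun t =>
    ⟨mul_mem (up_mem_unitary (hG t).1) (hγ t).1, up_win_mul hδ₀.le (hG t).2.1 (hγ t).2,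
      hsplit t _ (hG t).1 (hG t).2.1 (hG t).2.2⟩
  have hsp := fun t => split P f (hZ t).1 (hZ t).2.2.1 (hZ t).2.2.2
  have hZ0 : Z 0 = 1 := by simp [Z, hG0, h0]
  have hZ1 : Z 1 = 1 := by simp [Z, hG1, h1]
  let Y : C(II, Matrix ({i // P i} × κ) ({i // P i} × κ) ℂ) :=
    ⟨fun t => res P f m₀ (Z t), continuous_res P f m₀ Z.continuous⟩
  have hY0 : Y 0 = 1 := by show res P f m₀ (Z 0) = 1; rw [hZ0, res_one]
  have hY1 : Y 1 = 1 := by show res P f m₀ (Z 1) = 1; rw [hZ1, res_one]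
  have hwY : Wd (fun t => (Y t).det) 0 := by
    have hsing : ∀ t, ∏ x : {i // P i} × κ, dd t x.1 =
        (Matrix.diagonal (phaseAt i₀ (-r) t)).det ^ Fintype.card κ := fun t => by
      rw [Fintype.prod_prod_type]
      simp only [Finset.prod_const, Finset.card_univ, Finset.prod_pow]
      congr 1
      rw [Finset.prod_eq_single (⟨i₀, hPi⟩ : {i // P i}), Matrix.det_diagonal]
      · have : i₀ ≠ j₀ := fun e => hPj (e ▸ hPi)
        simp [dd, phaseAt, Finset.prod_update_of_mem, this]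
      · intro k _ hk
        have e1 : (k : J) ≠ i₀ := fun e => hk (Subtype.ext e)
        have e2 : (k : J) ≠ j₀ := fun e => hPj (e ▸ k.2)
        simp [dd, phaseAt, e1, e2]
      · exact fun h => absurd (Finset.mem_univ _) h
    have hdet : ∀ t, (Y t).det = (Matrix.diagonal (phaseAt i₀ (-r) t)).det ^ Fintype.card κ *
        (res P f m₀ (up p (G₁ t) * γ t)).det := fun t => by
      show (res P f m₀ (up p (Matrix.diagonal (dd t) * G₁ t) * γ t)).det = _
      rw [← up_mul_up, mul_assoc, res_diag, Matrix.det_mul, Matrix.det_diagonal, hsing]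
    have := (hidet.pow (Fintype.card κ)).mul hr
    rw [mul_neg, neg_add_cancel] at this
    simpa only [hdet] using this
  let γ' : C(II, Matrix (J × In p) (J × In p) ℂ) :=
    ⟨fun t => rest P (Z t), continuous_rest P Z.continuous⟩
  have hg'0 : γ' 0 = 1 := by show rest P (Z 0) = 1; rw [hZ0, rest_one]
  have hg'1 : γ' 1 = 1 := by show rest P (Z 1) = 1; rw [hZ1, rest_one]
  have hwZ : Wd (fun t => (Z t).det) 0 := by
    have := (hwG.pow (Fintype.card (In p))).mul hw
    rw [mul_zero, add_zero] at this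
    simpa only [Z, ContinuousMap.coe_mk, Matrix.det_mul, det_up] using this
  obtain ⟨n', hn'⟩ := exists_wd_det γ'.continuous (fun t => (hsp t).2.1) hg'0 hg'1
  have hn0 : n' = 0 := by
    have := ((hwY.pow (Fintype.card μ)).mul hn').unique hwZ fun t => by
      conv_rhs => rw [← (hsp t).2.2]
      rw [Matrix.det_mul, det_part]
      rfl
    simpa using this
  subst hn0
  refine ⟨γ', hg'0, hg'1, fun t => ⟨(hsp t).2.1, iband_rest (by linarith) P (hZ t).2.1⟩, hn',
    fun t => ⟨G t, (hG t).1, (hG t).2.1, (hG t).2.2, rfl⟩, ?_⟩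
  obtain ⟨H, hHc, hH0, hH1, hHe, hH⟩ :=
    win_contract hB hp hδ₀.le hGc hG0 hG1 (fun t => ⟨(hG t).1, (hG t).2.1⟩) hwG
  have j1 : JoinedIn (TgL p a η δ) γ Z := by
    refine JoinedIn.symm (loop_joined (F := fun x => up p (H x) * γ x.2)
      ((continuous_up hHc).mul
        (γ.continuous.comp continuous_snd))
      (fun t => by simp [Z, hH0]) (fun t => by simp [hH1])
      (fun h => ⟨by simp [(hHe h).1, h0], by simp [(hHe h).2, h1]⟩) fun x =>
        ⟨mul_mem (up_mem_unitary (hH x).1) (hγ x.2).1,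
          (up_win_mul hδ₀.le (hH x).2 (hγ x.2).2).mono hη (by linarith)⟩)
  obtain ⟨θ, hθ, hθ01, hdet⟩ := hwY
  obtain ⟨K, hK0, hK1, hKe, hK⟩ := (hB ({i // P i} × κ) (fun x => a x.1) (3 * δ₀) (by linarith)).2
    hch Y hY0 hY1 (fun t => ⟨(hsp t).1, band_res P f m₀ (hZ t).2.1⟩)
    ⟨θ, hθ, by simp at hθ01; linarith, hdet⟩
  refine j1.trans (loop_joined (F := fun x => part P f (K x) * γ' x.2)
    ((continuous_part P f K.continuous).mul (γ'.continuous.comp continuous_snd))
    (fun t => ?_) (fun t => ?_) (fun h => ?_) fun x => ?_)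
  · show part P f (K (0, t)) * rest P (Z t) = Z t
    rw [hK0]
    exact (hsp t).2.2
  · show part P f (K (1, t)) * γ' t = γ' t
    rw [hK1, part_one, one_mul]
  · simp [(hKe h).1, (hKe h).2, hg'0, hg'1, part_one]
  · exact ⟨mul_mem (part_mem_unitary P f (hK x).1) (hsp x.2).2.1,
      iband_part_mul P f (idOn_rest P _)
        (hpart _ fun u v huv => (hK x).2 u v (by linarith))
        ((iband_rest (by linarith) P (hZ x.2).2.1).mono hη (by linarith))⟩

/-- Contraction of a last part. -/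
theorem last_contract (hB : BandStmt) (hμ : 0 < Fintype.card μ) (hδ₀ : 0 ≤ δ₀)
    (h8 : 8 * δ₀ ≤ 100 * δ) (hch : Chain (fun x : {i // P i} × κ => a x.1) δ₀)
    (hpart : ∀ Y, Band (fun x : {i // P i} × κ => a x.1) (fun x => a x.1) (100 * δ) Y →
      IBand a a (10 * η) (100 * δ) (part P f Y))
    (γ : C(II, Matrix (J × In p) (J × In p) ℂ)) (h0 : γ 0 = 1) (h1 : γ 1 = 1)
    (hγ : ∀ t, γ t ∈ unitary (Matrix (J × In p) (J × In p) ℂ) ∧ IBand a a η₀ δ₀ (γ t))
    (hw : Wd (fun t => (γ t).det) 0)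
    (hone : ∀ t, Across P (γ t) ∧ Scal P f m₀ (γ t) ∧ rest P (γ t) = 1) :
    JoinedIn (TgL p a η δ) γ 1 := by
  have hsp := fun t => split P f (hγ t).1 (hone t).1 (hone t).2.1
  have he : ∀ t, part P f (res P f m₀ (γ t)) = γ t := fun t => by
    have := (hsp t).2.2
    rwa [(hone t).2.2, mul_one] at this
  let Y : C(II, Matrix ({i // P i} × κ) ({i // P i} × κ) ℂ) :=
    ⟨fun t => res P f m₀ (γ t), continuous_res P f m₀ γ.continuous⟩
  have hY0 : Y 0 = 1 := by show res P f m₀ (γ 0) = 1; rw [h0, res_one]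
  have hY1 : Y 1 = 1 := by show res P f m₀ (γ 1) = 1; rw [h1, res_one]
  obtain ⟨n, hn⟩ := exists_wd_det Y.continuous (fun t => (hsp t).1) hY0 hY1
  have hn0 : n = 0 := by
    have := (hn.pow (Fintype.card μ)).unique hw fun t => by
      conv_rhs => rw [← he t, det_part]
      rfl
    exact (mul_eq_zero.1 this).resolve_left (by exact_mod_cast hμ.ne')
  subst hn0
  obtain ⟨θ, hθ, hθ01, hdet⟩ := hn
  obtain ⟨K, hK0, hK1, hKe, hK⟩ := (hB ({i // P i} × κ) (fun x => a x.1) δ₀ hδ₀).2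
    hch Y hY0 hY1 (fun t => ⟨(hsp t).1, band_res P f m₀ (hγ t).2⟩)
    ⟨θ, hθ, by simp at hθ01; linarith, hdet⟩
  refine loop_joined (F := fun x => part P f (K x)) (continuous_part P f K.continuous)
    (fun t => ?_) (fun t => ?_) (fun h => ?_) fun x => ?_
  · show part P f (K (0, t)) = γ t
    rw [hK0]
    exact he t
  · show part P f (K (1, t)) = 1
    rw [hK1, part_one]
  · simp [(hKe h).1, (hKe h).2, part_one]
  · exact ⟨part_mem_unitary P f (hK x).1, hpart _ fun u v huv => (hK x).2 u v (by linarith)⟩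

end

end Vale.P101.ZS.IC

namespace Vale.P101.ZS

open IC

/-- The module `IntConn`. -/
theorem intConn (hB : BandStmt) : IntConnStmt := by
  classical
  intro p J _ _ a η δ hp hδ hδη h100 hsp
  let L : J → Prop := fun i => a i ≤ 9 * η
  let U : J → Prop := fun i => 9 * η < a i
  let C : J → Prop := fun i => a i ≤ 1 - 9 * η
  let M : J → Prop := fun i => 9 * η < a i ∧ a i ≤ 1 - 9 * η
  let H : J → Prop := fun i => 1 - 9 * η < a i
  let u₀ : Fin p := ⟨0, hp⟩
  have hpL : ∀ Y, Band (fun x : {i // L i} × Fin (p + 1) => a x.1) (fun x => a x.1) (100 * δ) Y →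
      IBand a a (10 * η) (100 * δ) (part L (fL p) Y) := fun Y hY =>
    iband_part_fL L (by linarith) (fun i (hi : a i ≤ 9 * η) => by linarith) hY
  have hpM : ∀ Y, Band (fun x : {i // M i} × Unit => a x.1) (fun x => a x.1) (100 * δ) Y →
      IBand a a (10 * η) (100 * δ) (part M (fM p) Y) := fun Y hY =>
    iband_part_fM M (by linarith) hY
  have hpH : ∀ Y, Band (fun x : {i // H i} × Fin p => a x.1) (fun x => a x.1) (100 * δ) Y →
      IBand a a (10 * η) (100 * δ) (part H (fU p) Y) := fun Y hY =>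
    iband_part_fU H (by linarith) (fun i (hi : 1 - 9 * η < a i) => by linarith) hY
  have hwin : ∀ i, L i → ¬InW a (1 - 9 * η) (3 * δ) i := fun i (hi : a i ≤ 9 * η) h => by
    linarith [h.1]
  -- the structure after the second cut
  have hmid : ∀ (R G : _) (_ : G ∈ unitary (Matrix J J ℂ)),
      IdOn L R → IBand a a (3 * η) (3 * δ) R → WinU a (1 - 9 * η) (3 * δ) G →
      Commute (up p (cut a (1 - 9 * η))) (up p G * R) →
      Across M (up p G * R) ∧ Scal M (fM p) (u₀, 0) (up p G * R) := by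
    intro R G _ hR hRb hG hcom
    have hId := idOn_mul (idOn_up (p := p) hG L hwin) hR
    refine ⟨fun x y hxy => ?_, scal_fM M ((up_win_mul (by linarith) hG hRb).mono
      (show 3 * η + 2 * (3 * δ) ≤ 9 * η by linarith) le_rfl) (fun i hi => ⟨hi.1.le, hi.2⟩) _⟩
    by_cases hL : L x.1 ∨ L y.1
    · rw [hId x y hL]
      exact Matrix.one_apply_ne fun e => hxy (by rw [e])
    · simp only [L, not_or, not_le] at hL
      refine across_cut hcom x y fun e => hxy ?_
      exact ⟨fun h => ⟨hL.2, e.1 h.2⟩, fun h => ⟨hL.1, e.2 h.2⟩⟩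
  -- the structure after removing the middle part
  have hhigh : ∀ (R G : _), IdOn L R → IBand a a (3 * η) (3 * δ) R →
      WinU a (1 - 9 * η) (3 * δ) G →
      Across H (rest M (up p G * R)) ∧ Scal H (fU p) 0 (rest M (up p G * R)) ∧
        rest H (rest M (up p G * R)) = 1 := by
    intro R G hR hRb hG
    have hId : IdOn C (rest M (up p G * R)) := by
      intro x y hxy
      by_cases hM : M x.1 ∨ M y.1
      · exact if_pos hM
      · rw [rest, Matrix.of_apply, if_neg hM]
        refine idOn_mul (idOn_up (p := p) hG L hwin) hR x y ?_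
        simp only [M, not_or, not_and] at hM
        rcases hxy with h | h
        · exact Or.inl (not_lt.1 fun h' => hM.1 h' h)
        · exact Or.inr (not_lt.1 fun h' => hM.2 h' h)
    refine ⟨fun x y hxy => ?_, scal_fU H (iband_rest (by linarith) M
      (up_win_mul (by linarith) hG hRb)) (fun i (hi : 1 - 9 * η < a i) => by linarith) _,
      rest_eq_one C hId fun i => ?_⟩
    · rw [hId x y (by
        simp only [H] at hxy
        by_contra hh
        simp only [C, not_or, not_le] at hh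
        exact hxy ⟨fun _ => hh.2, fun _ => hh.1⟩)]
      exact Matrix.one_apply_ne fun e => hxy (by rw [e])
    · exact (le_or_gt (a i) (1 - 9 * η))
  refine ⟨fun X hX hXb => ?_, fun γ h0 h1 hγ hw => ?_⟩
  · obtain ⟨G₁, hG₁, hw₁, hc₁, j₁⟩ := cut_path (η := η) (δ := δ) (c := 9 * η) hp hδ.le
      (by linarith) (by linarith) (by linarith) (by linarith) hX hXb
    have hY := mul_mem (up_mem_unitary (p := p) hG₁) hX
    have hYb : IBand a a (3 * η) (3 * δ) (up p G₁ * X) :=
      (up_win_mul hδ.le hw₁ hXb).mono (by linarith) le_rfl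
    obtain ⟨hR, j₂⟩ := part_path (η := η) (δ := δ) hB (by linarith) (by linarith) (by linarith)
      hpL hY hYb (across_cut hc₁) (scal_fL L hYb (fun i (hi : a i ≤ 9 * η) => by linarith) u₀)
    have hRb := iband_rest (by linarith) L hYb
    obtain ⟨G₂, hG₂, hw₂, hc₂, j₃⟩ := cut_path (η := η) (δ := δ) (c := 1 - 9 * η) hp
      (by linarith) (by linarith) (by linarith) (by linarith) (by linarith) hR hRb
    have hZb := up_win_mul (show (0 : ℝ) ≤ 3 * δ by linarith) hw₂ hRb
    obtain ⟨haM, hsM⟩ := hmid _ G₂ hG₂ (idOn_rest L _) hRb hw₂ hc₂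
    obtain ⟨hR₃, j₄⟩ := part_path (η := η) (δ := δ) hB (by linarith) (by linarith) (by linarith)
      hpM (mul_mem (up_mem_unitary (p := p) hG₂) hR) hZb haM hsM
    obtain ⟨haH, hsH, hoH⟩ := hhigh _ G₂ (idOn_rest L _) hRb hw₂
    obtain ⟨-, j₅⟩ := part_path (η := η) (δ := δ) hB (by linarith) (by linarith) (by linarith)
      hpH hR₃ (iband_rest (by linarith) M hZb) haH hsH
    rw [hoH] at j₅
    obtain ⟨q, hq⟩ := ((((j₁.trans j₂).trans j₃).trans j₄).trans j₅).symm
    exact ⟨⟨fun t => q t, q.continuous⟩, q.source, q.target, fun t => hq t⟩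
  · obtain ⟨θ, hθ, hθ01, hdet⟩ := hw
    have hw : Wd (fun t => (γ t).det) 0 := ⟨θ, hθ, by simp [hθ01], hdet⟩
    obtain ⟨i₁, j₁, hi₁, hj₁, hj₁'⟩ := exists_straddle hsp (c := 9 * η) (by linarith) (by linarith)
    obtain ⟨i₂, j₂, hi₂, hj₂, hj₂'⟩ :=
      exists_straddle hsp (c := 1 - 9 * η) (by linarith) (by linarith)
    -- the winding of the lower part is a multiple of `p + 1`
    have hdiv : ∀ G : II → Matrix J J ℂ, Continuous G → G 0 = 1 → G 1 = 1 →
        (∀ t, G t ∈ unitary (Matrix J J ℂ) ∧ WinU a (9 * η) δ (G t) ∧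
          Commute (up p (cut a (9 * η))) (up p (G t) * γ t)) →
        Wd (fun t => (up p (G t) * γ t).det) 0 →
        ∃ r : ℤ, Wd (fun t => (res L (fL p) u₀ (up p (G t) * γ t)).det)
          (Fintype.card (Fin (p + 1)) * r) := by
      intro G hGc hG0 hG1 hG hwZ
      have hZ : ∀ t, up p (G t) * γ t ∈ unitary (Matrix (J × In p) (J × In p) ℂ) := fun t =>
        mul_mem (up_mem_unitary (hG t).1) (hγ t).1
      have hZb : ∀ t, IBand a a (3 * η) (3 * δ) (up p (G t) * γ t) := fun t =>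
        (up_win_mul hδ.le (hG t).2.1 (hγ t).2).mono (by linarith) le_rfl
      have hZc : Continuous fun t => up p (G t) * γ t :=
        (continuous_up hGc).mul γ.continuous
      have hsL := fun t => split L (fL p) (hZ t) (across_cut (hG t).2.2)
        (scal_fL L (hZb t) (fun i (hi : a i ≤ 9 * η) => by linarith) u₀)
      have hsU : ∀ t, Across U (rest L (up p (G t) * γ t)) ∧
          Scal U (fU p) 0 (rest L (up p (G t) * γ t)) ∧
          rest U (rest L (up p (G t) * γ t)) = 1 := fun t => by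
        refine ⟨fun x y hxy => ?_, scal_fU U (iband_rest (by linarith) L (hZb t))
          (fun i (hi : 9 * η < a i) => by linarith) _,
          rest_eq_one L (idOn_rest L _) fun i => le_or_gt (a i) (9 * η)⟩
        rw [idOn_rest L _ x y (by
          simp only [U] at hxy
          by_contra hh
          simp only [L, not_or, not_le] at hh
          exact hxy ⟨fun _ => hh.2, fun _ => hh.1⟩)]
        exact Matrix.one_apply_ne fun e => hxy (by rw [e])
      have hsp' := fun t => split U (fU p) (hsL t).2.1 (hsU t).1 (hsU t).2.1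
      obtain ⟨nL, hnL⟩ := exists_wd_det (continuous_res L (fL p) u₀ hZc) (fun t => (hsL t).1)
        (by simp [hG0, h0, res_one]) (by simp [hG1, h1, res_one])
      obtain ⟨nU, hnU⟩ := exists_wd_det (continuous_res U (fU p) 0 (continuous_rest L hZc))
        (fun t => (hsp' t).1) (by simp [hG0, h0, rest_one, res_one])
        (by simp [hG1, h1, rest_one, res_one])
      have hsum := ((hnL.pow p).mul (hnU.pow (p + 1))).unique hwZ fun t => by
        conv_rhs => rw [← (hsL t).2.2, Matrix.det_mul, det_part]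
        have e := (hsp' t).2.2
        rw [(hsU t).2.2, mul_one] at e
        conv_rhs => arg 2; rw [← e, det_part]
        simp
      refine ⟨nL + nU, ?_⟩
      have : (Fintype.card (Fin (p + 1)) : ℤ) * (nL + nU) = nL := by
        simp only [Fintype.card_fin]
        push_cast at hsum ⊢
        linarith
      rwa [this]
    obtain ⟨γ₁, h10, h11, hγ₁, hw₁, hG₁, J₁⟩ := loop_step (η := η) (δ := δ) (c := 9 * η)
      (P := L) (f := fL p) (m₀ := u₀) hB hp hδ (by linarith) (by linarith) (by linarith)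
      (by linarith) (chain_sub hsp.chain (by linarith) fun i j k (_ : a i ≤ 9 * η) (hj : a j ≤ 9 * η)
        _ hkj => (hkj.trans hj : a k ≤ 9 * η)) hpL
      ⟨hi₁.1, by linarith [hi₁.2]⟩ ⟨by linarith, hj₁'⟩ hi₁.2
      (fun (h : a j₁ ≤ 9 * η) => by linarith) γ h0 h1 hγ hw
      (fun t G hG hGw hcom => ⟨across_cut hcom, scal_fL L
        ((up_win_mul hδ.le hGw (hγ t).2).mono le_rfl le_rfl)
        (fun i (hi : a i ≤ 9 * η) => by linarith) u₀⟩) hdiv
    have hγ₁b : ∀ t, IdOn L (γ₁ t) ∧ IBand a a (3 * η) (3 * δ) (γ₁ t) := fun t => by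
      obtain ⟨G, -, -, -, e⟩ := hG₁ t
      exact ⟨e ▸ idOn_rest L _, (hγ₁ t).2.mono (by linarith) le_rfl⟩
    obtain ⟨γ₂, h20, h21, hγ₂, hw₂, hG₂, J₂⟩ := loop_step (η := η) (δ := δ) (η₀ := 3 * η)
      (δ₀ := 3 * δ) (c := 1 - 9 * η) (P := M) (f := fM p) (m₀ := (u₀, 0)) hB hp (by linarith)
      (by linarith) (by linarith) (by linarith) (by linarith)
      (chain_sub hsp.chain (by linarith) fun i j k (hi : M i) (hj : M j) hik hkj =>
        (⟨hi.1.trans_le hik, hkj.trans hj.2⟩ : M k)) hpM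
      ⟨by linarith [hi₂.1], by linarith [hi₂.2]⟩ ⟨by linarith, by linarith⟩
      (⟨by linarith [hi₂.1], hi₂.2⟩ : M i₂) (fun h => by linarith [h.2]) γ₁ h10 h11
      (fun t => ⟨(hγ₁ t).1, (hγ₁b t).2⟩) hw₁
      (fun t G hG hGw hcom => hmid _ G hG (hγ₁b t).1 (hγ₁b t).2 hGw hcom)
      (fun G hGc hG0 hG1 hG hwZ => by
        have hsM := fun t => split M (fM p)
          (mul_mem (up_mem_unitary (p := p) (hG t).1) (hγ₁ t).1)
          (hmid _ _ (hG t).1 (hγ₁b t).1 (hγ₁b t).2 (hG t).2.1 (hG t).2.2).1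
          (hmid _ _ (hG t).1 (hγ₁b t).1 (hγ₁b t).2 (hG t).2.1 (hG t).2.2).2
        obtain ⟨n, hn⟩ := exists_wd_det (continuous_res M (fM p) (u₀, 0)
          ((continuous_up hGc).mul γ₁.continuous)) (fun t => (hsM t).1)
          (by simp [hG0, h10, res_one]) (by simp [hG1, h11, res_one])
        exact ⟨n, by simpa using hn⟩)
    have J₃ : JoinedIn (TgL p a η δ) γ₂ 1 := by
      refine last_contract (η₀ := 9 * η) (δ₀ := 9 * δ) (P := H) (f := fU p) (m₀ := 0) hB
        (by simp) (by linarith) (by linarith)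
        (chain_sub hsp.chain (by linarith) fun i j k (hi : 1 - 9 * η < a i) _ hik _ =>
          (hi.trans_le hik : 1 - 9 * η < a k)) hpH γ₂ h20 h21
        (fun t => ⟨(hγ₂ t).1, (hγ₂ t).2.mono (by linarith) (by linarith)⟩) hw₂ fun t => ?_
      obtain ⟨G, -, hGw, -, e⟩ := hG₂ t
      obtain ⟨e1, e2, e3⟩ := hhigh _ G (hγ₁b t).1 (hγ₁b t).2 hGw
      rw [e]
      exact ⟨e1, e2, e3⟩
    obtain ⟨q, hq⟩ := (J₁.trans J₂).trans J₃
    refine ⟨⟨fun x => q x.1 x.2, ContinuousMap.continuous_uncurry_of_continuous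
      ⟨fun s => q s, q.continuous⟩⟩, fun t => ?_, fun t => ?_, fun s => ⟨(hq s).1, (hq s).2.1⟩,
      fun x => (hq x.1).2.2 x.2⟩
    · show q (0 : II) t = γ t
      rw [q.source]
    · show q (1 : II) t = 1
      rw [q.target]
      rfl

end Vale.P101.ZS
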