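import Vale.Agent.P101.ZStab.Limit.Algebra

/-!
# P101: the limit of suitable connecting maps is a Jiang–Su algebra
-/

open scoped Kronecker Matrix.Norms.L2Operator
open Filter Topology

namespace Vale.P101.ZS

noncomputable section

namespace Lim

variable (c : Chain)

instance : Nontrivial (LimAlg c) := (emb_injective c 0).nontrivial

/-- What is known about a finite set of a stage, in the stage types. -/
theorem good' (i : ℕ) (F : Finset (St c i)) {ε : ℝ} (hε : 0 < ε) :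
    ∃ (m : ℕ) (h : i ≤ m) (u : DD2 (c.P m) (c.P m + 1)),
      u.1 ∈ unitary (C(II × II, Mat2 (c.P m) (c.P m + 1))) ∧ ∀ f ∈ F,
        (∀ s s', ‖ntr (pt c m s (trS c i m h f)) - ntr (pt c m s' (trS c i m h f))‖ ≤ ε) ∧
        (∀ s, ‖f‖ - ε ≤ ‖pt c m s (trS c i m h f)‖) ∧
        ‖u.1 * inc1 (trS c i m h f : Dp (c.P m)) * star u.1 -
          inc2 (trS c i m h f : Dp (c.P m))‖ ≤ ε := by
  obtain ⟨n, h, u, hu, hgood⟩ := c.good i F ε hε
  refine ⟨n + 1, h.trans n.le_succ, u, hu, fun f hf => ?_⟩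
  have e : trS c i (n + 1) (h.trans n.le_succ) f = c.φ n (tr c.P c.φ i n h f) := tr_succ h _ f
  have en : ‖tr c.P c.φ i n h f‖ = ‖f‖ := NonUnitalStarAlgHom.norm_map _ (tr_injective c.inj h) f
  obtain ⟨h1, h2, h3⟩ := hgood f hf
  refine ⟨fun s s' => ?_, fun s => ?_, ?_⟩
  · rw [e]
    exact h1 s s'
  · rw [e, ← en]
    exact h2 s
  · rw [e]
    exact h3

/-- `exists_full` in the stage types. -/
theorem exists_fullS (m : ℕ) (g : St c m) {r : ℝ} (hr : 0 < r) (hg : ∀ s, r ≤ ‖pt c m s g‖) :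
    ∃ (κ : Type) (_ : Fintype κ) (a : κ → St c m), ‖∑ k, star (a k) * a k‖ ≤ 4 / r ^ 2 ∧
      ‖1 - ∑ k, star (a k) * (star g * g) * a k‖ ≤ 1 / 4 :=
  exists_full (NeZero.pos (c.P m)) (Nat.succ_pos _) (f := (g : Dp (c.P m))) hr hg

/-- `trace_close` in the stage types. -/
theorem trace_closeS (m : ℕ) (L : St c m →L[ℂ] ℂ) (hL : ∀ a b, L (a * b) = L (b * a))
    (h1 : L 1 = 1) (g : St c m) (t : ℂ) {ε : ℝ} (hε : 0 ≤ ε)
    (ht : ∀ s, ‖ntr (pt c m s g) - t‖ ≤ ε) : ‖L g - t‖ ≤ ‖L‖ * ε :=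
  trace_close (NeZero.pos (c.P m)) (Nat.succ_pos _) L hL h1 (g : Dp (c.P m)) t hε ht

/-- Fullness passes along a homomorphism and survives a perturbation. -/
theorem unit_of_near {A B : Type} [CStarAlgebra A] [CStarAlgebra B] (φ : A →⋆ₐ[ℂ] B) {κ : Type}
    [Fintype κ] (a : κ → A) (g : A) (y : B) (ha : ‖∑ k, star (a k) * a k‖ ≤ 16)
    (hg : ‖1 - ∑ k, star (a k) * (star g * g) * a k‖ ≤ 1 / 4)
    (hy : ‖star y * y - star (φ g) * φ g‖ ≤ 3 / 256) :
    IsUnit (∑ k, star (φ (a k)) * (star y * y) * φ (a k)) := by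
  have hb1 : ‖∑ k, star (φ (a k)) * φ (a k)‖ ≤ 16 := by
    have e : ∑ k, star (φ (a k)) * φ (a k) = φ (∑ k, star (a k) * a k) := by
      simp only [map_sum, map_mul, map_star]
    rw [e]
    exact (NonUnitalStarAlgHom.norm_apply_le φ _).trans ha
  have hb2 : ‖1 - ∑ k, star (φ (a k)) * (star (φ g) * φ g) * φ (a k)‖ ≤ 1 / 4 := by
    have e : 1 - ∑ k, star (φ (a k)) * (star (φ g) * φ g) * φ (a k) =
        φ (1 - ∑ k, star (a k) * (star g * g) * a k) := by
      simp only [map_sub, map_one, map_sum, map_mul, map_star]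
    rw [e]
    exact (NonUnitalStarAlgHom.norm_apply_le φ _).trans hg
  have hdiff : ‖∑ k, star (φ (a k)) * (star y * y) * φ (a k) -
      ∑ k, star (φ (a k)) * (star (φ g) * φ g) * φ (a k)‖ ≤ 16 * (3 / 256) := by
    rw [← Finset.sum_sub_distrib]
    simp only [← mul_sub, ← sub_mul]
    exact (norm_sum_conj_le (fun k => φ (a k)) _).trans
      (mul_le_mul hb1 hy (norm_nonneg _) (by norm_num))
  set z := ∑ k, star (φ (a k)) * (star y * y) * φ (a k) with hz
  have hclose : ‖1 - z‖ < 1 :=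
    calc ‖1 - z‖ = ‖(1 - ∑ k, star (φ (a k)) * (star (φ g) * φ g) * φ (a k)) -
          (z - ∑ k, star (φ (a k)) * (star (φ g) * φ g) * φ (a k))‖ := by congr 1; abel
      _ ≤ 1 / 4 + 16 * (3 / 256) := (norm_sub_le _ _).trans (add_le_add hb2 hdiff)
      _ < 1 := by norm_num
  simpa using isUnit_one_sub_of_norm_lt_one hclose

theorem norm_sq_sub_le {B : Type} [CStarAlgebra B] (y w : B) (hy : ‖y‖ = 1) (hw : ‖w‖ ≤ 2)
    (hd : ‖y - w‖ ≤ 1 / 256) : ‖star y * y - star w * w‖ ≤ 3 / 256 := by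
  have e : star y * y - star w * w = star y * (y - w) + star (y - w) * w := by
    rw [star_sub, mul_sub, sub_mul]; abel
  rw [e]
  refine (norm_add_le _ _).trans ((add_le_add (norm_mul_le _ _) (norm_mul_le _ _)).trans ?_)
  rw [norm_star, norm_star, hy]
  nlinarith [norm_nonneg (y - w)]

/-- An element with a nearby element of a stage generates everything. -/
theorem exists_unit_sum (y : LimAlg c) (hy : ‖y‖ = 1) :
    ∃ (κ : Type) (_ : Fintype κ) (b : κ → LimAlg c),
      IsUnit (∑ k, star (b k) * (star y * y) * b k) := by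
  obtain ⟨i, f, hf⟩ := exists_emb_near c y (ε := 1 / 256) (by norm_num)
  have h1 := norm_le_insert' y (emb c i f)
  have h2 := norm_le_insert y (emb c i f)
  rw [norm_emb c i f] at h1 h2
  have hf2 : ‖f‖ ≤ 2 := by linarith
  obtain ⟨m, hm, _, _, hg⟩ := good' c i {f} (ε := 1 / 4) (by norm_num)
  obtain ⟨-, hnorm, -⟩ := hg f (Finset.mem_singleton_self f)
  obtain ⟨κ, hκ, a, ha, hfull⟩ := exists_fullS c m (trS c i m hm f) (r := 1 / 2) (by norm_num)
    (fun s => le_trans (by linarith) (hnorm s))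
  refine ⟨κ, hκ, fun k => emb c m (a k), unit_of_near (emb c m) a _ y (ha.trans (by norm_num))
    hfull ?_⟩
  rw [emb_tr c hm f]
  exact norm_sq_sub_le y _ hy ((norm_emb c i f).trans_le hf2) hf.le

/-- Simplicity. -/
theorem isSimpleRing : IsSimpleRing (LimAlg c) := by
  refine IsSimpleRing.of_eq_bot_or_eq_top fun J => ?_
  by_contra hJ
  rw [not_or] at hJ
  refine hJ.2 ?_
  obtain ⟨x, hx, hx0⟩ : ∃ x ∈ J, x ≠ 0 := by
    by_contra hne
    refine hJ.1 (TwoSidedIdeal.ext fun x => ⟨fun hx => ?_, fun hx => ?_⟩)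
    · rw [TwoSidedIdeal.mem_bot]
      by_contra h0
      exact hne ⟨x, hx, h0⟩
    · rw [(TwoSidedIdeal.mem_bot _).1 hx]
      exact J.zero_mem
  have hpos : 0 < ‖x‖ := norm_pos_iff.2 hx0
  set y : LimAlg c := ((‖x‖⁻¹ : ℝ) : ℂ) • x with hy
  have hy1 : ‖y‖ = 1 := by
    rw [hy, norm_smul, Complex.norm_real, Real.norm_of_nonneg (by positivity),
      inv_mul_cancel₀ hpos.ne']
  have hyJ : y ∈ J := by
    have h : y = algebraMap ℂ (LimAlg c) (((‖x‖⁻¹ : ℝ) : ℂ)) * x := Algebra.smul_def _ _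
    rw [h]
    exact J.mul_mem_left _ _ hx
  obtain ⟨κ, _, b, w, hw⟩ := exists_unit_sum c y hy1
  have hwJ : (w : LimAlg c) ∈ J := by
    rw [hw]
    exact TwoSidedIdeal.finsetSum_mem _ _ _ fun k _ =>
      J.mul_mem_right _ _ (J.mul_mem_left _ _ (J.mul_mem_left _ _ hyJ))
  refine (TwoSidedIdeal.one_mem_iff J).1 ?_
  rw [← Units.inv_mul w]
  exact J.mul_mem_left _ _ hwJ

/-- The trace of the limit. -/
def limTrace : LimAlg c →L[ℂ] ℂ :=
  LinearMap.mkContinuous ((ambTrace c).comp (LimSub c).toSubalgebra.toSubmodule.subtype) 1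
    fun x => (norm_ambTrace_le c (x : Amb c)).trans (one_mul ‖x‖).ge

theorem limTrace_isTracial : IsTracialState (limTrace c) :=
  ⟨ambTrace_one c, fun b => ambTrace_pos c (b : Amb c),
    fun a b => ambTrace_mul_comm c (a : Amb c) (b : Amb c)⟩

/-- Uniqueness of the trace. -/
theorem trace_unique (τ τ' : LimAlg c →L[ℂ] ℂ) (h : IsTracialState τ) (h' : IsTracialState τ') :
    τ = τ' := by
  have key : ∀ i f, τ (emb c i f) = τ' (emb c i f) := by
    intro i f
    refine sub_eq_zero.1 (norm_le_zero_iff.1 (le_of_forall_pos_le_add fun ε hε => ?_))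
    obtain ⟨m, hm, _, _, hg⟩ := good' c i {f} (ε := ε / (‖τ‖ + ‖τ'‖ + 1)) (by positivity)
    obtain ⟨htr, -, -⟩ := hg f (Finset.mem_singleton_self f)
    set g := trS c i m hm f with hgdef
    have hσ : ∀ σ : LimAlg c →L[ℂ] ℂ, IsTracialState σ →
        ‖σ (emb c i f) - ntr (pt c m 0 g)‖ ≤ ‖σ‖ * (ε / (‖τ‖ + ‖τ'‖ + 1)) := by
      intro σ hσ
      let L : St c m →L[ℂ] ℂ := LinearMap.mkContinuous
        { toFun := fun a => σ (emb c m a)
          map_add' := fun a b => by rw [map_add, map_add]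
          map_smul' := fun t a => by rw [map_smul, map_smul]; rfl } ‖σ‖
        fun a => (σ.le_opNorm _).trans (le_of_eq (by rw [norm_emb]))
      have hL1 : L 1 = 1 := by
        change σ (emb c m 1) = 1
        rw [map_one, hσ.1]
      have hLc : ∀ a b, L (a * b) = L (b * a) := fun a b => by
        change σ (emb c m (a * b)) = σ (emb c m (b * a))
        rw [map_mul (emb c m), map_mul (emb c m), hσ.2.2]
      have h1 := trace_closeS c m L hLc hL1 g (ntr (pt c m 0 g))
        (ε := ε / (‖τ‖ + ‖τ'‖ + 1)) (by positivity) (fun s => htr s 0)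
      have h2 : L g = σ (emb c i f) := congrArg σ (emb_tr c hm f)
      rw [h2] at h1
      exact h1.trans (mul_le_mul_of_nonneg_right
        (LinearMap.mkContinuous_norm_le _ (norm_nonneg σ) _) (by positivity))
    calc ‖τ (emb c i f) - τ' (emb c i f)‖
        = ‖(τ (emb c i f) - ntr (pt c m 0 g)) - (τ' (emb c i f) - ntr (pt c m 0 g))‖ := by
          rw [sub_sub_sub_cancel_right]
      _ ≤ (‖τ‖ + ‖τ'‖) * (ε / (‖τ‖ + ‖τ'‖ + 1)) :=
          (norm_sub_le _ _).trans ((add_le_add (hσ τ h) (hσ τ' h')).trans_eq (add_mul _ _ _).symm)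
      _ ≤ (‖τ‖ + ‖τ'‖ + 1) * (ε / (‖τ‖ + ‖τ'‖ + 1)) :=
          mul_le_mul_of_nonneg_right (by linarith) (by positivity)
      _ = 0 + ε := by rw [mul_div_cancel₀ _ (by positivity), zero_add]
  have hd : Dense (⋃ i, Set.range (emb c i)) := by
    rw [Metric.dense_iff]
    intro x r hr
    obtain ⟨i, f, hf⟩ := exists_emb_near c x hr
    exact ⟨emb c i f, by rwa [Metric.mem_ball, dist_comm, dist_eq_norm],
      Set.mem_iUnion.2 ⟨i, f, rfl⟩⟩
  refine ContinuousLinearMap.coeFn_injective (Continuous.ext_on hd τ.continuous τ'.continuous ?_)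
  intro x hx
  obtain ⟨i, f, rfl⟩ := Set.mem_iUnion.1 hx
  exact key i f

theorem dense_range_emb : Dense (⋃ i, Set.range (emb c i)) := by
  rw [Metric.dense_iff]
  intro x r hr
  obtain ⟨i, f, hf⟩ := exists_emb_near c x hr
  exact ⟨emb c i f, by rwa [Metric.mem_ball, dist_comm, dist_eq_norm],
    Set.mem_iUnion.2 ⟨i, f, rfl⟩⟩

theorem range_mono {i n : ℕ} (h : i ≤ n) : (emb c i).range ≤ (emb c n).range := by
  rintro _ ⟨f, rfl⟩
  exact ⟨trS c i n h f, emb_tr c h f⟩

/-- The embedding of a stage, with the dimension drop algebra as its domain. -/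
def embD (n : ℕ) : DD (c.P n) (c.P n + 1) →⋆ₐ[ℂ] LimAlg c := emb c n

/-- The exhaustion of the limit. -/
def tower : Tower (LimAlg c) where
  P := c.P
  pow := c.pow
  emb := embD c
  injective := emb_injective c
  mono _ _ h := range_mono c h
  dense := dense_range_emb c
  flip n F ε hε := by
    classical
    obtain ⟨m, hm, u, hu, hg⟩ := good' c n (F.image fun f : Dp (c.P n) => (f : St c n)) hε
    refine ⟨m, hm, u, hu, fun f hf => ?_⟩
    exact ⟨(trS c n m hm f : Dp (c.P m)), emb_tr c hm f,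
      (hg f (Finset.mem_image_of_mem _ hf)).2.2⟩

theorem isJiangSu : IsJiangSu (LimAlg c) := by
  refine ⟨isSimpleRing c, ⟨limTrace c, limTrace_isTracial c, fun τ h =>
    trace_unique c τ _ h (limTrace_isTracial c)⟩, fun n => (embD c n).range,
    fun i n h => range_mono c h, fun n => ⟨c.P n, c.P n + 1, ?_, ?_, ?_, ?_⟩, dense_range_emb c⟩
  · have := c.two_le n; omega
  · have := c.two_le n; omega
  · simp
  · exact ⟨(StarAlgEquiv.ofInjective (embD c n) (emb_injective c n)).symm⟩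

end Lim

/-- The limit of suitable connecting maps is a Jiang–Su algebra with flipped stages. -/
theorem limit : LimitStmt := fun hS => by
  obtain ⟨c⟩ := Lim.exists_chain hS
  exact ⟨Lim.LimAlg c, inferInstance, Lim.isJiangSu c, ⟨Lim.tower c⟩⟩

end

end Vale.P101.ZS
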