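import Vale.Agent.P101.ZStab.Absorb.Core
import Vale.Agent.P101.ZStab.Absorb.Rep

/-!
# P101: absorption of a tower algebra
-/

namespace Vale.P101.ZS

theorem IsSpatialTensor.of_equiv {S R A B : Type} [CStarAlgebra S] [CStarAlgebra R] [CStarAlgebra A]
    [CStarAlgebra B] (e : S ≃⋆ₐ[ℂ] R) (h : IsSpatialTensor R A B) : IsSpatialTensor S A B := by
  obtain ⟨H, K, i₁, i₂, i₃, j₁, j₂, j₃, π, ρ, hπ, hρ, ⟨f⟩⟩ := h
  exact ⟨H, K, i₁, i₂, i₃, j₁, j₂, j₃, π, ρ, hπ, hρ, ⟨e.trans f⟩⟩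

/-- `AbsorbStmt`. -/
theorem absorb : AbsorbStmt := by
  intro hU A _ _ _ ω _ hσ B _ hB T
  have : Nontrivial B := haveI := hB.1; inferInstance
  obtain ⟨R, _, ιA, ιB, hA, hcomm, hgen, hR⟩ := Rep.exists_spatial A B
  obtain ⟨e⟩ := absorb_core hU ω T (fun m => by
    obtain ⟨k, hk, hm⟩ := T.pow m
    rw [hm]
    exact hσ k hk) ιA ιB hA hcomm hgen
  exact hR.of_equiv e

end Vale.P101.ZS
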