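import Vale.Agent.P101.ZStab.Pins

/-!
# P101 `Z`-stability, module U: two commuting copies of `Z(P,Q)`

Two commuting homomorphisms of `Z(P,Q)` give commuting homomorphisms of `C[0,1]`, hence by Gelfand
duality a homomorphism `theta` of `C([0,1]²)`.  Near the boundary the entries of the fibres are
projected to the subspace allowed there; this writes every `a : Z(P,Q)` as a limit of combinations
`∑ a_β • l_β` with fixed elements `l_β`, boundedly in the entries.  The same formula in two
variables defines the homomorphism of `DD2` as a limit.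
-/

open scoped Kronecker Matrix.Norms.L2Operator
open Filter Topology

namespace Vale.P101.ZS

namespace Univ

noncomputable section

/-- Pairs of labels: the entries of `M_P ⊗ M_Q`. -/
abbrev Ent (P Q : ℕ) := (Fin P × Fin Q) × (Fin P × Fin Q)

/-! ### Cutoff functions -/

/-- `max 0 (1 - (n + 3) t)`. -/
def lowCut (n : ℕ) : C(II, ℂ) :=
  ⟨fun t => ((max 0 (1 - ((n : ℝ) + 3) * (t : ℝ)) : ℝ) : ℂ), by fun_prop⟩

/-- The same cutoff at the other endpoint. -/
def highCut (n : ℕ) : C(II, ℂ) :=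
  (lowCut n).comp ⟨unitInterval.symm, unitInterval.continuous_symm⟩

theorem norm_lowCut_apply_le (n : ℕ) (t : II) : ‖lowCut n t‖ ≤ 1 := by
  have ht := t.2.1
  change ‖((max 0 (1 - ((n : ℝ) + 3) * (t : ℝ)) : ℝ) : ℂ)‖ ≤ 1
  rw [Complex.norm_real, Real.norm_eq_abs, abs_of_nonneg (le_max_left _ _)]
  exact max_le zero_le_one (by nlinarith [(n.cast_nonneg : (0 : ℝ) ≤ n)])

theorem norm_highCut_apply_le (n : ℕ) (t : II) : ‖highCut n t‖ ≤ 1 :=
  norm_lowCut_apply_le n _

theorem lowCut_zero (n : ℕ) : lowCut n 0 = 1 := by simp [lowCut]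

theorem lowCut_one (n : ℕ) : lowCut n 1 = 0 := by
  simp [lowCut]
  linarith [(n.cast_nonneg : (0 : ℝ) ≤ n)]

theorem highCut_zero (n : ℕ) : highCut n 0 = 0 := by simp [highCut, lowCut_one]

theorem highCut_one (n : ℕ) : highCut n 1 = 1 := by simp [highCut, lowCut_zero]

/-- The first projection. -/
abbrev prj1 : C(II × II, II) := ⟨Prod.fst, continuous_fst⟩

/-- The second projection. -/
abbrev prj2 : C(II × II, II) := ⟨Prod.snd, continuous_snd⟩

theorem tendsto_lowCut_fst (G : C(II × II, ℂ)) (h : ∀ t, G (0, t) = 0) :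
    Tendsto (fun n => (lowCut n).comp prj1 * G) atTop (𝓝 0) := by
  rw [Metric.tendsto_atTop]
  intro ε hε
  obtain ⟨δ, hδ, hG⟩ := Metric.uniformContinuous_iff.1
    (CompactSpace.uniformContinuous_of_continuous G.continuous) (ε / 2) (half_pos hε)
  obtain ⟨N, hN⟩ := exists_nat_gt (1 / δ)
  refine ⟨N, fun n hn => ?_⟩
  rw [dist_zero_right]
  refine lt_of_le_of_lt ((ContinuousMap.norm_le _ (half_pos hε).le).2 fun x => ?_) (half_lt_self hε)
  rcases lt_or_ge (x.1 : ℝ) δ with hx | hx
  · have hd : dist x ((0 : II), x.2) < δ := by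
      rw [Prod.dist_eq, dist_self, max_eq_left dist_nonneg, Subtype.dist_eq]
      simpa [Real.dist_eq, abs_of_nonneg x.1.2.1] using hx
    have h2 := hG hd
    rw [h, dist_zero_right] at h2
    calc ‖((lowCut n).comp prj1 * G) x‖ ≤ 1 * ‖G x‖ := by
          simpa using mul_le_mul_of_nonneg_right (norm_lowCut_apply_le n x.1) (norm_nonneg (G x))
      _ ≤ ε / 2 := by linarith
  · have hn' : (N : ℝ) ≤ n := by exact_mod_cast hn
    have h1 : 1 / δ < (n : ℝ) + 3 := by linarith
    rw [div_lt_iff₀ hδ] at h1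
    have h0 : max 0 (1 - ((n : ℝ) + 3) * (x.1 : ℝ)) = 0 :=
      max_eq_left (by nlinarith [(n.cast_nonneg : (0 : ℝ) ≤ n)])
    simp [lowCut, h0, (half_pos hε).le]

theorem tendsto_comp (φ : C(II × II, II × II)) {f : ℕ → C(II × II, ℂ)}
    (hf : Tendsto f atTop (𝓝 0)) : Tendsto (fun n => (f n).comp φ) atTop (𝓝 0) := by
  simpa [Function.comp_def] using ((ContinuousMap.continuous_precomp φ).tendsto 0).comp hf

theorem tendsto_highCut_fst (G : C(II × II, ℂ)) (h : ∀ t, G (1, t) = 0) :
    Tendsto (fun n => (highCut n).comp prj1 * G) atTop (𝓝 0) := by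
  let φ : C(II × II, II × II) :=
    ⟨fun x => (unitInterval.symm x.1, x.2),
      (unitInterval.continuous_symm.comp continuous_fst).prodMk continuous_snd⟩
  refine (tendsto_comp φ (tendsto_lowCut_fst (G.comp φ) fun t => by simp [φ, h])).congr
    fun n => ?_
  ext x
  simp [φ, highCut]

theorem tendsto_lowCut_snd (G : C(II × II, ℂ)) (h : ∀ s, G (s, 0) = 0) :
    Tendsto (fun n => (lowCut n).comp prj2 * G) atTop (𝓝 0) := by
  refine (tendsto_comp ContinuousMap.prodSwap
    (tendsto_lowCut_fst (G.comp ContinuousMap.prodSwap) fun t => by simp [h])).congr fun n => ?_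
  ext x
  simp

theorem tendsto_highCut_snd (G : C(II × II, ℂ)) (h : ∀ s, G (s, 1) = 0) :
    Tendsto (fun n => (highCut n).comp prj2 * G) atTop (𝓝 0) := by
  refine (tendsto_comp ContinuousMap.prodSwap
    (tendsto_highCut_fst (G.comp ContinuousMap.prodSwap) fun t => by simp [h])).congr fun n => ?_
  ext x
  simp

/-! ### Scalar functions, closedness -/

variable {P Q : ℕ}

theorem isClosed_DD : IsClosed (DD P Q : Set C(II, Mat P Q)) := by
  let L0 : Matrix (Fin P) (Fin P) ℂ →ₗ[ℂ] Mat P Q :=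
    { toFun := fun A => A ⊗ₖ (1 : Matrix (Fin Q) (Fin Q) ℂ)
      map_add' := fun A B => Matrix.add_kronecker A B 1
      map_smul' := fun c A => Matrix.smul_kronecker c A 1 }
  let L1 : Matrix (Fin Q) (Fin Q) ℂ →ₗ[ℂ] Mat P Q :=
    { toFun := fun B => (1 : Matrix (Fin P) (Fin P) ℂ) ⊗ₖ B
      map_add' := fun A B => Matrix.kronecker_add 1 A B
      map_smul' := fun c A => Matrix.kronecker_smul c 1 A }
  have e : (DD P Q : Set C(II, Mat P Q)) =
      (fun f : C(II, Mat P Q) => f 0) ⁻¹' (LinearMap.range L0 : Set (Mat P Q)) ∩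
        (fun f : C(II, Mat P Q) => f 1) ⁻¹' (LinearMap.range L1 : Set (Mat P Q)) := by
    ext f
    simp only [SetLike.mem_coe, Set.mem_inter_iff, Set.mem_preimage, LinearMap.mem_range]
    constructor
    · rintro ⟨⟨A, hA⟩, B, hB⟩
      exact ⟨⟨A, hA.symm⟩, B, hB.symm⟩
    · rintro ⟨⟨A, hA⟩, B, hB⟩
      exact ⟨⟨A, hA.symm⟩, B, hB.symm⟩
  rw [e]
  exact ((Submodule.closed_of_finiteDimensional _).preimage
    (ContinuousEvalConst.continuous_eval_const _)).inter
    ((Submodule.closed_of_finiteDimensional _).preimage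
    (ContinuousEvalConst.continuous_eval_const _))

/-- The scalar functions in `Z(P,Q)`. -/
def sc : C(II, ℂ) →⋆ₐ[ℂ] DD P Q where
  toFun f := ⟨⟨fun t => f t • (1 : Mat P Q), f.continuous.smul continuous_const⟩,
    ⟨f 0 • 1, by simp [Matrix.smul_kronecker]⟩, f 1 • 1, by simp [Matrix.kronecker_smul]⟩
  map_one' := Subtype.ext <| ContinuousMap.ext fun t => one_smul ℂ _
  map_mul' f g := Subtype.ext <| ContinuousMap.ext fun t => by
    simp [smul_smul, mul_comm]
  map_zero' := Subtype.ext <| ContinuousMap.ext fun t => zero_smul ℂ _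
  map_add' f g := Subtype.ext <| ContinuousMap.ext fun t => add_smul _ _ _
  commutes' c := Subtype.ext <| ContinuousMap.ext fun t => by
    simp [Algebra.algebraMap_eq_smul_one]
  map_star' f := Subtype.ext <| ContinuousMap.ext fun t => by simp

@[simp] theorem sc_apply (f : C(II, ℂ)) (t : II) :
    (sc f : DD P Q).1 t = f t • (1 : Mat P Q) := rfl

/-! ### Projection of the entries at the endpoints -/

variable [NeZero P] [NeZero Q]

/-- The representative entry at the endpoint `0`. -/
def red0 (α : Ent P Q) : Ent P Q := ((α.1.1, 0), (α.2.1, 0))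

/-- The representative entry at the endpoint `1`. -/
def red1 (α : Ent P Q) : Ent P Q := ((0, α.1.2), (0, α.2.2))

/-- Entries of the projection onto `M_P ⊗ 1`. -/
def proj0 (α : Ent P Q) (c : Ent P Q → ℂ) : ℂ := if α.1.2 = α.2.2 then c (red0 α) else 0

/-- Entries of the projection onto `1 ⊗ M_Q`. -/
def proj1 (α : Ent P Q) (c : Ent P Q → ℂ) : ℂ := if α.1.1 = α.2.1 then c (red1 α) else 0

/-- The coefficients of the projection near the endpoints. -/
def coef (n : ℕ) (α β : Ent P Q) : C(II, ℂ) :=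
  (if α = β then (1 : ℂ) else 0) • 1 +
    (proj0 α (Pi.single β 1) - if α = β then 1 else 0) • lowCut n +
    (proj1 α (Pi.single β 1) - if α = β then 1 else 0) • highCut n

theorem coef_apply (n : ℕ) (α β : Ent P Q) (t : II) :
    coef n α β t = (if α = β then 1 else 0) +
      (proj0 α (Pi.single β 1) - if α = β then 1 else 0) * lowCut n t +
      (proj1 α (Pi.single β 1) - if α = β then 1 else 0) * highCut n t := by
  simp only [coef, ContinuousMap.add_apply, ContinuousMap.smul_apply, ContinuousMap.one_apply,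
    smul_eq_mul, mul_one]

theorem sum_coef (n : ℕ) (α : Ent P Q) (s : II) (c : Ent P Q → ℂ) :
    ∑ β, coef n α β s * c β =
      c α + lowCut n s * (proj0 α c - c α) + highCut n s * (proj1 α c - c α) := by
  have e0 : proj0 α c = ∑ β, proj0 α (Pi.single β 1) * c β := by
    unfold proj0; split <;> simp [Pi.single_apply]
  have e1 : proj1 α c = ∑ β, proj1 α (Pi.single β 1) * c β := by
    unfold proj1; split <;> simp [Pi.single_apply]
  rw [e0, e1, show c α = ∑ β, (if α = β then (1 : ℂ) else 0) * c β by simp,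
    ← Finset.sum_sub_distrib, ← Finset.sum_sub_distrib, Finset.mul_sum, Finset.mul_sum,
    ← Finset.sum_add_distrib, ← Finset.sum_add_distrib]
  refine Finset.sum_congr rfl fun β _ => ?_
  by_cases hαβ : α = β <;> simp [coef_apply, hαβ] <;> ring

theorem norm_coef_le (n : ℕ) (α β : Ent P Q) : ‖coef n α β‖ ≤ 5 := by
  have h0 : ∀ γ, ‖(Pi.single β (1 : ℂ) : Ent P Q → ℂ) γ‖ ≤ 1 := fun γ => by
    by_cases h : γ = β <;> simp [Pi.single_apply, h]
  have hd : ‖(if α = β then (1 : ℂ) else 0)‖ ≤ 1 := by split <;> simp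
  have hp0 : ‖proj0 α (Pi.single β (1 : ℂ))‖ ≤ 1 := by
    unfold proj0
    split
    · exact h0 _
    · simp
  have hp1 : ‖proj1 α (Pi.single β (1 : ℂ))‖ ≤ 1 := by
    unfold proj1
    split
    · exact h0 _
    · simp
  refine (ContinuousMap.norm_le _ (by norm_num)).2 fun t => ?_
  simp only [coef, ContinuousMap.add_apply, ContinuousMap.smul_apply, ContinuousMap.one_apply,
    smul_eq_mul, mul_one]
  refine (norm_add₃_le).trans ?_
  rw [norm_mul, norm_mul]
  have := norm_sub_le (proj0 α (Pi.single β (1 : ℂ))) (if α = β then 1 else 0)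
  have := norm_sub_le (proj1 α (Pi.single β (1 : ℂ))) (if α = β then 1 else 0)
  have := mul_le_mul (show ‖proj0 α (Pi.single β (1 : ℂ)) - if α = β then 1 else 0‖ ≤ 2 by linarith)
    (norm_lowCut_apply_le n t) (norm_nonneg _) zero_le_two
  have := mul_le_mul (show ‖proj1 α (Pi.single β (1 : ℂ)) - if α = β then 1 else 0‖ ≤ 2 by linarith)
    (norm_highCut_apply_le n t) (norm_nonneg _) zero_le_two
  linarith

/-- The matrix unit of an entry. -/
abbrev unit (α : Ent P Q) : Mat P Q := Matrix.single α.1 α.2 1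

/-- `t ↦ h t • X`. -/
def emb (h : C(II, ℂ)) (X : Mat P Q) : C(II, Mat P Q) :=
  ⟨fun t => h t • X, h.continuous.smul continuous_const⟩

/-- The lifts of the matrix units. -/
def lift (n : ℕ) (β : Ent P Q) : C(II, Mat P Q) := ∑ α, emb (coef n α β) (unit α)

theorem lift_apply (n : ℕ) (β : Ent P Q) (t : II) (i j : Fin P × Fin Q) :
    lift n β t i j = coef n (i, j) β t := by
  simp only [lift, ContinuousMap.sum_apply, Matrix.sum_apply]
  rw [Finset.sum_eq_single (i, j)]
  · simp [emb]
  · intro α _ h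
    have h' : ¬(α.1 = i ∧ α.2 = j) := fun e => h (Prod.ext e.1 e.2)
    simp [emb, Matrix.single, h']
  · simp

theorem lift_mem (n : ℕ) (β : Ent P Q) : lift n β ∈ DD P Q := by
  refine ⟨⟨Matrix.of fun i i' => if ((i, 0), (i', 0)) = β then 1 else 0, ?_⟩,
    Matrix.of fun i i' => if ((0, i), (0, i')) = β then 1 else 0, ?_⟩
  · ext i j
    rw [lift_apply]
    simp [coef_apply, lowCut_zero, highCut_zero, proj0, red0, Pi.single_apply, Matrix.one_apply,
      Matrix.kroneckerMap_apply]
  · ext i j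
    rw [lift_apply]
    simp [coef_apply, lowCut_one, highCut_one, proj1, red1, Pi.single_apply, Matrix.one_apply,
      Matrix.kroneckerMap_apply]
    split_ifs <;> rfl

theorem norm_lift_le (n : ℕ) (β : Ent P Q) :
    ‖lift n β‖ ≤ ∑ α : Ent P Q, 5 * ‖unit α‖ := by
  refine (norm_sum_le _ _).trans (Finset.sum_le_sum fun α _ => ?_)
  refine (ContinuousMap.norm_le _ (by positivity)).2 fun t => ?_
  change ‖coef n α β t • unit α‖ ≤ _
  rw [norm_smul]
  gcongr
  exact ((coef n α β).norm_coe_le_norm t).trans (norm_coef_le n α β)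

/-- The lift as an element of `Z(P,Q)`. -/
def liftDD (n : ℕ) (β : Ent P Q) : DD P Q := ⟨lift n β, lift_mem n β⟩

/-! ### Entries and convergence -/

/-- An entry of a matrix valued function. -/
def ent {X : Type*} [TopologicalSpace X] {m : Type*} (G : C(X, Matrix m m ℂ))
    (i j : m) : C(X, ℂ) :=
  (⟨fun A : Matrix m m ℂ => A i j, continuous_id.matrix_elem i j⟩ : C(Matrix m m ℂ, ℂ)).comp G

@[simp] theorem ent_apply {X : Type*} [TopologicalSpace X] {m : Type*}
    (G : C(X, Matrix m m ℂ)) (i j : m) (x : X) : ent G i j x = G x i j := rfl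

theorem tendsto_of_ent {X : Type*} [TopologicalSpace X] [CompactSpace X] {m : Type*} [Fintype m]
    [DecidableEq m] {G : ℕ → C(X, Matrix m m ℂ)} {G' : C(X, Matrix m m ℂ)}
    (h : ∀ i j, Tendsto (fun n => ent (G n) i j) atTop (𝓝 (ent G' i j))) :
    Tendsto G atTop (𝓝 G') := by
  let T : m → m → C(X, ℂ) →L[ℂ] C(X, Matrix m m ℂ) := fun i j =>
    ContinuousLinearMap.compLeftContinuous ℂ X
      ((ContinuousLinearMap.id ℂ ℂ).smulRight (Matrix.single i j (1 : ℂ)))
  have e : ∀ H : C(X, Matrix m m ℂ), ∑ i, ∑ j, T i j (ent H i j) = H := fun H => by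
    ext x : 1
    simp only [ContinuousMap.sum_apply]
    conv_rhs => rw [Matrix.matrix_eq_sum_single (H x)]
    simp [T, Matrix.smul_single]
  rw [← e G']
  refine (tendsto_finsetSum _ fun i _ => tendsto_finsetSum _ fun j _ =>
    ((T i j).continuous.tendsto _).comp (h i j)).congr fun n => ?_
  simpa using e (G n)

theorem tendsto_bdd_mul {R : ℕ → C(II × II, ℂ)} {G : ℕ → C(II × II, ℂ)}
    (hR : ∀ n, ‖R n‖ ≤ 5) (hG : Tendsto G atTop (𝓝 0)) :
    Tendsto (fun n => R n * G n) atTop (𝓝 0) := by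
  refine squeeze_zero_norm (fun n => (norm_mul_le _ _).trans
    (mul_le_mul_of_nonneg_right (hR n) (norm_nonneg _))) ?_
  simpa using (tendsto_zero_iff_norm_tendsto_zero.1 hG).const_mul 5

omit [NeZero P] in
/-- The projected entries of a boundary value of `DD2` are the entries. -/
theorem proj0_of_commute {m : Type*} [Fintype m] [DecidableEq m]
    {Z : Matrix ((Fin P × Fin Q) × m) ((Fin P × Fin Q) × m) ℂ}
    (h : ∀ E : Matrix (Fin Q) (Fin Q) ℂ,
      Commute Z (((1 : Matrix (Fin P) (Fin P) ℂ) ⊗ₖ E) ⊗ₖ (1 : Matrix m m ℂ)))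
    (α : Ent P Q) (k l : m) :
    proj0 α (fun β => Z (β.1, k) (β.2, l)) = Z (α.1, k) (α.2, l) := by
  obtain ⟨⟨p, a⟩, ⟨p', q⟩⟩ := α
  have := congrArg (fun M => M ((p, a), k) ((p', (0 : Fin Q)), l)) (h (Matrix.single q 0 1))
  simp [Matrix.mul_apply, Fintype.sum_prod_type, Matrix.one_apply, Matrix.single_apply,
    Matrix.kroneckerMap_apply, ite_and, mul_ite, ite_mul, Finset.sum_ite_eq,
    Finset.sum_ite_eq'] at this
  simp only [proj0, red0]
  rw [this]
  by_cases hq : a = q <;> simp [hq, Ne.symm]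

omit [NeZero Q] in
theorem proj1_of_commute {m : Type*} [Fintype m] [DecidableEq m]
    {Z : Matrix ((Fin P × Fin Q) × m) ((Fin P × Fin Q) × m) ℂ}
    (h : ∀ E : Matrix (Fin P) (Fin P) ℂ,
      Commute Z ((E ⊗ₖ (1 : Matrix (Fin Q) (Fin Q) ℂ)) ⊗ₖ (1 : Matrix m m ℂ)))
    (α : Ent P Q) (k l : m) :
    proj1 α (fun β => Z (β.1, k) (β.2, l)) = Z (α.1, k) (α.2, l) := by
  obtain ⟨⟨a, i⟩, ⟨q, j⟩⟩ := α
  have := congrArg (fun M => M ((a, i), k) (((0 : Fin P), j), l)) (h (Matrix.single q 0 1))
  simp [Matrix.mul_apply, Fintype.sum_prod_type, Matrix.one_apply, Matrix.single_apply,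
    Matrix.kroneckerMap_apply, ite_and, mul_ite, ite_mul, Finset.sum_ite_eq,
    Finset.sum_ite_eq'] at this
  simp only [proj1, red1]
  rw [this]
  by_cases hq : a = q <;> simp [hq, Ne.symm]

omit [NeZero P] in
theorem proj0_of_commute' {m : Type*} [Fintype m] [DecidableEq m]
    {Z : Matrix (m × (Fin P × Fin Q)) (m × (Fin P × Fin Q)) ℂ}
    (h : ∀ E : Matrix (Fin Q) (Fin Q) ℂ,
      Commute Z ((1 : Matrix m m ℂ) ⊗ₖ ((1 : Matrix (Fin P) (Fin P) ℂ) ⊗ₖ E)))
    (α : Ent P Q) (k l : m) :
    proj0 α (fun β => Z (k, β.1) (l, β.2)) = Z (k, α.1) (l, α.2) := by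
  obtain ⟨⟨p, a⟩, ⟨p', q⟩⟩ := α
  have := congrArg (fun M => M (k, (p, a)) (l, (p', (0 : Fin Q)))) (h (Matrix.single q 0 1))
  simp [Matrix.mul_apply, Fintype.sum_prod_type, Matrix.one_apply, Matrix.single_apply,
    Matrix.kroneckerMap_apply, ite_and, mul_ite, ite_mul, Finset.sum_ite_eq,
    Finset.sum_ite_eq'] at this
  simp only [proj0, red0]
  rw [this]
  by_cases hq : a = q <;> simp [hq, Ne.symm]

omit [NeZero Q] in
theorem proj1_of_commute' {m : Type*} [Fintype m] [DecidableEq m]
    {Z : Matrix (m × (Fin P × Fin Q)) (m × (Fin P × Fin Q)) ℂ}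
    (h : ∀ E : Matrix (Fin P) (Fin P) ℂ,
      Commute Z ((1 : Matrix m m ℂ) ⊗ₖ (E ⊗ₖ (1 : Matrix (Fin Q) (Fin Q) ℂ))))
    (α : Ent P Q) (k l : m) :
    proj1 α (fun β => Z (k, β.1) (l, β.2)) = Z (k, α.1) (l, α.2) := by
  obtain ⟨⟨a, i⟩, ⟨q, j⟩⟩ := α
  have := congrArg (fun M => M (k, (a, i)) (l, ((0 : Fin P), j))) (h (Matrix.single q 0 1))
  simp [Matrix.mul_apply, Fintype.sum_prod_type, Matrix.one_apply, Matrix.single_apply,
    Matrix.kroneckerMap_apply, ite_and, mul_ite, ite_mul, Finset.sum_ite_eq,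
    Finset.sum_ite_eq'] at this
  simp only [proj1, red1]
  rw [this]
  by_cases hq : a = q <;> simp [hq, Ne.symm]

omit [NeZero P] [NeZero Q] in
theorem inc_mul_apply (a b : DD P Q) (x : II × II) :
    (inc1 a * inc2 b) x = (a.1 x.1) ⊗ₖ (b.1 x.2) := by
  change (a.1 x.1 ⊗ₖ (1 : Mat P Q)) * ((1 : Mat P Q) ⊗ₖ b.1 x.2) = _
  rw [← Matrix.mul_kronecker_mul, mul_one, one_mul]

omit [NeZero P] [NeZero Q] in
theorem inc1_one : inc1 (1 : DD P Q) = 1 :=
  ContinuousMap.ext fun _ => Matrix.one_kronecker_one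

omit [NeZero P] [NeZero Q] in
theorem inc2_one : inc2 (1 : DD P Q) = 1 :=
  ContinuousMap.ext fun _ => Matrix.one_kronecker_one

/-- The entry of `DD2` belonging to a pair of entries. -/
def ent2 (β δ : Ent P Q) : C(II × II, Mat2 P Q) →ₗ[ℂ] C(II × II, ℂ) where
  toFun F := ent F (β.1, δ.1) (β.2, δ.2)
  map_add' _ _ := rfl
  map_smul' _ _ := rfl

omit [NeZero P] [NeZero Q] in
@[simp] theorem ent2_apply (β δ : Ent P Q) (F : C(II × II, Mat2 P Q)) (x : II × II) :
    ent2 β δ F x = F x (β.1, δ.1) (β.2, δ.2) := rfl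

/-- `x ↦ h x • G x`. -/
def scl (h : C(II × II, ℂ)) (G : C(II × II, Mat2 P Q)) : C(II × II, Mat2 P Q) :=
  ⟨fun x => h x • G x, h.continuous.smul G.continuous⟩

/-- The approximation of `F` by products of lifts. -/
def approx (n : ℕ) (F : C(II × II, Mat2 P Q)) : C(II × II, Mat2 P Q) :=
  ∑ β, ∑ δ, scl (ent2 β δ F) (inc1 (liftDD n β) * inc2 (liftDD n δ))

theorem approx_tendsto {F : C(II × II, Mat2 P Q)} (hF : F ∈ DD2 P Q) :
    Tendsto (fun n => approx n F) atTop (𝓝 F) := by
  refine tendsto_of_ent fun ⟨i, k⟩ ⟨j, l⟩ => ?_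
  obtain ⟨h00, h01, h10, h11⟩ := hF
  let Z : Ent P Q → Ent P Q → C(II × II, ℂ) := fun β δ => ent2 β δ F
  let G0 : C(II × II, ℂ) :=
    (if i.2 = j.2 then Z (red0 (i, j)) (k, l) else 0) - Z (i, j) (k, l)
  let G1 : C(II × II, ℂ) :=
    (if i.1 = j.1 then Z (red1 (i, j)) (k, l) else 0) - Z (i, j) (k, l)
  let H0 : Ent P Q → C(II × II, ℂ) := fun β =>
    (if k.2 = l.2 then Z β (red0 (k, l)) else 0) - Z β (k, l)
  let H1 : Ent P Q → C(II × II, ℂ) := fun β =>
    (if k.1 = l.1 then Z β (red1 (k, l)) else 0) - Z β (k, l)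
  have key : ∀ n, ent (approx n F) (i, k) (j, l) = Z (i, j) (k, l) +
      (lowCut n).comp prj1 * G0 + (highCut n).comp prj1 * G1 +
      ∑ β, (coef n (i, j) β).comp prj1 *
        ((lowCut n).comp prj2 * H0 β + (highCut n).comp prj2 * H1 β) := by
    intro n
    ext x
    obtain ⟨s, t⟩ := x
    have e : ∀ β, ∑ δ, Z β δ (s, t) * (coef n (i, j) β s * coef n (k, l) δ t) =
        coef n (i, j) β s * Z β (k, l) (s, t) +
          coef n (i, j) β s * (lowCut n t * H0 β (s, t) + highCut n t * H1 β (s, t)) := by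
      intro β
      have h := sum_coef n (k, l) t (fun δ => Z β δ (s, t))
      have h0 : H0 β (s, t) = proj0 (k, l) (fun δ => Z β δ (s, t)) - Z β (k, l) (s, t) := by
        simp only [H0, proj0]; split <;> simp
      have h1 : H1 β (s, t) = proj1 (k, l) (fun δ => Z β δ (s, t)) - Z β (k, l) (s, t) := by
        simp only [H1, proj1]; split <;> simp
      calc _ = coef n (i, j) β s * ∑ δ, coef n (k, l) δ t * Z β δ (s, t) := by
            rw [Finset.mul_sum]; exact Finset.sum_congr rfl fun δ _ => by ring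
        _ = _ := by rw [h, h0, h1]; ring
    have g0 : G0 (s, t) = proj0 (i, j) (fun β => Z β (k, l) (s, t)) - Z (i, j) (k, l) (s, t) := by
      simp only [G0, proj0]; split <;> simp
    have g1 : G1 (s, t) = proj1 (i, j) (fun β => Z β (k, l) (s, t)) - Z (i, j) (k, l) (s, t) := by
      simp only [G1, proj1]; split <;> simp
    calc (ent (approx n F) (i, k) (j, l)) (s, t)
        = ∑ β, ∑ δ, Z β δ (s, t) * (coef n (i, j) β s * coef n (k, l) δ t) := by
          simp only [ent_apply, approx, ContinuousMap.sum_apply, Matrix.sum_apply]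
          refine Finset.sum_congr rfl fun β _ => Finset.sum_congr rfl fun δ _ => ?_
          change (ent2 β δ F (s, t) •
            (inc1 (liftDD n β) * inc2 (liftDD n δ)) (s, t)) (i, k) (j, l) = _
          rw [inc_mul_apply]
          simp [liftDD, lift_apply, Z]
      _ = _ := by
          simp only [e, Finset.sum_add_distrib]
          rw [sum_coef n (i, j) s (fun β => Z β (k, l) (s, t)), ← g0, ← g1]
          simp
  have t0 : Tendsto (fun n => (lowCut n).comp prj1 * G0) atTop (𝓝 0) := by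
    refine tendsto_lowCut_fst _ fun t => ?_
    have e : G0 (0, t) = proj0 (i, j) (fun β => Z β (k, l) (0, t)) - Z (i, j) (k, l) (0, t) := by
      simp only [G0, proj0]; split <;> simp
    exact e.trans (sub_eq_zero.2 (proj0_of_commute (h00 t) (i, j) k l))
  have t1 : Tendsto (fun n => (highCut n).comp prj1 * G1) atTop (𝓝 0) := by
    refine tendsto_highCut_fst _ fun t => ?_
    have e : G1 (1, t) = proj1 (i, j) (fun β => Z β (k, l) (1, t)) - Z (i, j) (k, l) (1, t) := by
      simp only [G1, proj1]; split <;> simp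
    exact e.trans (sub_eq_zero.2 (proj1_of_commute (h01 t) (i, j) k l))
  have t2 : ∀ β, Tendsto (fun n => (coef n (i, j) β).comp prj1 *
      ((lowCut n).comp prj2 * H0 β + (highCut n).comp prj2 * H1 β)) atTop (𝓝 0) := by
    intro β
    refine tendsto_bdd_mul (fun n => (ContinuousMap.norm_le _ (by norm_num)).2 fun x =>
      ((coef n (i, j) β).norm_coe_le_norm x.1).trans (norm_coef_le n _ _)) ?_
    rw [← add_zero (0 : C(II × II, ℂ))]
    refine Tendsto.add (tendsto_lowCut_snd _ fun s => ?_) (tendsto_highCut_snd _ fun s => ?_)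
    · have e : H0 β (s, 0) = proj0 (k, l) (fun δ => Z β δ (s, 0)) - Z β (k, l) (s, 0) := by
        simp only [H0, proj0]; split <;> simp
      exact e.trans (sub_eq_zero.2 (proj0_of_commute' (h10 s) (k, l) β.1 β.2))
    · have e : H1 β (s, 1) = proj1 (k, l) (fun δ => Z β δ (s, 1)) - Z β (k, l) (s, 1) := by
        simp only [H1, proj1]; split <;> simp
      exact e.trans (sub_eq_zero.2 (proj1_of_commute' (h11 s) (k, l) β.1 β.2))
  simp only [key]
  have h := (((tendsto_const_nhds (x := Z (i, j) (k, l))).add t0).add t1).add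
    (tendsto_finsetSum _ fun β (_ : β ∈ Finset.univ) => t2 β)
  simp only [add_zero, Finset.sum_const_zero] at h
  exact h

theorem liftDD_tendsto (a : DD P Q) :
    Tendsto (fun n => ∑ β, sc (ent a.1 β.1 β.2) * liftDD n β) atTop (𝓝 a) := by
  rw [tendsto_subtype_rng]
  refine tendsto_of_ent fun i j => ?_
  let ι2 : C(II, II × II) := ⟨fun s => (s, 0), by fun_prop⟩
  let A : Ent P Q → C(II × II, ℂ) := fun β => (ent a.1 β.1 β.2).comp prj1
  let G0 : C(II × II, ℂ) := (if i.2 = j.2 then A (red0 (i, j)) else 0) - A (i, j)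
  let G1 : C(II × II, ℂ) := (if i.1 = j.1 then A (red1 (i, j)) else 0) - A (i, j)
  have key : ∀ n, ent ((∑ β, sc (ent a.1 β.1 β.2) * liftDD n β : DD P Q) : C(II, Mat P Q)) i j =
      (A (i, j) + (lowCut n).comp prj1 * G0 + (highCut n).comp prj1 * G1).comp ι2 := by
    intro n
    ext s
    have g0 : G0 (s, 0) = proj0 (i, j) (fun β => A β (s, 0)) - A (i, j) (s, 0) := by
      simp only [G0, proj0]; split <;> simp
    have g1 : G1 (s, 0) = proj1 (i, j) (fun β => A β (s, 0)) - A (i, j) (s, 0) := by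
      simp only [G1, proj1]; split <;> simp
    have h := sum_coef n (i, j) s (fun β => A β (s, 0))
    rw [← g0, ← g1] at h
    simp only [ent_apply, AddSubmonoidClass.coe_finsetSum, ContinuousMap.sum_apply,
      Matrix.sum_apply]
    refine Eq.trans ?_ (h.trans (by simp [ι2]))
    refine Finset.sum_congr rfl fun β _ => ?_
    simp [liftDD, lift_apply, A, mul_comm]
  simp only [key]
  obtain ⟨⟨A0, hA⟩, B, hB⟩ := a.2
  have t0 : Tendsto (fun n => (lowCut n).comp prj1 * G0) atTop (𝓝 0) := by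
    refine tendsto_lowCut_fst _ fun t => ?_
    simp only [G0, A]
    by_cases hd : i.2 = j.2 <;>
      simp [hd, red0, hA, Matrix.kroneckerMap_apply, Matrix.one_apply]
  have t1 : Tendsto (fun n => (highCut n).comp prj1 * G1) atTop (𝓝 0) := by
    refine tendsto_highCut_fst _ fun t => ?_
    simp only [G1, A]
    by_cases hd : i.1 = j.1 <;>
      simp [hd, red1, hB, Matrix.kroneckerMap_apply, Matrix.one_apply]
  have h := ((ContinuousMap.continuous_precomp ι2).tendsto _).comp
    (((tendsto_const_nhds (x := A (i, j))).add t0).add t1)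
  rw [show ent a.1 i j = (A (i, j)).comp ι2 from ContinuousMap.ext fun _ => rfl]
  simpa [Function.comp_def] using h

/-! ### The homomorphism of `C([0,1]²)` -/

variable {E : Type*} [CStarAlgebra E]

omit [NeZero P] [NeZero Q] in
/-- Two commuting homomorphisms of `C[0,1]` give one of `C([0,1]²)`. -/
theorem exists_theta (σ₁ σ₂ : C(II, ℂ) →⋆ₐ[ℂ] E) (hc : ∀ f g, Commute (σ₁ f) (σ₂ g)) :
    ∃ θ : C(II × II, ℂ) →⋆ₐ[ℂ] E, ∀ f, θ (f.comp prj1) = σ₁ f ∧ θ (f.comp prj2) = σ₂ f := by
  set s : Set E := Set.range σ₁ ∪ Set.range σ₂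
  have hs : ∀ a ∈ s, ∀ b ∈ s, a * b = b * a := by
    rintro a (⟨f, rfl⟩ | ⟨f, rfl⟩) b (⟨g, rfl⟩ | ⟨g, rfl⟩)
    · rw [← map_mul, ← map_mul, mul_comm]
    · exact hc f g
    · exact (hc g f).symm
    · rw [← map_mul, ← map_mul, mul_comm]
  have hs' : ∀ a ∈ s, ∀ b ∈ s, a * star b = star b * a := by
    rintro a ha b (⟨g, rfl⟩ | ⟨g, rfl⟩) <;> rw [← map_star]
    · exact hs a ha _ (Or.inl ⟨_, rfl⟩)
    · exact hs a ha _ (Or.inr ⟨_, rfl⟩)
  let A0 : StarSubalgebra ℂ E := StarAlgebra.adjoin ℂ s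
  letI : CommRing A0 := StarAlgebra.adjoinCommRingOfComm ℂ hs hs'
  let D : StarSubalgebra ℂ E := A0.topologicalClosure
  haveI : IsClosed (D : Set E) := StarSubalgebra.isClosed_topologicalClosure A0
  letI : CStarAlgebra D := StarSubalgebra.cstarAlgebra D
  letI : CommCStarAlgebra D :=
    { (inferInstance : CStarAlgebra D) with
      mul_comm := (StarSubalgebra.commRingTopologicalClosure A0
        fun x y : A0 => mul_comm x y).mul_comm }
  have h1 : ∀ f, σ₁ f ∈ D := fun f =>
    A0.le_topologicalClosure (StarAlgebra.subset_adjoin ℂ s (Or.inl ⟨f, rfl⟩))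
  have h2 : ∀ f, σ₂ f ∈ D := fun f =>
    A0.le_topologicalClosure (StarAlgebra.subset_adjoin ℂ s (Or.inr ⟨f, rfl⟩))
  let τ₁ : C(II, ℂ) →⋆ₐ[ℂ] D := σ₁.codRestrict D h1
  let τ₂ : C(II, ℂ) →⋆ₐ[ℂ] D := σ₂.codRestrict D h2
  let ev := WeakDual.CharacterSpace.homeoEval II ℂ
  let Φ : C(WeakDual.characterSpace ℂ D, II × II) :=
    ((ev.symm : C(_, II)).comp (WeakDual.CharacterSpace.compContinuousMap τ₁)).prodMk
      ((ev.symm : C(_, II)).comp (WeakDual.CharacterSpace.compContinuousMap τ₂))
  have key : ∀ (τ : C(II, ℂ) →⋆ₐ[ℂ] D) (f : C(II, ℂ)) (χ : WeakDual.characterSpace ℂ D),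
      f (ev.symm (WeakDual.CharacterSpace.compContinuousMap τ χ)) = χ (τ f) := by
    intro τ f χ
    exact DFunLike.congr_fun
      (ev.apply_symm_apply (WeakDual.CharacterSpace.compContinuousMap τ χ)) f
  refine ⟨D.subtype.comp ((gelfandStarTransform D).symm.toStarAlgHom.comp
    (Φ.compStarAlgHom' ℂ ℂ)), fun f => ?_⟩
  have e1 : Φ.compStarAlgHom' ℂ ℂ (f.comp prj1) = gelfandStarTransform D (τ₁ f) :=
    ContinuousMap.ext fun χ => key τ₁ f χ
  have e2 : Φ.compStarAlgHom' ℂ ℂ (f.comp prj2) = gelfandStarTransform D (τ₂ f) :=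
    ContinuousMap.ext fun χ => key τ₂ f χ
  constructor
  · change (((gelfandStarTransform D).symm (Φ.compStarAlgHom' ℂ ℂ (f.comp prj1)) : D) : E) = _
    rw [e1, StarAlgEquiv.symm_apply_apply]
    rfl
  · change (((gelfandStarTransform D).symm (Φ.compStarAlgHom' ℂ ℂ (f.comp prj2)) : D) : E) = _
    rw [e2, StarAlgEquiv.symm_apply_apply]
    rfl

/-! ### The algebraic tensor product inside the functions -/

/-- The elementary tensors. -/
def tens (a b : DD P Q) : C(II × II, Mat2 P Q) := inc1 a * inc2 b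

variable (P Q) in
/-- The span of the elementary tensors. -/
def elem : Submodule ℂ C(II × II, Mat2 P Q) :=
  Submodule.span ℂ (Set.range fun ab : DD P Q × DD P Q => tens ab.1 ab.2)

omit [NeZero P] [NeZero Q] in
theorem tens_mem (a b : DD P Q) : tens a b ∈ elem P Q :=
  Submodule.subset_span ⟨(a, b), rfl⟩

omit [NeZero P] [NeZero Q] in
theorem tens_mul (a b a' b' : DD P Q) : tens a b * tens a' b' = tens (a * a') (b * b') := by
  ext x : 1
  change (inc1 a * inc2 b) x * (inc1 a' * inc2 b') x = (inc1 (a * a') * inc2 (b * b')) x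
  rw [inc_mul_apply, inc_mul_apply, inc_mul_apply, ← Matrix.mul_kronecker_mul]
  rfl

omit [NeZero P] [NeZero Q] in
theorem tens_star (a b : DD P Q) : star (tens a b) = tens (star a) (star b) := by
  ext x : 1
  change star ((inc1 a * inc2 b) x) = (inc1 (star a) * inc2 (star b)) x
  rw [inc_mul_apply, inc_mul_apply, Matrix.star_eq_conjTranspose, Matrix.conjTranspose_kronecker]
  rfl

omit [NeZero P] [NeZero Q] in
theorem tens_one : tens (1 : DD P Q) 1 = 1 := by rw [tens, inc1_one, inc2_one, mul_one]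

omit [NeZero P] [NeZero Q] in
theorem scl_tens_fst (p : C(II, ℂ)) (a b : DD P Q) :
    scl (p.comp prj1) (tens a b) = tens (sc p * a) b := by
  ext x : 1
  change p x.1 • (inc1 a * inc2 b) x = (inc1 (sc p * a) * inc2 b : C(II × II, Mat2 P Q)) x
  rw [inc_mul_apply, inc_mul_apply, ← Matrix.smul_kronecker]
  congr 1
  change p x.1 • a.1 x.1 = (sc p : DD P Q).1 x.1 * a.1 x.1
  rw [sc_apply, smul_mul_assoc, one_mul]

omit [NeZero P] [NeZero Q] in
theorem scl_tens_snd (p : C(II, ℂ)) (a b : DD P Q) :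
    scl (p.comp prj2) (tens a b) = tens a (sc p * b) := by
  ext x : 1
  change p x.2 • (inc1 a * inc2 b) x = (inc1 a * inc2 (sc p * b) : C(II × II, Mat2 P Q)) x
  rw [inc_mul_apply, inc_mul_apply, ← Matrix.kronecker_smul]
  congr 1
  change p x.2 • b.1 x.2 = (sc p : DD P Q).1 x.2 * b.1 x.2
  rw [sc_apply, smul_mul_assoc, one_mul]

variable (P Q) in
/-- Multiplication by a scalar function, linear in both arguments. -/
def sclC (h : C(II × II, ℂ)) : C(II × II, Mat2 P Q) →L[ℂ] C(II × II, Mat2 P Q) :=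
  ContinuousLinearMap.mul ℂ C(II × II, Mat2 P Q)
    ⟨fun x => h x • (1 : Mat2 P Q), h.continuous.smul continuous_const⟩

omit [NeZero P] [NeZero Q] in
theorem sclC_apply (h : C(II × II, ℂ)) (G : C(II × II, Mat2 P Q)) : sclC P Q h G = scl h G := by
  ext x : 1
  change (h x • (1 : Mat2 P Q)) * G x = h x • G x
  rw [smul_mul_assoc, one_mul]

omit [NeZero P] [NeZero Q] in
theorem scl_mem_closure (h : C(II × II, ℂ)) {G : C(II × II, Mat2 P Q)}
    (hG : G ∈ (elem P Q).topologicalClosure) : scl h G ∈ (elem P Q).topologicalClosure := by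
  let C := (elem P Q).topologicalClosure
  let K : Set C(II × II, ℂ) := {h | ∀ G ∈ C, scl h G ∈ C}
  have hC : IsClosed (C : Set C(II × II, Mat2 P Q)) := Submodule.isClosed_topologicalClosure _
  have hgen : ∀ h : C(II × II, ℂ), (∀ a b, scl h (tens a b) ∈ C) → h ∈ K := by
    intro h hh G hG
    rw [← sclC_apply]
    have hmaps : ∀ H ∈ elem P Q, sclC P Q h H ∈ C := by
      intro H hH
      induction hH using Submodule.span_induction with
      | mem x hx =>
        obtain ⟨⟨a, b⟩, rfl⟩ := hx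
        rw [sclC_apply]
        exact hh a b
      | zero => simp
      | add x y _ _ hx hy => rw [map_add]; exact C.add_mem hx hy
      | smul c x _ hx => rw [map_smul]; exact C.smul_mem c hx
    have hsub : closure (elem P Q : Set C(II × II, Mat2 P Q)) ⊆
        sclC P Q h ⁻¹' (C : Set C(II × II, Mat2 P Q)) :=
      closure_minimal hmaps (hC.preimage (sclC P Q h).continuous)
    exact hsub hG
  let L : StarSubalgebra ℂ C(II × II, ℂ) :=
    { carrier := {h | h ∈ K ∧ star h ∈ K}
      mul_mem' := by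
        intro f g hf hg
        refine ⟨fun G hG => ?_, fun G hG => ?_⟩
        · have : scl (f * g) G = scl f (scl g G) :=
            ContinuousMap.ext fun x => mul_smul (f x) (g x) (G x)
          rw [this]; exact hf.1 _ (hg.1 G hG)
        · have : scl (star (f * g)) G = scl (star f) (scl (star g) G) :=
            ContinuousMap.ext fun x => by
              simp [scl, smul_smul, mul_comm]
          rw [this]; exact hf.2 _ (hg.2 G hG)
      add_mem' := by
        intro f g hf hg
        refine ⟨fun G hG => ?_, fun G hG => ?_⟩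
        · have : scl (f + g) G = scl f G + scl g G :=
            ContinuousMap.ext fun x => add_smul (f x) (g x) (G x)
          rw [this]; exact C.add_mem (hf.1 G hG) (hg.1 G hG)
        · have : scl (star (f + g)) G = scl (star f) G + scl (star g) G :=
            ContinuousMap.ext fun x => by simp [scl, add_smul]
          rw [this]; exact C.add_mem (hf.2 G hG) (hg.2 G hG)
      algebraMap_mem' := fun c => by
        refine ⟨fun G hG => ?_, fun G hG => ?_⟩
        · have : scl (algebraMap ℂ C(II × II, ℂ) c) G = c • G :=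
            ContinuousMap.ext fun x => rfl
          rw [this]; exact C.smul_mem c hG
        · have : scl (star (algebraMap ℂ C(II × II, ℂ) c)) G = star c • G :=
            ContinuousMap.ext fun x => rfl
          rw [this]; exact C.smul_mem _ hG
      star_mem' := fun {f} hf => ⟨hf.2, by rw [star_star]; exact hf.1⟩ }
  have hL1 : ∀ p : C(II, ℂ), p.comp prj1 ∈ L := fun p =>
    ⟨hgen _ fun a b => by rw [scl_tens_fst]; exact Submodule.le_topologicalClosure _ (tens_mem _ _),
      hgen _ fun a b => by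
        rw [show star (p.comp prj1) = (star p).comp prj1 from rfl, scl_tens_fst]
        exact Submodule.le_topologicalClosure _ (tens_mem _ _)⟩
  have hL2 : ∀ p : C(II, ℂ), p.comp prj2 ∈ L := fun p =>
    ⟨hgen _ fun a b => by rw [scl_tens_snd]; exact Submodule.le_topologicalClosure _ (tens_mem _ _),
      hgen _ fun a b => by
        rw [show star (p.comp prj2) = (star p).comp prj2 from rfl, scl_tens_snd]
        exact Submodule.le_topologicalClosure _ (tens_mem _ _)⟩
  have hsep : L.SeparatesPoints := by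
    intro x y hxy
    let c : C(II, ℂ) := ⟨fun t => ((t : ℝ) : ℂ), by fun_prop⟩
    rcases not_and_or.1 (fun h => hxy (Prod.ext_iff.2 h)) with h | h
    · exact ⟨_, ⟨c.comp prj1, hL1 c, rfl⟩, fun e => h (Subtype.ext (Complex.ofReal_injective e))⟩
    · exact ⟨_, ⟨c.comp prj2, hL2 c, rfl⟩, fun e => h (Subtype.ext (Complex.ofReal_injective e))⟩
  have hK : IsClosed K := by
    have : K = ⋂ G ∈ C, (fun h => scl h G) ⁻¹' (C : Set C(II × II, Mat2 P Q)) := by
      ext; simp [K]
    rw [this]
    refine isClosed_biInter fun G _ => hC.preimage ?_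
    refine ContinuousMap.continuous_of_continuous_uncurry _ ?_
    have e : Continuous fun q : C(II × II, ℂ) × (II × II) => q.1 q.2 • G q.2 :=
      (ContinuousEval.continuous_eval (F := C(II × II, ℂ))).smul
        (G.continuous.comp continuous_snd)
    exact e
  have htop := ContinuousMap.starSubalgebra_topologicalClosure_eq_top_of_separatesPoints L hsep
  have hh : h ∈ closure (L : Set C(II × II, ℂ)) := by
    rw [← StarSubalgebra.topologicalClosure_coe, htop]
    trivial
  exact (closure_minimal (fun f hf => hf.1) hK hh) G hG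

theorem mem_closure {F : C(II × II, Mat2 P Q)} (hF : F ∈ DD2 P Q) :
    F ∈ closure (elem P Q : Set C(II × II, Mat2 P Q)) := by
  rw [← Submodule.topologicalClosure_coe]
  refine (Submodule.isClosed_topologicalClosure _).mem_of_tendsto (approx_tendsto hF)
    (Filter.Eventually.of_forall fun n => ?_)
  exact Submodule.sum_mem _ fun β _ => Submodule.sum_mem _ fun δ _ =>
    scl_mem_closure _ (Submodule.le_topologicalClosure _ (tens_mem _ _))

omit [NeZero P] [NeZero Q] in
theorem mul_mem_elem {F G : C(II × II, Mat2 P Q)} (hF : F ∈ elem P Q) (hG : G ∈ elem P Q) :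
    F * G ∈ elem P Q := by
  induction hF using Submodule.span_induction with
  | mem x hx =>
    obtain ⟨⟨a, b⟩, rfl⟩ := hx
    induction hG using Submodule.span_induction with
    | mem y hy =>
      obtain ⟨⟨a', b'⟩, rfl⟩ := hy
      rw [tens_mul]
      exact tens_mem _ _
    | zero => simp
    | add y z _ _ hy hz => rw [mul_add]; exact add_mem hy hz
    | smul c y _ hy => rw [mul_smul_comm]; exact (elem P Q).smul_mem c hy
  | zero => simp
  | add x y _ _ hx hy => rw [add_mul]; exact add_mem hx hy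
  | smul c x _ hx => rw [smul_mul_assoc]; exact (elem P Q).smul_mem c hx

omit [NeZero P] [NeZero Q] in
theorem star_mem_elem {F : C(II × II, Mat2 P Q)} (hF : F ∈ elem P Q) : star F ∈ elem P Q := by
  induction hF using Submodule.span_induction with
  | mem x hx => obtain ⟨⟨a, b⟩, rfl⟩ := hx; rw [tens_star]; exact tens_mem _ _
  | zero => simp
  | add x y _ _ hx hy => rw [star_add]; exact add_mem hx hy
  | smul c x _ hx => rw [star_smul]; exact (elem P Q).smul_mem _ hx

/-! ### The homomorphism -/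

theorem univ (ρ₁ ρ₂ : DD P Q →⋆ₐ[ℂ] E) (hρ : ∀ a b, Commute (ρ₁ a) (ρ₂ b)) :
    ∃ π : DD2 P Q →⋆ₐ[ℂ] E, ∀ (f : DD P Q) (g : DD2 P Q),
      (g.1 = inc1 f → π g = ρ₁ f) ∧ (g.1 = inc2 f → π g = ρ₂ f) := by
  haveI : IsClosed (DD P Q : Set C(II, Mat P Q)) := isClosed_DD
  letI : CStarAlgebra (DD P Q) := StarSubalgebra.cstarAlgebra (DD P Q)
  have hb : ∀ (ρ : DD P Q →⋆ₐ[ℂ] E) (a : DD P Q), ‖ρ a‖ ≤ ‖a.1‖ := fun ρ a =>
    NonUnitalStarAlgHom.norm_apply_le ρ a
  have hcont : ∀ ρ : DD P Q →⋆ₐ[ℂ] E, Continuous ρ := fun ρ =>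
    AddMonoidHomClass.continuous_of_bound ρ 1 fun a => by
      rw [one_mul]; exact hb ρ a
  obtain ⟨θ, hθ⟩ := exists_theta (ρ₁.comp sc) (ρ₂.comp sc) fun f g => hρ _ _
  have hθn : ∀ h, ‖θ h‖ ≤ ‖h‖ := fun h => NonUnitalStarAlgHom.norm_apply_le θ h
  let S : ℕ → C(II × II, Mat2 P Q) →ₗ[ℂ] E := fun n =>
    ∑ β, ∑ δ, (LinearMap.mulRight ℂ (ρ₁ (liftDD n β) * ρ₂ (liftDD n δ))).comp
      (θ.toAlgHom.toLinearMap.comp (ent2 β δ))
  have hS : ∀ n F, S n F =
      ∑ β, ∑ δ, θ (ent2 β δ F) * (ρ₁ (liftDD n β) * ρ₂ (liftDD n δ)) := by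
    intro n F
    simp [S, mul_assoc]
  obtain ⟨K, hK0, hK⟩ : ∃ K, 0 ≤ K ∧ ∀ n F, ‖S n F‖ ≤ K * ‖F‖ := by
    let c : ℝ := ∑ α : Ent P Q, 5 * ‖unit α‖
    let T : Ent P Q → Ent P Q → C(II × II, Mat2 P Q) →L[ℂ] C(II × II, ℂ) := fun β δ =>
      ContinuousLinearMap.compLeftContinuous ℂ (II × II)
        (Matrix.entryLinearMap ℂ ℂ (β.1, δ.1) (β.2, δ.2)).toContinuousLinearMap
    refine ⟨∑ β, ∑ δ, ‖T β δ‖ * (c * c), by positivity, fun n F => ?_⟩
    rw [hS, Finset.sum_mul]
    refine (norm_sum_le _ _).trans (Finset.sum_le_sum fun β _ => ?_)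
    rw [Finset.sum_mul]
    refine (norm_sum_le _ _).trans (Finset.sum_le_sum fun δ _ => ?_)
    have h1 : ‖θ (ent2 β δ F)‖ ≤ ‖T β δ‖ * ‖F‖ :=
      (hθn _).trans ((T β δ).le_opNorm F)
    have h2 : ∀ (ρ : DD P Q →⋆ₐ[ℂ] E) γ, ‖ρ (liftDD n γ)‖ ≤ c := fun ρ γ =>
      (hb ρ _).trans (norm_lift_le n γ)
    calc _ ≤ (‖T β δ‖ * ‖F‖) * (c * c) :=
          (norm_mul_le _ _).trans (mul_le_mul h1 ((norm_mul_le _ _).trans
            (mul_le_mul (h2 ρ₁ β) (h2 ρ₂ δ) (norm_nonneg _) (by positivity)))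
            (norm_nonneg _) (by positivity))
      _ = _ := by ring
  -- on elementary tensors
  have hgen : ∀ a b, Tendsto (fun n => S n (tens a b)) atTop (𝓝 (ρ₁ a * ρ₂ b)) := by
    intro a b
    have h := (((hcont ρ₁).tendsto a).comp (liftDD_tendsto a)).mul
      (((hcont ρ₂).tendsto b).comp (liftDD_tendsto b))
    refine h.congr fun n => ?_
    simp only [Function.comp_apply, hS, map_sum, map_mul, Finset.sum_mul_sum]
    refine Finset.sum_congr rfl fun β _ => Finset.sum_congr rfl fun δ _ => ?_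
    have e : ent2 β δ (tens a b) =
        (ent a.1 β.1 β.2).comp prj1 * (ent b.1 δ.1 δ.2).comp prj2 := by
      ext x
      rw [ent2_apply, tens, inc_mul_apply]
      rfl
    rw [e, map_mul, (hθ _).1, (hθ _).2]
    have hc' : Commute (ρ₁ (liftDD n β)) (ρ₂ (sc (ent b.1 δ.1 δ.2))) := hρ _ _
    change _ = ρ₁ (sc (ent a.1 β.1 β.2)) * ρ₂ (sc (ent b.1 δ.1 δ.2)) *
      (ρ₁ (liftDD n β) * ρ₂ (liftDD n δ))
    simp only [mul_assoc]
    rw [← mul_assoc (ρ₁ (liftDD n β)), hc'.eq, mul_assoc]
  have helem : ∀ F ∈ elem P Q, ∃ y, Tendsto (fun n => S n F) atTop (𝓝 y) := by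
    intro F hF
    induction hF using Submodule.span_induction with
    | mem x hx => obtain ⟨⟨a, b⟩, rfl⟩ := hx; exact ⟨_, hgen a b⟩
    | zero => exact ⟨0, by simp⟩
    | add x y _ _ hx hy =>
      obtain ⟨u, hu⟩ := hx
      obtain ⟨v, hv⟩ := hy
      exact ⟨u + v, by simpa using hu.add hv⟩
    | smul c x _ hx =>
      obtain ⟨u, hu⟩ := hx
      exact ⟨c • u, by simpa using hu.const_smul c⟩
  let T : C(II × II, Mat2 P Q) → E := fun F => limUnder atTop fun n => S n F
  have hT : ∀ F ∈ closure (elem P Q : Set C(II × II, Mat2 P Q)),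
      Tendsto (fun n => S n F) atTop (𝓝 (T F)) := by
    intro F hF
    refine CauchySeq.tendsto_limUnder (Metric.cauchySeq_iff'.2 fun ε hε => ?_)
    obtain ⟨G, hG, hd⟩ := Metric.mem_closure_iff.1 hF (ε / (3 * (K + 1))) (by positivity)
    obtain ⟨y, hy⟩ := helem G hG
    obtain ⟨N, hN⟩ := Metric.cauchySeq_iff'.1 hy.cauchySeq (ε / 3) (by positivity)
    refine ⟨N, fun n hn => ?_⟩
    have hbd : ∀ m, dist (S m F) (S m G) ≤ ε / 3 := fun m => by
      rw [dist_eq_norm, ← map_sub]
      calc _ ≤ K * ‖F - G‖ := hK m _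
        _ ≤ (K + 1) * (ε / (3 * (K + 1))) := by
          rw [← dist_eq_norm]
          exact mul_le_mul (by linarith) hd.le dist_nonneg (by linarith)
        _ = ε / 3 := by field_simp
    have := dist_triangle4 (S n F) (S n G) (S N G) (S N F)
    have := hN n hn
    have := hbd n
    have := hbd N
    rw [dist_comm (S N G)] at *
    linarith
  have hTlip : ∀ F ∈ closure (elem P Q : Set C(II × II, Mat2 P Q)), ∀ G ∈
      closure (elem P Q : Set C(II × II, Mat2 P Q)), ‖T F - T G‖ ≤ K * ‖F - G‖ := by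
    intro F hF G hG
    refine le_of_tendsto ((hT F hF).sub (hT G hG)).norm (Filter.Eventually.of_forall fun n => ?_)
    rw [← map_sub]
    exact hK n _
  have hTtens : ∀ a b, T (tens a b) = ρ₁ a * ρ₂ b := fun a b =>
    tendsto_nhds_unique (hT _ (subset_closure (tens_mem a b))) (hgen a b)
  have hTadd : ∀ F ∈ closure (elem P Q : Set C(II × II, Mat2 P Q)), ∀ G ∈
      closure (elem P Q : Set C(II × II, Mat2 P Q)), T (F + G) = T F + T G := by
    intro F hF G hG
    have hFG : F + G ∈ closure (elem P Q : Set C(II × II, Mat2 P Q)) := by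
      rw [← Submodule.topologicalClosure_coe] at hF hG ⊢
      exact add_mem hF hG
    exact tendsto_nhds_unique (hT _ hFG) (by simpa using (hT F hF).add (hT G hG))
  have hTsmul : ∀ (c : ℂ), ∀ F ∈ closure (elem P Q : Set C(II × II, Mat2 P Q)),
      T (c • F) = c • T F := by
    intro c F hF
    have hcF : c • F ∈ closure (elem P Q : Set C(II × II, Mat2 P Q)) := by
      rw [← Submodule.topologicalClosure_coe] at hF ⊢
      exact Submodule.smul_mem _ c hF
    exact tendsto_nhds_unique (hT _ hcF) (by simpa using (hT F hF).const_smul c)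
  have hT0 : T 0 = 0 := by
    rw [← zero_smul ℂ (0 : C(II × II, Mat2 P Q)), hTsmul 0 0 (subset_closure (zero_mem _)),
      zero_smul]
  have hmul0 : ∀ F ∈ elem P Q, ∀ G ∈ elem P Q, T (F * G) = T F * T G := by
    intro F hF G hG
    induction hF using Submodule.span_induction with
    | mem x hx =>
      obtain ⟨⟨a, b⟩, rfl⟩ := hx
      induction hG using Submodule.span_induction with
      | mem y hy =>
        obtain ⟨⟨a', b'⟩, rfl⟩ := hy
        rw [tens_mul, hTtens, hTtens, hTtens, map_mul, map_mul]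
        simp only [mul_assoc]
        rw [← mul_assoc (ρ₁ a'), (hρ a' b).eq, mul_assoc]
      | zero => simp [hT0]
      | add y z hy' hz' hy hz =>
        rw [mul_add, hTadd _ (subset_closure (mul_mem_elem (tens_mem a b) hy'))
          _ (subset_closure (mul_mem_elem (tens_mem a b) hz')),
          hTadd _ (subset_closure hy') _ (subset_closure hz'), hy, hz, mul_add]
      | smul c y hy' hy =>
        rw [mul_smul_comm, hTsmul _ _ (subset_closure (mul_mem_elem (tens_mem a b) hy')),
          hTsmul _ _ (subset_closure hy'), hy, mul_smul_comm]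
    | zero => simp [hT0]
    | add x y hx' hy' hx hy =>
      rw [add_mul, hTadd _ (subset_closure (mul_mem_elem hx' hG))
        _ (subset_closure (mul_mem_elem hy' hG)),
        hTadd _ (subset_closure hx') _ (subset_closure hy'), hx, hy, add_mul]
    | smul c x hx' hx =>
      rw [smul_mul_assoc, hTsmul _ _ (subset_closure (mul_mem_elem hx' hG)),
        hTsmul _ _ (subset_closure hx'), hx, smul_mul_assoc]
  have hstar0 : ∀ F ∈ elem P Q, T (star F) = star (T F) := by
    intro F hF
    induction hF using Submodule.span_induction with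
    | mem x hx =>
      obtain ⟨⟨a, b⟩, rfl⟩ := hx
      rw [tens_star, hTtens, hTtens, star_mul, map_star, map_star]
      rw [← map_star ρ₁, ← map_star ρ₂]
      exact (hρ _ _).eq
    | zero => simp [hT0]
    | add x y hx' hy' hx hy =>
      rw [star_add, hTadd _ (subset_closure (star_mem_elem hx'))
        _ (subset_closure (star_mem_elem hy')),
        hTadd _ (subset_closure hx') _ (subset_closure hy'), hx, hy, star_add]
    | smul c x hx' hx =>
      rw [star_smul, hTsmul _ _ (subset_closure (star_mem_elem hx')),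
        hTsmul _ _ (subset_closure hx'), hx, star_smul]
  have hTcont : ContinuousOn T (closure (elem P Q : Set C(II × II, Mat2 P Q))) :=
    (LipschitzOnWith.of_dist_le_mul (K := ⟨K, hK0⟩) fun F hF G hG => by
      rw [dist_eq_norm, dist_eq_norm]; exact hTlip F hF G hG).continuousOn
  have hmul : ∀ F ∈ closure (elem P Q : Set C(II × II, Mat2 P Q)),
      ∀ G ∈ closure (elem P Q : Set C(II × II, Mat2 P Q)), T (F * G) = T F * T G := by
    intro F hF G hG
    obtain ⟨f, hf, hfl⟩ := mem_closure_iff_seq_limit.1 hF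
    obtain ⟨g, hg, hgl⟩ := mem_closure_iff_seq_limit.1 hG
    have hl : ∀ {u : ℕ → C(II × II, Mat2 P Q)} {U : C(II × II, Mat2 P Q)},
        (∀ n, u n ∈ elem P Q) → Tendsto u atTop (𝓝 U) →
          Tendsto (fun n => T (u n)) atTop (𝓝 (T U)) := by
      intro u U hu hl
      exact (hTcont U (mem_closure_of_tendsto hl (Filter.Eventually.of_forall hu))).tendsto.comp
        (tendsto_nhdsWithin_iff.2 ⟨hl, Filter.Eventually.of_forall fun n => subset_closure (hu n)⟩)
    refine tendsto_nhds_unique (hl (fun n => mul_mem_elem (hf n) (hg n)) (hfl.mul hgl)) ?_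
    exact ((hl hf hfl).mul (hl hg hgl)).congr fun n => (hmul0 _ (hf n) _ (hg n)).symm
  have hstar : ∀ F ∈ closure (elem P Q : Set C(II × II, Mat2 P Q)), T (star F) = star (T F) := by
    intro F hF
    obtain ⟨f, hf, hfl⟩ := mem_closure_iff_seq_limit.1 hF
    have hl : ∀ {u : ℕ → C(II × II, Mat2 P Q)} {U : C(II × II, Mat2 P Q)},
        (∀ n, u n ∈ elem P Q) → Tendsto u atTop (𝓝 U) →
          Tendsto (fun n => T (u n)) atTop (𝓝 (T U)) := by
      intro u U hu hl
      exact (hTcont U (mem_closure_of_tendsto hl (Filter.Eventually.of_forall hu))).tendsto.comp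
        (tendsto_nhdsWithin_iff.2 ⟨hl, Filter.Eventually.of_forall fun n => subset_closure (hu n)⟩)
    refine tendsto_nhds_unique (hl (fun n => star_mem_elem (hf n)) hfl.star) ?_
    exact ((hl hf hfl).star).congr fun n => (hstar0 _ (hf n)).symm
  have h1 : T 1 = 1 := by rw [← tens_one, hTtens, map_one, map_one, mul_one]
  refine ⟨{
    toFun := fun g => T g.1
    map_one' := h1
    map_mul' := fun f g => hmul _ (mem_closure f.2) _ (mem_closure g.2)
    map_zero' := hT0
    map_add' := fun f g => hTadd _ (mem_closure f.2) _ (mem_closure g.2)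
    commutes' := fun c => by
      change T (algebraMap ℂ C(II × II, Mat2 P Q) c) = _
      rw [Algebra.algebraMap_eq_smul_one, hTsmul c 1 (mem_closure (DD2 P Q).one_mem), h1,
        Algebra.algebraMap_eq_smul_one]
    map_star' := fun f => hstar _ (mem_closure f.2) }, fun f g => ⟨fun e => ?_, fun e => ?_⟩⟩
  · change T g.1 = _
    rw [e, ← mul_one (inc1 f), ← inc2_one, ← tens, hTtens, map_one, mul_one]
  · change T g.1 = _
    rw [e, ← one_mul (inc2 f), ← inc1_one, ← tens, hTtens, map_one, one_mul]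

end

end Univ

/-- Module U: two commuting copies of `Z(P,Q)` give a homomorphism of `Z(P,Q) ⊗ Z(P,Q)`. -/
theorem univ : UnivStmt := fun P Q hP hQ E _ ρ₁ ρ₂ h => by
  haveI : NeZero P := ⟨hP.ne'⟩
  haveI : NeZero Q := ⟨hQ.ne'⟩
  exact Univ.univ ρ₁ ρ₂ h

end Vale.P101.ZS
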