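import Vale.Agent.P101.ZStab.Defs
import Vale.Agent.P101.Main

/-!
# P101 `Z`-stability: statements of the modules

Every `…Stmt` is proved in the module named in its docstring.
-/

open scoped Kronecker Matrix.Norms.L2Operator

namespace Vale.P101.ZS

noncomputable section

/-- The unit interval. -/
abbrev II := Set.Icc (0 : ℝ) 1

/-- `(M_P ⊗ M_Q) ⊗ (M_P ⊗ M_Q)`. -/
abbrev Mat2 (P Q : ℕ) :=
  Matrix ((Fin P × Fin Q) × (Fin P × Fin Q)) ((Fin P × Fin Q) × (Fin P × Fin Q)) ℂ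

/-- `Z(P,Q) ⊗ Z(P,Q)` as functions on the square: the values on each side commute with the copy
of the matrix algebra that the factor concerned drops there. -/
def DD2 (P Q : ℕ) : StarSubalgebra ℂ C(II × II, Mat2 P Q) where
  carrier := {f |
    (∀ (t : II) (E : Matrix (Fin Q) (Fin Q) ℂ),
      Commute (f (0, t)) (((1 : Matrix (Fin P) (Fin P) ℂ) ⊗ₖ E) ⊗ₖ (1 : Mat P Q))) ∧
    (∀ (t : II) (E : Matrix (Fin P) (Fin P) ℂ),
      Commute (f (1, t)) ((E ⊗ₖ (1 : Matrix (Fin Q) (Fin Q) ℂ)) ⊗ₖ (1 : Mat P Q))) ∧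
    (∀ (s : II) (E : Matrix (Fin Q) (Fin Q) ℂ),
      Commute (f (s, 0)) ((1 : Mat P Q) ⊗ₖ ((1 : Matrix (Fin P) (Fin P) ℂ) ⊗ₖ E))) ∧
    (∀ (s : II) (E : Matrix (Fin P) (Fin P) ℂ),
      Commute (f (s, 1)) ((1 : Mat P Q) ⊗ₖ (E ⊗ₖ (1 : Matrix (Fin Q) (Fin Q) ℂ))))}
  mul_mem' {f g} hf hg := ⟨fun t E => (hf.1 t E).mul_left (hg.1 t E),
    fun t E => (hf.2.1 t E).mul_left (hg.2.1 t E),
    fun s E => (hf.2.2.1 s E).mul_left (hg.2.2.1 s E),
    fun s E => (hf.2.2.2 s E).mul_left (hg.2.2.2 s E)⟩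
  add_mem' {f g} hf hg := ⟨fun t E => (hf.1 t E).add_left (hg.1 t E),
    fun t E => (hf.2.1 t E).add_left (hg.2.1 t E),
    fun s E => (hf.2.2.1 s E).add_left (hg.2.2.1 s E),
    fun s E => (hf.2.2.2 s E).add_left (hg.2.2.2 s E)⟩
  algebraMap_mem' c := ⟨fun _ _ => Algebra.commutes c _, fun _ _ => Algebra.commutes c _,
    fun _ _ => Algebra.commutes c _, fun _ _ => Algebra.commutes c _⟩
  star_mem' {f} hf := by
    refine ⟨fun t E => ?_, fun t E => ?_, fun s E => ?_, fun s E => ?_⟩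
    · have := (hf.1 t E.conjTranspose).star_star
      simpa [Matrix.star_eq_conjTranspose, Matrix.conjTranspose_kronecker] using this
    · have := (hf.2.1 t E.conjTranspose).star_star
      simpa [Matrix.star_eq_conjTranspose, Matrix.conjTranspose_kronecker] using this
    · have := (hf.2.2.1 s E.conjTranspose).star_star
      simpa [Matrix.star_eq_conjTranspose, Matrix.conjTranspose_kronecker] using this
    · have := (hf.2.2.2 s E.conjTranspose).star_star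
      simpa [Matrix.star_eq_conjTranspose, Matrix.conjTranspose_kronecker] using this

/-- The fibre of `f ⊗ 1`. -/
def inc1 {P Q : ℕ} (f : DD P Q) : C(II × II, Mat2 P Q) :=
  ⟨fun x => (f.1 x.1) ⊗ₖ (1 : Mat P Q),
    continuous_matrix fun i j => ((f.1.continuous.comp continuous_fst).matrix_elem i.1 j.1).mul
      continuous_const⟩

/-- The fibre of `1 ⊗ f`. -/
def inc2 {P Q : ℕ} (f : DD P Q) : C(II × II, Mat2 P Q) :=
  ⟨fun x => (1 : Mat P Q) ⊗ₖ (f.1 x.2),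
    continuous_matrix fun i j => continuous_const.mul
      ((f.1.continuous.comp continuous_snd).matrix_elem i.2 j.2)⟩

/-! ## U: the universal property (module `ZStab/Univ`) -/

/-- Two commuting copies of `Z(P,Q)` give a homomorphism of `Z(P,Q) ⊗ Z(P,Q)`. -/
def UnivStmt : Prop :=
  ∀ (P Q : ℕ), 0 < P → 0 < Q → ∀ (E : Type) [CStarAlgebra E] (ρ₁ ρ₂ : DD P Q →⋆ₐ[ℂ] E),
    (∀ a b, Commute (ρ₁ a) (ρ₂ b)) →
    ∃ π : DD2 P Q →⋆ₐ[ℂ] E, ∀ (f : DD P Q) (g : DD2 P Q),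
      (g.1 = inc1 f → π g = ρ₁ f) ∧ (g.1 = inc2 f → π g = ρ₂ f)

/-! ## RW: homomorphisms of `Z(n,n+1)` (module `ZStab/RW`) -/

/-- The Rørdam–Winter relations of `Z(n,n+1)`. -/
structure RWRel {E : Type*} [CStarAlgebra E] (n : ℕ) (hn : 0 < n) (s : Fin n → E) (v : E) :
    Prop where
  pos : ∃ r : E, s ⟨0, hn⟩ = star r * r
  orth : ∀ i j, star (s i) * s j = if i = j then s ⟨0, hn⟩ * s ⟨0, hn⟩ else 0
  defect : star v * v = 1 - ∑ i, s i * star (s i)
  absorb : s ⟨0, hn⟩ * v = v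

/-- The relations give a unital homomorphism. -/
def RWStmt : Prop :=
  ∀ (E : Type) [CStarAlgebra E] (n : ℕ) (hn : 0 < n) (s : Fin n → E) (v : E), 2 ≤ n →
    RWRel n hn s v → Nonempty (DD n (n + 1) →⋆ₐ[ℂ] E)

/-! ## Tree: the relations in algebras with copies (module `ZStab/Tree`) -/

/-- An algebra with the copy property and full commutators has the relations for every power of
two. -/
def TreeStmt : Prop :=
  ∀ (E : Type) [CStarAlgebra E], CopyProp E → Full (commSet E) →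
    ∀ k : ℕ, 1 ≤ k → ∃ (s : Fin (2 ^ k) → E) (v : E), RWRel (2 ^ k) (Nat.two_pow_pos k) s v

/-! ## Band: banded unitaries (module `ZStab/Band`) -/

/-- Entries only between labels at distance at most `δ`. -/
def Band {ι : Type*} (a b : ι → ℝ) (δ : ℝ) (G : Matrix ι ι ℂ) : Prop :=
  ∀ i j, δ < |a i - b j| → G i j = 0

/-- The loop has winding number zero in determinant. -/
def NoWinding {ι : Type*} [Fintype ι] [DecidableEq ι] (γ : II → Matrix ι ι ℂ) : Prop :=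
  ∃ θ : II → ℝ, Continuous θ ∧ θ 0 = θ 1 ∧
    ∀ t, (γ t).det = Complex.exp (θ t * Complex.I)

/-- Every label below the largest one has another label at most `δ` above it. -/
def Chain {ι : Type*} (a : ι → ℝ) (δ : ℝ) : Prop :=
  ∀ i j, a i < a j → ∃ k, a i < a k ∧ a k ≤ a i + δ

/-- Banded unitaries are connected, and banded loops without winding contract. -/
def BandStmt : Prop :=
  ∀ (ι : Type) [Fintype ι] [DecidableEq ι] (a : ι → ℝ) (δ : ℝ), 0 ≤ δ →
    (∀ G : Matrix ι ι ℂ, G ∈ unitary (Matrix ι ι ℂ) → Band a a δ G →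
      ∃ γ : C(II, Matrix ι ι ℂ), γ 0 = 1 ∧ γ 1 = G ∧
        ∀ t, γ t ∈ unitary (Matrix ι ι ℂ) ∧ Band a a (8 * δ) (γ t)) ∧
    (Chain a δ → ∀ γ : C(II, Matrix ι ι ℂ), γ 0 = 1 → γ 1 = 1 →
      (∀ t, γ t ∈ unitary (Matrix ι ι ℂ) ∧ Band a a δ (γ t)) → NoWinding γ →
      ∃ H : C(II × II, Matrix ι ι ℂ), (∀ t, H (0, t) = γ t) ∧ (∀ t, H (1, t) = 1) ∧
        (∀ h, H (h, 0) = 1 ∧ H (h, 1) = 1) ∧
        ∀ x, H x ∈ unitary (Matrix ι ι ℂ) ∧ Band a a (8 * δ) (H x))

/-! ## Step: connecting maps with almost flipped images (module `ZStab/Step`) -/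

/-- The size of the next stage. -/
def nextP (p l : ℕ) : ℕ := p * (1 + (p + 1) * l)

/-- Normalised trace. -/
def ntr {P Q : ℕ} (X : Mat P Q) : ℂ := X.trace / ((P * Q : ℕ) : ℂ)

/-- For every large `l` there is an injective connecting map which, on a given finite set, has
almost constant trace and norm along the interval and almost flipped tensor copies. -/
def StepStmt : Prop :=
  ∀ (p : ℕ), 2 ≤ p → ∀ (F : Finset (DD p (p + 1))) (ε : ℝ), 0 < ε →
    ∃ L : ℕ, ∀ l, L ≤ l → ∃ φ : DD p (p + 1) →⋆ₐ[ℂ] DD (nextP p l) (nextP p l + 1),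
      Function.Injective φ ∧
      (∀ f ∈ F, ∀ s s' : II, ‖ntr ((φ f).1 s) - ntr ((φ f).1 s')‖ ≤ ε) ∧
      (∀ f ∈ F, ∀ s : II, ‖f.1‖ - ε ≤ ‖(φ f).1 s‖) ∧
      ∃ u : DD2 (nextP p l) (nextP p l + 1), u.1 ∈ unitary (C(II × II, Mat2 (nextP p l) (nextP p l + 1))) ∧
        ∀ f ∈ F, ‖u.1 * inc1 (φ f) * star u.1 - inc2 (φ f)‖ ≤ ε

/-! ## Limit: the Jiang–Su algebra (module `ZStab/Limit`) -/

/-- An exhaustion of `B` by prime dimension drop algebras with almost flipped tensor copies. -/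
structure Tower (B : Type) [CStarAlgebra B] where
  /-- The sizes. -/
  P : ℕ → ℕ
  pow : ∀ n, ∃ k, 1 ≤ k ∧ P n = 2 ^ k
  /-- The stages. -/
  emb : ∀ n, DD (P n) (P n + 1) →⋆ₐ[ℂ] B
  injective : ∀ n, Function.Injective (emb n)
  mono : ∀ n m, n ≤ m → (emb n).range ≤ (emb m).range
  dense : Dense (⋃ n, Set.range (emb n))
  flip : ∀ (n : ℕ) (F : Finset (DD (P n) (P n + 1))) (ε : ℝ), 0 < ε →
    ∃ m, n ≤ m ∧ ∃ u : DD2 (P m) (P m + 1),
      u.1 ∈ unitary (C(II × II, Mat2 (P m) (P m + 1))) ∧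
      ∀ f ∈ F, ∃ g, emb m g = emb n f ∧ ‖u.1 * inc1 g * star u.1 - inc2 g‖ ≤ ε

/-- The limit of suitable connecting maps is a Jiang–Su algebra. -/
def LimitStmt : Prop :=
  StepStmt → ∃ (B : Type) (_ : CStarAlgebra B), IsJiangSu B ∧ Nonempty (Tower B)

/-! ## Absorption (module `ZStab/Absorb`) -/

/-- Separable algebras whose central sequence algebra receives all stages absorb `B`. -/
def AbsorbStmt : Prop :=
  UnivStmt → ∀ (A : Type) [CStarAlgebra A] [TopologicalSpace.SeparableSpace A] [Nontrivial A]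
    (ω : Ultrafilter ℕ), (ω : Filter ℕ) ≤ Filter.cofinite →
    (∀ k, 1 ≤ k → Nonempty (DD (2 ^ k) (2 ^ k + 1) →⋆ₐ[ℂ] FOmega A ω)) →
    ∀ (B : Type) [CStarAlgebra B], IsJiangSu B → Tower B → IsSpatialTensor A A B

end

end Vale.P101.ZS
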