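import Vale.Agent.P101.ZStab.Pins

/-!
# P101 `Z`-stability: assembly of the modules
-/

namespace Vale.P101.ZS

/-- No characters on the central sequence algebra gives `Z`-stability. -/
theorem zstable_of (hU : UnivStmt) (hRW : RWStmt) (hT : TreeStmt) (hS : StepStmt) (hL : LimitStmt)
    (hA : AbsorbStmt) (A : Type) [CStarAlgebra A] [TopologicalSpace.SeparableSpace A] [Nontrivial A]
    (ω : Ultrafilter ℕ) (hω : (ω : Filter ℕ) ≤ Filter.cofinite)
    (hchar : NoCharacters (FOmega A ω)) : IsZStable A := by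
  obtain ⟨B, _, hB, ⟨T⟩⟩ := hL hS
  refine ⟨B, _, hB, hA hU A ω hω (fun k hk => ?_) B hB T⟩
  have hfull : Full (commSet (FOmega A ω)) := full_commSet ⟨fun χ => by
    have := congrArg (fun f : FOmega A ω →⋆ₙₐ[ℂ] ℂ => f 1) (hchar χ.toNonUnitalStarAlgHom)
    exact one_ne_zero ((map_one χ).symm.trans this)⟩
  obtain ⟨s, v, h⟩ := hT _ (copyProp_central ω hω) hfull k hk
  exact hRW _ (2 ^ k) _ s v (Nat.le_self_pow (by omega) 2) h

end Vale.P101.ZS
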