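import Vale.Agent.P101.ZStab.Statement
import Vale.Agent.P101.ZStab.Absorb.Rep

/-!
# P101: the set-level statement vocabulary follows from the structural one
-/

open scoped TensorProduct InnerProductSpace Kronecker Matrix.Norms.L2Operator
open UniformSpace

namespace Vale.P101.ZS

noncomputable section

theorem isJiangSuAlgebra_of {B : Type} [CStarAlgebra B] (h : IsJiangSu B) :
    ZSStatement.IsJiangSuAlgebra B := by
  obtain ⟨h1, ⟨τ, hτ, hu⟩, S, hS, hd, hD⟩ := h
  refine ⟨h1, ⟨τ, hτ, hu⟩, S, hS, fun n => ?_, hD⟩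
  obtain ⟨P, Q, hP, hQ, hPQ, ⟨e⟩⟩ := hd n
  refine ⟨P, Q, hP, hQ, hPQ, (DD P Q).subtype.comp e.toStarAlgHom, ?_, ?_⟩
  · intro x y hxy
    exact e.injective (Subtype.ext hxy)
  · ext f
    constructor
    · rintro ⟨x, rfl⟩
      exact (e x).2
    · intro hf
      exact ⟨e.symm ⟨f, hf⟩, congrArg Subtype.val (e.apply_symm_apply ⟨f, hf⟩)⟩

variable {A B : Type} [CStarAlgebra A] [CStarAlgebra B]

theorem adjoin_le_span {E : Type} [CStarAlgebra E] (f : A →⋆ₐ[ℂ] E) (g : B →⋆ₐ[ℂ] E)
    (hfg : ∀ a b, Commute (f a) (g b)) {x : E}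
    (hx : x ∈ StarAlgebra.adjoin ℂ (Set.range f ∪ Set.range g)) :
    x ∈ Submodule.span ℂ (Set.range fun p : A × B => f p.1 * g p.2) := by
  set W := Submodule.span ℂ (Set.range fun p : A × B => f p.1 * g p.2)
  have gen : ∀ a b, f a * g b ∈ W := fun a b => Submodule.subset_span ⟨(a, b), rfl⟩
  induction hx using StarAlgebra.adjoin_induction with
  | mem x hx =>
    rcases hx with ⟨a, rfl⟩ | ⟨b, rfl⟩
    · simpa using gen a 1
    · simpa using gen 1 b
  | algebraMap c =>
    rw [Algebra.algebraMap_eq_smul_one]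
    exact W.smul_mem c (by simpa using gen 1 1)
  | add x y _ _ hx hy => exact W.add_mem hx hy
  | mul x y mx my hx hy =>
    clear mx my
    induction hx, hy using Submodule.span_induction₂ with
    | mem_mem x y hx hy =>
      obtain ⟨⟨a, b⟩, rfl⟩ := hx
      obtain ⟨⟨a', b'⟩, rfl⟩ := hy
      have : f a * g b * (f a' * g b') = f (a * a') * g (b * b') := by
        rw [map_mul, map_mul, mul_assoc, ← mul_assoc (g b), ← (hfg a' b).eq]
        simp only [mul_assoc]
      dsimp only
      rw [this]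
      exact gen _ _
    | zero_left y _ => simp
    | zero_right x _ => simp
    | add_left x y z _ _ _ h1 h2 => rw [add_mul]; exact W.add_mem h1 h2
    | add_right x y z _ _ _ h1 h2 => rw [mul_add]; exact W.add_mem h1 h2
    | smul_left c x y _ _ h => rw [smul_mul_assoc]; exact W.smul_mem c h
    | smul_right c x y _ _ h => rw [mul_smul_comm]; exact W.smul_mem c h
  | star x mx hx =>
    clear mx
    induction hx using Submodule.span_induction with
    | mem x hx =>
      obtain ⟨⟨a, b⟩, rfl⟩ := hx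
      dsimp only
      rw [star_mul, ← map_star, ← map_star, ← (hfg (star a) (star b)).eq]
      exact gen _ _
    | zero => simp
    | add x y _ _ h1 h2 => rw [star_add]; exact W.add_mem h1 h2
    | smul c x _ h => rw [star_smul]; exact W.smul_mem _ h

theorem isMinimalTensor_of {R : Type} [CStarAlgebra R] (h : IsSpatialTensor R A B) :
    ZSStatement.IsMinimalTensor R A B := by
  obtain ⟨H, K, _, _, _, _, _, _, π, ρ, hπ, hρ, ⟨e⟩⟩ := h
  let f : A →⋆ₐ[ℂ] (HTensor H K →L[ℂ] HTensor H K) := (Rep.left (H := H) (K := K)).comp π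
  let g : B →⋆ₐ[ℂ] (HTensor H K →L[ℂ] HTensor H K) := (Rep.right (H := H) (K := K)).comp ρ
  have hfg : ∀ a b, Commute (f a) (g b) := fun a b => Rep.amp_commute (π a) (ρ b)
  let S := spatial π ρ
  have hA : ∀ a, f a ∈ S := fun a =>
    StarSubalgebra.le_topologicalClosure _ (StarAlgebra.subset_adjoin ℂ _ (Or.inl ⟨a, rfl⟩))
  have hB : ∀ b, g b ∈ S := fun b =>
    StarSubalgebra.le_topologicalClosure _ (StarAlgebra.subset_adjoin ℂ _ (Or.inr ⟨b, rfl⟩))
  let iA : A →⋆ₐ[ℂ] R := e.symm.toStarAlgHom.comp (f.codRestrict S hA)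
  let iB : B →⋆ₐ[ℂ] R := e.symm.toStarAlgHom.comp (g.codRestrict S hB)
  let Φ : R →⋆ₐ[ℂ] (HTensor H K →L[ℂ] HTensor H K) := S.subtype.comp e.toStarAlgHom
  have hΦ : Function.Injective Φ := fun x y hxy => e.injective (Subtype.ext hxy)
  have hn : ∀ x, ‖Φ x‖ = ‖x‖ := fun x => NonUnitalStarAlgHom.norm_map Φ hΦ x
  have hΦA : ∀ a, Φ (iA a) = f a := fun a => congrArg Subtype.val (e.apply_symm_apply _)
  have hΦB : ∀ b, Φ (iB b) = g b := fun b => congrArg Subtype.val (e.apply_symm_apply _)
  refine ⟨iA, iB, fun a b => hΦ (by rw [map_mul, map_mul, hΦA, hΦB, (hfg a b).eq]), ?_,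
    H, K, inferInstance, inferInstance, inferInstance, inferInstance, inferInstance, inferInstance,
    π, ρ, hπ, hρ, fun n a b c hc => ?_⟩
  · rw [Metric.dense_iff]
    intro x r hr
    have hx : Φ x ∈ closure ((StarAlgebra.adjoin ℂ (Set.range f ∪ Set.range g) :
        StarSubalgebra ℂ (HTensor H K →L[ℂ] HTensor H K)) :
        Set (HTensor H K →L[ℂ] HTensor H K)) := (e x).2
    obtain ⟨y, hy, hxy⟩ := Metric.mem_closure_iff.1 hx r hr
    obtain ⟨z, hz, rfl⟩ : ∃ z ∈ Submodule.span ℂ (Set.range fun p : A × B => iA p.1 * iB p.2),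
        Φ z = y := by
      have := adjoin_le_span f g hfg hy
      clear hy hxy
      induction this using Submodule.span_induction with
      | mem u hu =>
        obtain ⟨p, rfl⟩ := hu
        exact ⟨_, Submodule.subset_span ⟨p, rfl⟩, by rw [map_mul, hΦA, hΦB]⟩
      | zero => exact ⟨0, Submodule.zero_mem _, map_zero _⟩
      | add u v _ _ h1 h2 =>
        obtain ⟨u', hu', rfl⟩ := h1
        obtain ⟨v', hv', rfl⟩ := h2
        exact ⟨u' + v', Submodule.add_mem _ hu' hv', map_add _ _ _⟩
      | smul t u _ h1 =>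
        obtain ⟨u', hu', rfl⟩ := h1
        exact ⟨t • u', Submodule.smul_mem _ t hu', map_smul _ _ _⟩
    refine ⟨z, ?_, hz⟩
    rwa [Metric.mem_ball, dist_comm, dist_eq_norm, ← hn, map_sub, ← dist_eq_norm]
  · rw [← hn, map_sum]
    simp only [map_mul, hΦA, hΦB]
    have key : ∀ x : H ⊗[ℂ] K, (∑ k, f (a k) * g (b k)) (Rep.emb x) =
        Rep.emb (∑ k, TensorProduct.map (π (a k)).toLinearMap (ρ (b k)).toLinearMap x) := by
      intro x
      rw [sum_apply]
      have hsum : ∀ (u : Fin n → H ⊗[ℂ] K), Rep.emb (∑ k, u k) = ∑ k, Rep.emb (u k) := fun u =>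
        map_sum (AddMonoidHom.mk' (Rep.emb (H := H) (K := K)) Rep.emb_add) u _
      rw [hsum]
      refine Finset.sum_congr rfl fun k _ => ?_
      show ampLeft (K := K) (π (a k)) (ampRight (H := H) (ρ (b k)) (Rep.emb x)) = _
      rw [Rep.ampRight_emb, Rep.ampLeft_emb]
      congr 1
      induction x using TensorProduct.induction_on with
      | zero => simp
      | tmul u v => simp
      | add u v hu hv => simp only [map_add, hu, hv]
    constructor
    · intro hle x
      have := (∑ k, f (a k) * g (b k)).le_of_opNorm_le hle (Rep.emb x)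
      rwa [key, Rep.norm_emb, Rep.norm_emb] at this
    · intro hb
      refine ContinuousLinearMap.opNorm_le_bound _ hc fun v => ?_
      refine Rep.emb_dense.induction_on v ?_ fun x => ?_
      · exact isClosed_le (continuous_norm.comp (ContinuousLinearMap.continuous _))
          (continuous_const.mul continuous_norm)
      · rw [key, Rep.norm_emb, Rep.norm_emb]
        exact hb x

end

end Vale.P101.ZS
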