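import Mathlib

/-!
# P101: dimension drop algebras, the Jiang–Su algebra, spatial tensor products, `Z`-stability

* `DD P Q` is the dimension drop algebra `Z(P,Q)` of continuous `M_P ⊗ M_Q`-valued functions on
  `[0,1]` with values in `M_P ⊗ 1` at `0` and in `1 ⊗ M_Q` at `1`.
* `IsJiangSu B` is Jiang–Su's defining property of `Z`: `B` is a simple unital C⋆-algebra with a
  unique tracial state which has an increasing sequence of unital subalgebras isomorphic to prime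
  dimension drop algebras with dense union.  (Jiang–Su 1999: any two such algebras are isomorphic.)
* `IsSpatialTensor R A B` says that `R` is `A ⊗_min B`: it is isomorphic to the C⋆-algebra generated
  by `π a ⊗ 1` and `1 ⊗ ρ b` on the Hilbert tensor product for faithful representations `π`, `ρ`.
* `IsZStable A` says `A ≅ A ⊗_min Z`.
-/

open scoped TensorProduct InnerProductSpace Kronecker Matrix.Norms.L2Operator
open UniformSpace

namespace Vale.P101.ZS

noncomputable section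

/-- The matrices `M_P ⊗ M_Q`, with the operator norm. -/
abbrev Mat (P Q : ℕ) := Matrix (Fin P × Fin Q) (Fin P × Fin Q) ℂ

/-- The dimension drop algebra `Z(P,Q)`. -/
def DD (P Q : ℕ) : StarSubalgebra ℂ C(Set.Icc (0 : ℝ) 1, Mat P Q) where
  carrier := {f | (∃ A : Matrix (Fin P) (Fin P) ℂ, f 0 = A ⊗ₖ (1 : Matrix (Fin Q) (Fin Q) ℂ)) ∧
    ∃ B : Matrix (Fin Q) (Fin Q) ℂ, f 1 = (1 : Matrix (Fin P) (Fin P) ℂ) ⊗ₖ B}
  mul_mem' := by
    rintro f g ⟨⟨A, hA⟩, B, hB⟩ ⟨⟨A', hA'⟩, B', hB'⟩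
    exact ⟨⟨A * A', by simp [hA, hA', ← Matrix.mul_kronecker_mul]⟩, B * B',
      by simp [hB, hB', ← Matrix.mul_kronecker_mul]⟩
  add_mem' := by
    rintro f g ⟨⟨A, hA⟩, B, hB⟩ ⟨⟨A', hA'⟩, B', hB'⟩
    exact ⟨⟨A + A', by simp [hA, hA', Matrix.add_kronecker]⟩, B + B',
      by simp [hB, hB', Matrix.kronecker_add]⟩
  algebraMap_mem' c := ⟨⟨c • 1, by simp [Algebra.algebraMap_eq_smul_one, Matrix.smul_kronecker]⟩,
    c • 1, by simp [Algebra.algebraMap_eq_smul_one, Matrix.kronecker_smul]⟩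
  star_mem' := by
    rintro f ⟨⟨A, hA⟩, B, hB⟩
    exact ⟨⟨A.conjTranspose,
      by simp [hA, Matrix.star_eq_conjTranspose, Matrix.conjTranspose_kronecker]⟩, B.conjTranspose,
      by simp [hB, Matrix.star_eq_conjTranspose, Matrix.conjTranspose_kronecker]⟩

/-- A tracial state. -/
def IsTracialState {B : Type*} [CStarAlgebra B] (τ : B →L[ℂ] ℂ) : Prop :=
  τ 1 = 1 ∧ (∀ b, 0 ≤ (τ (star b * b)).re ∧ (τ (star b * b)).im = 0) ∧ ∀ a b, τ (a * b) = τ (b * a)

/-- Jiang–Su's defining property of `Z`. -/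
def IsJiangSu (B : Type*) [CStarAlgebra B] : Prop :=
  IsSimpleRing B ∧ (∃! τ : B →L[ℂ] ℂ, IsTracialState τ) ∧
    ∃ S : ℕ → StarSubalgebra ℂ B, Monotone S ∧
      (∀ n, ∃ P Q : ℕ, 1 < P ∧ 1 < Q ∧ Nat.Coprime P Q ∧ Nonempty (S n ≃⋆ₐ[ℂ] DD P Q)) ∧
      Dense (⋃ n, (S n : Set B))

/-- The Hilbert space tensor product. -/
def HTensor (H K : Type*) [NormedAddCommGroup H] [InnerProductSpace ℂ H]
    [NormedAddCommGroup K] [InnerProductSpace ℂ K] := Completion (H ⊗[ℂ] K)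
deriving NormedAddCommGroup, InnerProductSpace ℂ, CompleteSpace

variable {H K : Type*} [NormedAddCommGroup H] [InnerProductSpace ℂ H] [CompleteSpace H]
  [NormedAddCommGroup K] [InnerProductSpace ℂ K] [CompleteSpace K]

/-- `T ⊗ 1` on the Hilbert tensor product. -/
def ampLeft (T : H →L[ℂ] H) : HTensor H K →L[ℂ] HTensor H K :=
  (T.rTensor K).completion

/-- `1 ⊗ T` on the Hilbert tensor product. -/
def ampRight (T : K →L[ℂ] K) : HTensor H K →L[ℂ] HTensor H K :=
  (T.lTensor H).completion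

/-- The C⋆-algebra generated by `π a ⊗ 1` and `1 ⊗ ρ b`. -/
def spatial {A B : Type*} [CStarAlgebra A] [CStarAlgebra B]
    (π : A →⋆ₐ[ℂ] (H →L[ℂ] H)) (ρ : B →⋆ₐ[ℂ] (K →L[ℂ] K)) :
    StarSubalgebra ℂ (HTensor H K →L[ℂ] HTensor H K) :=
  (StarAlgebra.adjoin ℂ
    (Set.range (fun a => ampLeft (K := K) (π a)) ∪
      Set.range (fun b => ampRight (H := H) (ρ b)))).topologicalClosure

/-- `R` is the spatial tensor product `A ⊗_min B`. -/
def IsSpatialTensor (R A B : Type) [CStarAlgebra R] [CStarAlgebra A] [CStarAlgebra B] : Prop :=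
  ∃ (H K : Type) (_ : NormedAddCommGroup H) (_ : InnerProductSpace ℂ H) (_ : CompleteSpace H)
    (_ : NormedAddCommGroup K) (_ : InnerProductSpace ℂ K) (_ : CompleteSpace K)
    (π : A →⋆ₐ[ℂ] (H →L[ℂ] H)) (ρ : B →⋆ₐ[ℂ] (K →L[ℂ] K)),
    Function.Injective π ∧ Function.Injective ρ ∧ Nonempty (R ≃⋆ₐ[ℂ] spatial π ρ)

/-- `A ≅ A ⊗ Z`: `A` itself is a minimal tensor product of `A` with the Jiang–Su algebra. -/
def IsZStable (A : Type) [CStarAlgebra A] : Prop :=
  ∃ (B : Type) (_ : CStarAlgebra B), IsJiangSu B ∧ IsSpatialTensor A A B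

end

end Vale.P101.ZS
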