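import Vale.Agent.P101.ZStab.StepPins

/-!
# P101 `Z`-stability: the connecting maps

The two lists are matched in increasing order, the paths between matched labels are linear, and the
permutation of the fibre is joined to `1` by unitaries.  `stepMap` gives the identities at the ends
and the existence of injective connecting maps, `step` adds the estimates on trace and norm.
-/

open scoped Kronecker Matrix.Norms.L2Operator
open Set

namespace Vale.P101.ZS

noncomputable section

namespace StepMap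

/-! ### Block diagonals -/

variable {J ι κ : Type*} [Fintype J] [DecidableEq J] [Fintype ι] [DecidableEq ι]
  [Fintype κ] [DecidableEq κ]

/-- The block diagonal matrix of a family, in the order used by `dg`. -/
def blk (M : J → Matrix ι ι ℂ) : Matrix (J × ι) (J × ι) ℂ :=
  (Matrix.blockDiagonal M).submatrix (Equiv.prodComm J ι) (Equiv.prodComm J ι)

omit [Fintype J] [Fintype ι] [DecidableEq ι] in
theorem dg_eq_blk (g : ℝ → Matrix ι ι ℂ) (a : J → ℝ) : dg g a = blk fun i => g (a i) := by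
  ext x y
  simp [dg, blk, Matrix.blockDiagonal_apply]

omit [Fintype J] [Fintype ι] [DecidableEq ι] in
theorem blk_apply (M : J → Matrix ι ι ℂ) (x y : J × ι) :
    blk M x y = if x.1 = y.1 then M x.1 x.2 y.2 else 0 := by
  simp [blk, Matrix.blockDiagonal_apply]

omit [Fintype J] [Fintype ι] [DecidableEq ι] in
theorem blk_injective : Function.Injective (blk : (J → Matrix ι ι ℂ) → _) := fun M N h => by
  funext i
  ext a b
  simpa [blk_apply] using congrFun (congrFun h (i, a)) (i, b)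

/-- Block diagonals, conjugated by a unitary and reindexed, as a homomorphism. -/
def adBlk (e : κ ≃ J × ι) (U : Matrix κ κ ℂ) (hU : U ∈ unitary (Matrix κ κ ℂ)) :
    (J → Matrix ι ι ℂ) →⋆ₐ[ℂ] Matrix κ κ ℂ where
  toFun M := U * (blk M).submatrix e e * star U
  map_one' := by
    have h : blk (1 : J → Matrix ι ι ℂ) = 1 := by
      rw [blk, Matrix.blockDiagonal_one, Matrix.submatrix_one_equiv]
    simp [h, Unitary.mul_star_self_of_mem hU]
  map_mul' M N := by
    have h : blk (M * N) = blk M * blk N := by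
      rw [blk, blk, blk, Matrix.submatrix_mul_equiv, ← Matrix.blockDiagonal_mul]
      rfl
    have hs := Unitary.star_mul_self_of_mem hU
    simp only [h, ← Matrix.submatrix_mul_equiv (blk M) (blk N) (⇑e) e (⇑e)]
    simp only [mul_assoc]
    rw [← mul_assoc (star U) U, hs, one_mul]
  map_zero' := by simp [blk]
  map_add' M N := by
    have h : blk (M + N) = blk M + blk N := by
      rw [blk, Matrix.blockDiagonal_add]; rfl
    have h' : (blk M + blk N).submatrix e e =
      (blk M).submatrix e e + (blk N).submatrix e e := rfl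
    rw [h, h', mul_add, add_mul]
  commutes' c := by
    have h : blk (algebraMap ℂ (J → Matrix ι ι ℂ) c) = c • 1 := by
      ext x y
      rw [Algebra.algebraMap_eq_smul_one, blk_apply]
      by_cases hxy : x.1 = y.1 <;> simp [hxy, Matrix.one_apply, Prod.ext_iff]
    have h' : (blk (algebraMap ℂ (J → Matrix ι ι ℂ) c)).submatrix e e =
        c • (1 : Matrix κ κ ℂ) := by
      ext x y
      simp [h, Matrix.one_apply]
    rw [h', Algebra.algebraMap_eq_smul_one]
    simp [Unitary.mul_star_self_of_mem hU]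
  map_star' M := by
    have h : blk (star M) = star (blk M) := by
      simp only [blk, Matrix.star_eq_conjTranspose, Matrix.conjTranspose_submatrix,
        Matrix.blockDiagonal_conjTranspose]
      rfl
    simp [h, Matrix.star_eq_conjTranspose, Matrix.mul_assoc]

theorem adBlk_apply (e : κ ≃ J × ι) (U : Matrix κ κ ℂ) (hU : U ∈ unitary (Matrix κ κ ℂ))
    (M : J → Matrix ι ι ℂ) : adBlk e U hU M = U * (blk M).submatrix e e * star U := rfl

theorem adBlk_injective (e : κ ≃ J × ι) (U : Matrix κ κ ℂ) (hU : U ∈ unitary (Matrix κ κ ℂ)) :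
    Function.Injective (adBlk e U hU) := fun M N h => by
  have h' := congrArg (fun Y => star U * Y * U) h
  simp only [adBlk_apply] at h'
  simp only [← mul_assoc, Unitary.star_mul_self_of_mem hU, one_mul] at h'
  simp only [mul_assoc, Unitary.star_mul_self_of_mem hU, mul_one] at h'
  refine blk_injective (?_ : blk M = blk N)
  simpa [Matrix.submatrix_submatrix] using congrArg (fun Y => Y.submatrix e.symm e.symm) h'

theorem norm_le_adBlk (e : κ ≃ J × ι) (U : Matrix κ κ ℂ) (hU : U ∈ unitary (Matrix κ κ ℂ))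
    (M : J → Matrix ι ι ℂ) (i : J) : ‖M i‖ ≤ ‖adBlk e U hU M‖ := by
  rw [NonUnitalStarAlgHom.norm_map (adBlk e U hU) (adBlk_injective e U hU) M]
  exact norm_le_pi_norm M i

theorem trace_adBlk (e : κ ≃ J × ι) (U : Matrix κ κ ℂ) (hU : U ∈ unitary (Matrix κ κ ℂ))
    (M : J → Matrix ι ι ℂ) : (adBlk e U hU M).trace = ∑ i, (M i).trace := by
  rw [adBlk_apply, Matrix.trace_mul_comm, ← mul_assoc, Unitary.star_mul_self_of_mem hU, one_mul]
  simp only [Matrix.trace, Matrix.diag_apply, Matrix.submatrix_apply]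
  rw [e.sum_comp (fun x => blk M x x), Fintype.sum_prod_type]
  simp [blk_apply]

theorem norm_entry_le (M : Matrix ι ι ℂ) (i : ι) : ‖M i i‖ ≤ ‖M‖ := by
  have h := M.l2_opNorm_mulVec (EuclideanSpace.single i (1 : ℂ))
  simp only [PiLp.norm_single, norm_one, mul_one] at h
  refine le_trans ?_ h
  refine le_trans (le_of_eq ?_) (PiLp.norm_apply_le _ i)
  simp [Matrix.mulVec_single]

theorem norm_trace_le (M : Matrix ι ι ℂ) : ‖M.trace‖ ≤ Fintype.card ι * ‖M‖ := by
  refine (norm_sum_le _ _).trans ?_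
  calc ∑ i, ‖M.diag i‖ ≤ ∑ _i : ι, ‖M‖ := Finset.sum_le_sum fun i _ => norm_entry_le M i
    _ = _ := by simp

/-! ### A path to a unitary matrix -/

/-- A unitary with finite spectrum is an exponential. -/
theorem expUnitary_arg {A : Type*} [CStarAlgebra A] {u : unitary A}
    (hfin : (spectrum ℂ (u : A)).Finite) :
    selfAdjoint.expUnitary (Unitary.argSelfAdjoint u) = u := by
  ext
  have : ContinuousOn Complex.arg (spectrum ℂ (u : A)) := hfin.continuousOn _
  rw [selfAdjoint.expUnitary_coe, Unitary.argSelfAdjoint_coe,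
    ← CFC.exp_eq_normedSpace_exp (𝕜 := ℂ), ← cfc_comp_smul .., ← cfc_comp' ..]
  conv_rhs => rw [← cfc_id' ℂ (u : A)]
  refine cfc_congr fun y hy => ?_
  have hy₁ : ‖y‖ = 1 := spectrum.norm_eq_one_of_unitary u.2 hy
  have : Complex.I * y.arg = Complex.log y :=
    Complex.ext (by simp [Complex.log_re, hy₁]) (by simp [Complex.log_im])
  simpa [← Complex.exp_eq_exp_ℂ, this] using Complex.exp_log (by
    intro h
    simp [h] at hy₁)

/-- A unitary matrix is joined to `1`. -/
theorem exists_path (u : unitary (Matrix κ κ ℂ)) :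
    ∃ γ : C(II, Matrix κ κ ℂ), γ 0 = 1 ∧ γ 1 = u ∧ ∀ t, γ t ∈ unitary (Matrix κ κ ℂ) := by
  let π := selfAdjoint.expUnitaryPathToOne (Unitary.argSelfAdjoint u)
  refine ⟨⟨fun t => (π t : Matrix κ κ ℂ), continuous_subtype_val.comp π.continuous⟩, ?_, ?_,
    fun t => (π t).2⟩
  · exact congrArg Subtype.val π.source
  · exact congrArg Subtype.val (π.target.trans (expUnitary_arg (Matrix.finite_spectrum _)))

/-! ### The matching of the lists -/

variable (p l : ℕ)

/-- Position in the increasing list at `0`. -/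
def pos₀ : Pos₀ p l ≃ Fin (k₁ p l + l * (nextP p l + 1)) :=
  (Equiv.sumCongr (Equiv.refl _) finProdFinEquiv).trans finSumFinEquiv

/-- Position in the increasing list at `1`. -/
def pos₁ : Pos₁ p l ≃ Fin (l * nextP p l + k₀ p l) :=
  ((Equiv.sumComm _ _).trans (Equiv.sumCongr finProdFinEquiv (Equiv.refl _))).trans finSumFinEquiv

theorem length_eq : k₁ p l + l * (nextP p l + 1) = l * nextP p l + k₀ p l := by
  simp only [k₀, k₁]; ring

/-- The increasing matching. -/
def match₀ : Pos₀ p l ≃ Pos₁ p l :=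
  (pos₀ p l).trans ((finCongr (length_eq p l)).trans (pos₁ p l).symm)

@[simp] theorem pos₀_inl (j : Fin (k₁ p l)) : (pos₀ p l (.inl j) : ℕ) = j := by simp [pos₀]

@[simp] theorem pos₀_inr (c : Fin l) (b : Fin (nextP p l + 1)) :
    (pos₀ p l (.inr (c, b)) : ℕ) = k₁ p l + (b + (nextP p l + 1) * c) := by simp [pos₀]

@[simp] theorem pos₁_inr (c : Fin l) (a : Fin (nextP p l)) :
    (pos₁ p l (.inr (c, a)) : ℕ) = a + nextP p l * c := by simp [pos₁]

@[simp] theorem pos₁_inl (j : Fin (k₀ p l)) :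
    (pos₁ p l (.inl j) : ℕ) = l * nextP p l + j := by simp [pos₁]

theorem pos_match (i : Pos₀ p l) :
    (pos₁ p l (match₀ p l i) : ℕ) = (pos₀ p l i : ℕ) := by simp [match₀]

variable {p l}

theorem k₁_add_le (hp : 0 < p) : k₁ p l + l ≤ nextP p l := by
  simp only [k₁, nextP]
  nlinarith [Nat.mul_le_mul_right ((p + 1) * l) hp]

/-- The matched labels increase by at most three steps. -/
theorem match₀_spec (hp : 0 < p) (i : Pos₀ p l) :
    lab₀ p l i ≤ lab₁ p l (match₀ p l i) ∧
      lab₁ p l (match₀ p l i) - lab₀ p l i ≤ 3 / ((l : ℝ) + 1) := by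
  have h := pos_match p l i
  have hk := k₁_add_le (l := l) hp
  have hl0 : (0 : ℝ) < (l : ℝ) + 1 := by positivity
  generalize match₀ p l i = y at h ⊢
  rcases i with j | ⟨c, b⟩ <;> rcases y with j' | ⟨d, a⟩ <;>
    simp only [pos₀_inl, pos₀_inr, pos₁_inl, pos₁_inr, lab₀, lab₁, Sum.elim_inl, Sum.elim_inr,
      grid] at h ⊢
  · have hl : l = 0 := by
      by_contra hl
      have hj := j.isLt
      have := Nat.le_mul_of_pos_left (nextP p l) (Nat.pos_of_ne_zero hl)
      omega
    subst hl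
    norm_num
  · have hd : (d : ℕ) = 0 := by
      by_contra hd
      have : nextP p l * 1 ≤ nextP p l * (d : ℕ) :=
        Nat.mul_le_mul le_rfl (Nat.pos_of_ne_zero hd)
      have := j.isLt
      omega
    simp only [hd, Nat.cast_zero, zero_add, sub_zero]
    exact ⟨by positivity, by gcongr; norm_num⟩
  · have hcl : (c : ℕ) + 1 = l := by
      have := c.isLt
      by_contra hne
      have h2 : (c : ℕ) + 2 ≤ l := by omega
      have := Nat.mul_le_mul_right (nextP p l) h2
      have := b.isLt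
      nlinarith
    rw [div_le_one hl0]
    have : ((c : ℕ) : ℝ) + 1 = l := by exact_mod_cast hcl
    refine ⟨by linarith, ?_⟩
    rw [this, one_sub_div hl0.ne']
    gcongr
    linarith
  · have hc := c.isLt
    have ha := a.isLt
    have hb := b.isLt
    have h1 : (c : ℕ) ≤ d := by
      by_contra hcd
      have := Nat.mul_le_mul_left (nextP p l) (show (d : ℕ) + 1 ≤ c by omega)
      nlinarith
    have h2 : (d : ℕ) ≤ c + 2 := by
      by_contra hcd
      have := Nat.mul_le_mul_left (nextP p l) (show (c : ℕ) + 3 ≤ d by omega)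
      nlinarith
    rify at h1 h2
    refine ⟨by gcongr, ?_⟩
    rw [← sub_div]
    gcongr
    linarith

theorem match₀_near (hp : 0 < p) (i : Pos₀ p l) :
    |lab₀ p l i - lab₁ p l (match₀ p l i)| ≤ 3 / ((l : ℝ) + 1) := by
  obtain ⟨h, h'⟩ := match₀_spec hp i
  rw [abs_sub_comm, abs_of_nonneg (by linarith)]
  exact h'

theorem lab₀_mem (i : Pos₀ p l) : 0 ≤ lab₀ p l i ∧ lab₀ p l i ≤ 1 := by
  rcases i with j | ⟨c, b⟩ <;> simp only [lab₀, Sum.elim_inl, Sum.elim_inr, grid]
  · norm_num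
  · refine ⟨by positivity, (div_le_one (by positivity)).2 ?_⟩
    exact_mod_cast Nat.succ_le_succ c.isLt.le

theorem lab₁_mem (i : Pos₁ p l) : 0 ≤ lab₁ p l i ∧ lab₁ p l i ≤ 1 := by
  rcases i with j | ⟨c, b⟩ <;> simp only [lab₁, Sum.elim_inl, Sum.elim_inr, grid]
  · norm_num
  · refine ⟨by positivity, (div_le_one (by positivity)).2 ?_⟩
    exact_mod_cast Nat.succ_le_succ c.isLt.le

/-- Every point lies between two matched labels. -/
theorem exists_around {x : ℝ} (h0 : 0 ≤ x) (h1 : x ≤ 1) :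
    ∃ i : Pos₀ p l, lab₀ p l i ≤ x ∧ x ≤ lab₁ p l (match₀ p l i) := by
  have hl0 : (0 : ℝ) < (l : ℝ) + 1 := by positivity
  set k := min ⌊x * ((l : ℝ) + 1)⌋₊ l with hk
  have hkl : k ≤ l := min_le_right _ _
  have hlo : (k : ℝ) / ((l : ℝ) + 1) ≤ x := by
    rw [div_le_iff₀ hl0]
    exact (Nat.cast_le.2 (hk ▸ min_le_left _ _)).trans (Nat.floor_le (by positivity))
  have hhi : x ≤ ((k : ℝ) + 1) / ((l : ℝ) + 1) := by
    rw [le_div_iff₀ hl0]
    rcases min_choice ⌊x * ((l : ℝ) + 1)⌋₊ l with h | h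
    · rw [hk, h]; exact (Nat.lt_floor_add_one _).le
    · rw [hk, h]; nlinarith
  have hlt : k * nextP p l < k₁ p l + l * (nextP p l + 1) := by
    have h := Nat.mul_le_mul_right (nextP p l) hkl
    have : 0 < k₁ p l := by simp [k₁]
    nlinarith
  set i := (pos₀ p l).symm ⟨k * nextP p l, hlt⟩ with hi
  refine ⟨i, ?_, ?_⟩
  · have hpos : (pos₀ p l i : ℕ) = k * nextP p l := by simp [hi]
    refine le_trans ?_ hlo
    rcases i with j | ⟨c, b⟩ <;> simp only [lab₀, Sum.elim_inl, Sum.elim_inr, grid]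
    · positivity
    · have hck : (c : ℕ) + 1 ≤ k := by
        by_contra hne
        have := Nat.mul_le_mul_left (nextP p l) (show k ≤ c by omega)
        have : 0 < k₁ p l := by simp [k₁]
        simp only [pos₀_inr] at hpos
        nlinarith
      gcongr
      exact_mod_cast hck
  · have hpos : (pos₁ p l (match₀ p l i) : ℕ) = k * nextP p l := by
      rw [pos_match]; simp [hi]
    refine le_trans hhi ?_
    generalize match₀ p l i = y at hpos ⊢
    rcases y with j | ⟨d, a⟩ <;> simp only [lab₁, Sum.elim_inl, Sum.elim_inr, grid]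
    · rw [div_le_one hl0]
      exact_mod_cast Nat.succ_le_succ hkl
    · have hkd : k ≤ (d : ℕ) := by
        by_contra hne
        have := Nat.mul_le_mul_left (nextP p l) (show (d : ℕ) + 1 ≤ k by omega)
        have := a.isLt
        simp only [pos₁_inr] at hpos
        nlinarith
      gcongr

/-- The linear path of the `i`-th label. -/
def pt (σ : Pos₀ p l ≃ Pos₁ p l) (i : Pos₀ p l) (s : ℝ) : ℝ :=
  (1 - s) * lab₀ p l i + s * lab₁ p l (σ i)

theorem pt_near {σ : Pos₀ p l ≃ Pos₁ p l} {r : ℝ} {i : Pos₀ p l}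
    (hσ : |lab₀ p l i - lab₁ p l (σ i)| ≤ r) (s t : II) : |pt σ i s - pt σ i t| ≤ r := by
  have h : pt σ i s - pt σ i t = ((t : ℝ) - s) * (lab₀ p l i - lab₁ p l (σ i)) := by
    simp only [pt]; ring
  rw [h, abs_mul]
  refine le_trans ?_ hσ
  refine mul_le_of_le_one_left (abs_nonneg _) ?_
  exact abs_sub_le_iff.2 ⟨by linarith [t.2.2, s.2.1], by linarith [s.2.2, t.2.1]⟩

theorem exists_pt {x : ℝ} (h0 : 0 ≤ x) (h1 : x ≤ 1) :
    ∃ (i : Pos₀ p l) (s : II), pt (match₀ p l) i s = x := by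
  obtain ⟨i, ha, hb⟩ := exists_around (p := p) (l := l) h0 h1
  rcases eq_or_lt_of_le (ha.trans hb) with h | h
  · exact ⟨i, 0, by simp [pt]; linarith⟩
  · refine ⟨i, ⟨(x - lab₀ p l i) / (lab₁ p l (match₀ p l i) - lab₀ p l i),
      div_nonneg (by linarith) (by linarith), (div_le_one (by linarith)).2 (by linarith)⟩, ?_⟩
    have h' : lab₁ p l (match₀ p l i) - lab₀ p l i ≠ 0 := by linarith
    simp only [pt]
    field_simp
    ring

/-- A function on the interval, extended to the line. -/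
def ext {P Q : ℕ} (f : DD P Q) (x : ℝ) : Mat P Q := f.1 (projIcc (0 : ℝ) 1 zero_le_one x)

theorem continuous_ext {P Q : ℕ} (f : DD P Q) : Continuous (ext f) :=
  f.1.continuous.comp continuous_projIcc

theorem ext_coe {P Q : ℕ} (f : DD P Q) (s : II) : ext f s = f.1 s := by
  simp [ext, projIcc_val]

/-! ### The identities at the ends -/

/-- The permutation of the fibre. -/
def perm (σ : Pos₀ p l ≃ Pos₁ p l) : Out p l ≃ Out p l :=
  (e₀ p l).trans ((Equiv.prodCongr σ (Equiv.refl _)).trans (e₁ p l).symm)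

theorem tau_eq (σ : Pos₀ p l ≃ Pos₁ p l) :
    tau σ = (1 : Matrix (Out p l) (Out p l) ℂ).submatrix (Equiv.refl _) (perm σ) := by
  ext x y
  simp [tau, perm, Matrix.one_apply, Prod.map]

theorem star_tau (σ : Pos₀ p l ≃ Pos₁ p l) :
    star (tau σ) = (1 : Matrix (Out p l) (Out p l) ℂ).submatrix (perm σ) (Equiv.refl _) := by
  rw [tau_eq, Matrix.star_eq_conjTranspose, Matrix.conjTranspose_submatrix,
    Matrix.conjTranspose_one]

theorem tau_mem (σ : Pos₀ p l ≃ Pos₁ p l) :
    tau σ ∈ unitary (Matrix (Out p l) (Out p l) ℂ) := by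
  rw [Unitary.mem_iff, star_tau, tau_eq]
  constructor
  · rw [Matrix.submatrix_mul_equiv, one_mul, Matrix.submatrix_one_equiv]
  · rw [Matrix.submatrix_mul_equiv, one_mul, Matrix.submatrix_one_equiv]

theorem tau_conj (σ : Pos₀ p l ≃ Pos₁ p l) (g : ℝ → Mat p (p + 1)) :
    tau σ * (dg g fun i => lab₁ p l (σ i)).submatrix (e₀ p l) (e₀ p l) * star (tau σ) =
      rep₁ p l g := by
  have h : tau σ = (1 : Matrix (Out p l) (Out p l) ℂ).submatrix (perm σ).symm (Equiv.refl _) := by
    ext x y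
    simp [tau_eq, Matrix.one_apply, Equiv.symm_apply_eq]
  have h' : star (tau σ) =
      (1 : Matrix (Out p l) (Out p l) ℂ).submatrix (Equiv.refl _) (perm σ).symm := by
    rw [h, Matrix.star_eq_conjTranspose, Matrix.conjTranspose_submatrix, Matrix.conjTranspose_one]
  set D := (dg g fun i => lab₁ p l (σ i)).submatrix (e₀ p l) (e₀ p l) with hD
  rw [h', h, show D = D.submatrix (Equiv.refl _) (Equiv.refl _) from rfl,
    Matrix.submatrix_mul_equiv, one_mul, Matrix.submatrix_mul_equiv, mul_one, hD]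
  ext x y
  simp [rep₁, dg, perm, Equiv.apply_symm_apply]

theorem rep₀_eq (p l : ℕ) (g : ℝ → Mat p (p + 1))
    (hg : ∃ A : Matrix (Fin p) (Fin p) ℂ, g 0 = A ⊗ₖ (1 : Matrix (Fin (p + 1)) (Fin (p + 1)) ℂ)) :
    rep₀ p l g = small₀ p l g ⊗ₖ
      (1 : Matrix (Fin (nextP p l + 1)) (Fin (nextP p l + 1)) ℂ) := by
  obtain ⟨A, hA⟩ := hg
  ext ⟨x, y⟩ ⟨x', y'⟩
  rcases h : eP p l x with a | ⟨c, i⟩ <;> rcases h' : eP p l x' with a' | ⟨c', i'⟩ <;>
    simp [rep₀, small₀, e₀, h, h', dg, lab₀, hA, Matrix.fromBlocks, Matrix.one_apply, Prod.ext_iff]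
  · have : y = y' ↔ (eQsplit p l y).1 = (eQsplit p l y').1 ∧
        (eQsplit p l y).2 = (eQsplit p l y').2 := by
      rw [← Prod.ext_iff, (eQsplit p l).injective.eq_iff]
    simp only [this]
    split_ifs <;> tauto
  · split_ifs <;> tauto

theorem rep₁_eq (p l : ℕ) (hp : 0 < p) (g : ℝ → Mat p (p + 1))
    (hg : ∃ B : Matrix (Fin (p + 1)) (Fin (p + 1)) ℂ,
      g 1 = (1 : Matrix (Fin p) (Fin p) ℂ) ⊗ₖ B) :
    rep₁ p l g = (1 : Matrix (Fin (nextP p l)) (Fin (nextP p l)) ℂ) ⊗ₖ small₁ p l hp g := by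
  obtain ⟨B, hB⟩ := hg
  ext ⟨x, y⟩ ⟨x', y'⟩
  rcases h : eQ p l y with a | ⟨c, i⟩ <;> rcases h' : eQ p l y' with a' | ⟨c', i'⟩ <;>
    simp [rep₁, small₁, e₁, h, h', dg, lab₁, hB, Matrix.fromBlocks, Matrix.one_apply, Prod.ext_iff]
  · have : x = x' ↔ (ePsplit p l x).1 = (ePsplit p l x').1 ∧
        (ePsplit p l x).2 = (ePsplit p l x').2 := by
      rw [← Prod.ext_iff, (ePsplit p l).injective.eq_iff]
    simp only [this]
    split_ifs <;> tauto
  · split_ifs <;> tauto

/-! ### The connecting map -/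

/-- The blocks of the connecting map at `s`. -/
def blocks (σ : Pos₀ p l ≃ Pos₁ p l) (s : II) (f : DD p (p + 1)) :
    Pos₀ p l → Mat p (p + 1) :=
  fun i => ext f (pt σ i s)

/-- The connecting map into functions on the interval. -/
def preHom (σ : Pos₀ p l ≃ Pos₁ p l) (U : C(II, Matrix (Out p l) (Out p l) ℂ))
    (hU : ∀ s, U s ∈ unitary (Matrix (Out p l) (Out p l) ℂ)) :
    DD p (p + 1) →⋆ₐ[ℂ] C(II, Mat (nextP p l) (nextP p l + 1)) where
  toFun f := ⟨fun s => adBlk (e₀ p l) (U s) (hU s) (blocks σ s f), by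
    refine (U.continuous.matrix_mul ?_).matrix_mul U.continuous.star
    refine continuous_matrix fun x y => ?_
    simp only [Matrix.submatrix_apply, blk_apply, blocks]
    split_ifs
    · exact ((continuous_ext f).comp (by unfold pt; fun_prop)).matrix_elem _ _
    · exact continuous_const⟩
  map_one' := ContinuousMap.ext fun s => map_one (adBlk (e₀ p l) (U s) (hU s))
  map_mul' f g := ContinuousMap.ext fun s =>
    map_mul (adBlk (e₀ p l) (U s) (hU s)) (blocks σ s f) (blocks σ s g)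
  map_zero' := ContinuousMap.ext fun s => map_zero (adBlk (e₀ p l) (U s) (hU s))
  map_add' f g := ContinuousMap.ext fun s =>
    map_add (adBlk (e₀ p l) (U s) (hU s)) (blocks σ s f) (blocks σ s g)
  commutes' c := ContinuousMap.ext fun s =>
    AlgHomClass.commutes (adBlk (e₀ p l) (U s) (hU s)) c
  map_star' f := ContinuousMap.ext fun s =>
    map_star (adBlk (e₀ p l) (U s) (hU s)) (blocks σ s f)

theorem preHom_apply (σ : Pos₀ p l ≃ Pos₁ p l) (U : C(II, Matrix (Out p l) (Out p l) ℂ))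
    (hU : ∀ s, U s ∈ unitary (Matrix (Out p l) (Out p l) ℂ)) (f : DD p (p + 1)) (s : II) :
    preHom σ U hU f s = U s *
      (dg (ext f) fun i => pt σ i s).submatrix (e₀ p l) (e₀ p l) * star (U s) := by
  rw [dg_eq_blk]
  rfl

theorem preHom_mem (hp : 0 < p) (σ : Pos₀ p l ≃ Pos₁ p l)
    (U : C(II, Matrix (Out p l) (Out p l) ℂ))
    (hU : ∀ s, U s ∈ unitary (Matrix (Out p l) (Out p l) ℂ)) (h0 : U 0 = 1) (h1 : U 1 = tau σ)
    (f : DD p (p + 1)) : preHom σ U hU f ∈ DD (nextP p l) (nextP p l + 1) := by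
  obtain ⟨⟨A, hA⟩, B, hB⟩ := f.2
  constructor
  · refine ⟨small₀ p l (ext f), ?_⟩
    rw [← rep₀_eq p l (ext f) ⟨A, by simpa [ext] using hA⟩, preHom_apply, h0]
    simp [rep₀, pt]
  · refine ⟨small₁ p l hp (ext f), ?_⟩
    rw [← rep₁_eq p l hp (ext f) ⟨B, by simpa [ext] using hB⟩, preHom_apply, h1, ← tau_conj σ]
    simp [pt]

/-! ### Estimates for every connecting map -/

variable {σ : Pos₀ p l ≃ Pos₁ p l} {U : C(II, Matrix (Out p l) (Out p l) ℂ)}
  {φ : DD p (p + 1) →⋆ₐ[ℂ] DD (nextP p l) (nextP p l + 1)}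

theorem apply_eq_adBlk (h : IsStepMap σ U φ) (f : DD p (p + 1)) (s : II) :
    (φ f).1 s = adBlk (e₀ p l) (U s) (h.unitary' s) (blocks σ s f) := by
  rw [h.formula f s, adBlk_apply, dg_eq_blk]
  rfl

/-- A point within three steps of every fibre. -/
theorem exists_close (hp : 0 < p) (h : IsStepMap σ U φ) (x s : II) :
    ∃ i, |(x : ℝ) - pt σ i s| ≤ 6 / ((l : ℝ) + 1) := by
  obtain ⟨i, ha, hb⟩ := exists_around (p := p) (l := l) x.2.1 x.2.2
  refine ⟨i, ?_⟩
  have h1 := (match₀_spec (l := l) hp i).2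
  have h2 := pt_near (h.near i) s 0
  have h3 : pt σ i (0 : II) = lab₀ p l i := by simp [pt]
  have h4 : (6 : ℝ) / ((l : ℝ) + 1) = 3 / ((l : ℝ) + 1) + 3 / ((l : ℝ) + 1) := by ring
  rw [h3, abs_le] at h2
  rw [abs_le]
  constructor <;> linarith [h2.1, h2.2]

theorem card_pos₀_mul : Fintype.card (Pos₀ p l) * (p * (p + 1)) =
    nextP p l * (nextP p l + 1) := by
  simpa using (Fintype.card_congr (e₀ p l)).symm

theorem ntr_close (hp : 0 < p) (h : IsStepMap σ U φ) (f : DD p (p + 1)) (ε : ℝ)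
    (hf : ∀ x y : ℝ, |x - y| ≤ 3 / ((l : ℝ) + 1) → ‖ext f x - ext f y‖ ≤ ε) (s t : II) :
    ‖ntr ((φ f).1 s) - ntr ((φ f).1 t)‖ ≤ ε := by
  rw [ntr, ntr, ← sub_div, norm_div, apply_eq_adBlk h, apply_eq_adBlk h, trace_adBlk,
    trace_adBlk, ← Finset.sum_sub_distrib, Complex.norm_natCast]
  have hpos : (0 : ℝ) < ((nextP p l * (nextP p l + 1) : ℕ) : ℝ) := by
    have : 0 < nextP p l := Nat.mul_pos hp (by omega)
    positivity
  rw [div_le_iff₀ hpos]
  refine (norm_sum_le _ _).trans ?_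
  calc ∑ i, ‖(blocks σ s f i).trace - (blocks σ t f i).trace‖
      ≤ ∑ _i : Pos₀ p l, ((p * (p + 1) : ℕ) : ℝ) * ε := Finset.sum_le_sum fun i _ => by
        rw [← Matrix.trace_sub]
        refine (norm_trace_le _).trans ?_
        rw [Fintype.card_prod, Fintype.card_fin, Fintype.card_fin]
        exact mul_le_mul_of_nonneg_left (hf _ _ (pt_near (h.near i) s t)) (Nat.cast_nonneg _)
    _ = _ := by
        rw [Finset.sum_const, Finset.card_univ, nsmul_eq_mul, ← mul_assoc, ← Nat.cast_mul,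
          card_pos₀_mul, mul_comm ε]

theorem norm_close (hp : 0 < p) (h : IsStepMap σ U φ) (f : DD p (p + 1)) (ε : ℝ)
    (hf : ∀ x y : ℝ, |x - y| ≤ 6 / ((l : ℝ) + 1) → ‖ext f x - ext f y‖ ≤ ε) (s : II) :
    ‖f.1‖ ≤ ‖(φ f).1 s‖ + ε := by
  rw [ContinuousMap.norm_le_of_nonempty]
  intro x
  obtain ⟨i, hi⟩ := exists_close hp h x s
  have h2 : ‖blocks σ s f i‖ ≤ ‖(φ f).1 s‖ := by
    rw [apply_eq_adBlk h]; exact norm_le_adBlk _ _ _ _ i
  have h1 := hf _ _ hi
  rw [ext_coe] at h1
  have h3 := norm_le_norm_add_norm_sub' (f.1 x) (ext f (pt σ i s))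
  simp only [blocks] at h2
  linarith

end StepMap

open StepMap

/-- The identities at the ends, and injective connecting maps. -/
theorem stepMap : StepMapStmt := by
  refine ⟨rep₀_eq, rep₁_eq, fun p l hp _ => ?_⟩
  obtain ⟨U, h0, h1, hU⟩ := exists_path ⟨_, tau_mem (match₀ p l)⟩
  let φ := (preHom (match₀ p l) U hU).codRestrict _
    (preHom_mem (by omega) (match₀ p l) U hU h0 h1)
  have h : IsStepMap (match₀ p l) U φ :=
    ⟨match₀_near (by omega), hU, h0, h1, fun f s => preHom_apply _ U hU f s⟩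
  refine ⟨match₀ p l, U, φ, h, fun f g hfg => Subtype.ext (ContinuousMap.ext fun x => ?_)⟩
  obtain ⟨i, s, hx⟩ := exists_pt (p := p) (l := l) x.2.1 x.2.2
  have e := congrArg (fun F : DD (nextP p l) (nextP p l + 1) => F.1 s) hfg
  simp only [apply_eq_adBlk h] at e
  have := congrFun (adBlk_injective _ _ _ e) i
  simpa only [blocks, hx, ext_coe] using this

/-- Connecting maps with almost constant trace and norm and almost flipped tensor copies. -/
theorem step (hF : FlipStmt) : StepStmt := by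
  intro p hp F ε hε
  obtain ⟨L₁, hL₁⟩ := hF p hp F ε hε
  have hev : ∀ᶠ r in nhds (0 : ℝ), ∀ f ∈ F, ∀ x y : ℝ, |x - y| ≤ r →
      ‖ext f x - ext f y‖ ≤ ε := by
    rw [Finset.eventually_all]
    intro f _
    have huc : UniformContinuous (ext f) :=
      (CompactSpace.uniformContinuous_of_continuous f.1.continuous).comp
        (LipschitzWith.projIcc _).uniformContinuous
    obtain ⟨δ, hδ, hd⟩ := Metric.uniformContinuous_iff.1 huc ε hε
    filter_upwards [Metric.ball_mem_nhds 0 hδ] with r hr x y hxy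
    rw [mem_ball_zero_iff, Real.norm_eq_abs] at hr
    rw [← dist_eq_norm]
    exact (hd (lt_of_le_of_lt (le_of_eq (Real.dist_eq x y))
      (hxy.trans_lt ((le_abs_self r).trans_lt hr)))).le
  have hto : Filter.Tendsto (fun l : ℕ => (6 : ℝ) / ((l : ℝ) + 1)) Filter.atTop (nhds 0) := by
    simpa [div_eq_mul_inv] using
      (tendsto_one_div_add_atTop_nhds_zero_nat (𝕜 := ℝ)).const_mul (6 : ℝ)
  obtain ⟨L₂, hL₂⟩ := Filter.eventually_atTop.1 (hto.eventually hev)
  refine ⟨max (max L₁ L₂) 3, fun l hl => ?_⟩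
  simp only [max_le_iff] at hl
  obtain ⟨σ, U, φ, h, hinj⟩ := stepMap.2.2 p l hp hl.2
  refine ⟨φ, hinj, fun f hf s t => ?_, fun f hf s => ?_, hL₁ l hl.1.1 σ U φ h⟩
  · refine ntr_close (by omega) h f ε (fun x y hxy => hL₂ l hl.1.2 f hf x y ?_) s t
    exact hxy.trans (by gcongr; norm_num)
  · have := norm_close (by omega) h f ε (hL₂ l hl.1.2 f hf) s
    linarith

end

end Vale.P101.ZS
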