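import Vale.Agent.P101.ZStab.Assembly
import Vale.Agent.P101.ZStab.Univ
import Vale.Agent.P101.ZStab.RW
import Vale.Agent.P101.ZStab.Tree
import Vale.Agent.P101.ZStab.Band
import Vale.Agent.P101.ZStab.IntBasic
import Vale.Agent.P101.ZStab.Absorb
import Vale.Agent.P101.ZStab.Limit
import Vale.Agent.P101.ZStab.StepMap
import Vale.Agent.P101.ZStab.Flip

/-!
# P101: one Jiang–Su algebra is absorbed by every algebra without central characters
-/

namespace Vale.P101.ZS

/-- One Jiang–Su algebra `Z` is absorbed by all separable unital algebras whose central sequence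
algebra has no characters. -/
theorem zstable_uniform (hC : IntConnStmt) :
    ∃ (B : Type) (_ : CStarAlgebra B), IsJiangSu B ∧
      ∀ (A : Type) [CStarAlgebra A] [TopologicalSpace.SeparableSpace A] [Nontrivial A]
        (ω : Ultrafilter ℕ), (ω : Filter ℕ) ≤ Filter.cofinite →
        NoCharacters (FOmega A ω) → IsSpatialTensor A A B := by
  obtain ⟨B, _, hB, ⟨T⟩⟩ := limit (step (flip intNorm hC stepMap))
  refine ⟨B, _, hB, ?_⟩
  intro A _ _ _ ω hω hchar
  have hfull : Full (commSet (FOmega A ω)) := full_commSet ⟨fun χ => by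
    have := congrArg (fun f : FOmega A ω →⋆ₙₐ[ℂ] ℂ => f 1) (hchar χ.toNonUnitalStarAlgHom)
    exact one_ne_zero ((map_one χ).symm.trans this)⟩
  refine absorb univ A ω hω (fun k hk => ?_) B hB T
  obtain ⟨s, v, h⟩ := treeStmt _ (copyProp_central ω hω) hfull k hk
  exact RW.rwStmt _ (2 ^ k) _ s v (Nat.le_self_pow (by omega) 2) h

end Vale.P101.ZS
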