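import Mathlib

/-!
# P101: statement vocabulary for `Z`-stability (plain, set-level form)

* `ddSet P Q` is the dimension drop algebra `Z(P,Q)` as a set of functions.
* `IsJiangSuAlgebra B` is Jiang–Su's description of `Z`.
* `IsMinimalTensor R A B` says that `R` is isomorphic to `A ⊗_min B`.
-/

open scoped TensorProduct InnerProductSpace Kronecker Matrix.Norms.L2Operator
open UniformSpace

namespace Vale.P101.ZSStatement

noncomputable section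

/-- `M_P ⊗ M_Q`, with the operator norm. -/
abbrev Mat (P Q : ℕ) := Matrix (Fin P × Fin Q) (Fin P × Fin Q) ℂ

/-- The dimension drop algebra `Z(P,Q)`, as a set of continuous functions. -/
def ddSet (P Q : ℕ) : Set C(Set.Icc (0 : ℝ) 1, Mat P Q) :=
  {f | (∃ A : Matrix (Fin P) (Fin P) ℂ, f 0 = A ⊗ₖ (1 : Matrix (Fin Q) (Fin Q) ℂ)) ∧
    ∃ B : Matrix (Fin Q) (Fin Q) ℂ, f 1 = (1 : Matrix (Fin P) (Fin P) ℂ) ⊗ₖ B}

/-- A tracial state. -/
def IsTracialState {B : Type} [CStarAlgebra B] (τ : B →L[ℂ] ℂ) : Prop :=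
  τ 1 = 1 ∧ (∀ b, 0 ≤ (τ (star b * b)).re ∧ (τ (star b * b)).im = 0) ∧ ∀ a b, τ (a * b) = τ (b * a)

/-- `B` has the subalgebra `S` isomorphic to a prime dimension drop algebra. -/
def IsPrimeDimDrop {B : Type} [CStarAlgebra B] (S : StarSubalgebra ℂ B) : Prop :=
  ∃ P Q : ℕ, 1 < P ∧ 1 < Q ∧ Nat.Coprime P Q ∧
    ∃ φ : S →⋆ₐ[ℂ] C(Set.Icc (0 : ℝ) 1, Mat P Q), Function.Injective φ ∧ Set.range φ = ddSet P Q

/-- Jiang–Su's defining property of `Z`. -/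
def IsJiangSuAlgebra (B : Type) [CStarAlgebra B] : Prop :=
  IsSimpleRing B ∧ (∃! τ : B →L[ℂ] ℂ, IsTracialState τ) ∧
    ∃ S : ℕ → StarSubalgebra ℂ B, Monotone S ∧ (∀ n, IsPrimeDimDrop (S n)) ∧
      Dense (⋃ n, (S n : Set B))

/-- The norm of every `Σ iA aₖ * iB bₖ` is the operator norm of `Σ π aₖ ⊗ ρ bₖ`. -/
def HasTensorNorm {R A B H K : Type} [CStarAlgebra R] [CStarAlgebra A] [CStarAlgebra B]
    [NormedAddCommGroup H] [InnerProductSpace ℂ H] [CompleteSpace H]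
    [NormedAddCommGroup K] [InnerProductSpace ℂ K] [CompleteSpace K]
    (iA : A →⋆ₐ[ℂ] R) (iB : B →⋆ₐ[ℂ] R)
    (π : A →⋆ₐ[ℂ] (H →L[ℂ] H)) (ρ : B →⋆ₐ[ℂ] (K →L[ℂ] K)) : Prop :=
  ∀ (n : ℕ) (a : Fin n → A) (b : Fin n → B) (c : ℝ), 0 ≤ c →
    (‖∑ k, iA (a k) * iB (b k)‖ ≤ c ↔
      ∀ x : H ⊗[ℂ] K, ‖∑ k, TensorProduct.map (π (a k)).toLinearMap (ρ (b k)).toLinearMap x‖
        ≤ c * ‖x‖)

/-- The faithful representations `π`, `ρ` on Hilbert spaces realise `R` as `A ⊗_min B`. -/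
def IsMinimalTensor (R A B : Type) [CStarAlgebra R] [CStarAlgebra A] [CStarAlgebra B] : Prop :=
  ∃ (iA : A →⋆ₐ[ℂ] R) (iB : B →⋆ₐ[ℂ] R),
    (∀ a b, iA a * iB b = iB b * iA a) ∧
    Dense (Submodule.span ℂ (Set.range fun p : A × B => iA p.1 * iB p.2) : Set R) ∧
    ∃ (H K : Type) (_ : NormedAddCommGroup H) (_ : InnerProductSpace ℂ H) (_ : CompleteSpace H)
      (_ : NormedAddCommGroup K) (_ : InnerProductSpace ℂ K) (_ : CompleteSpace K)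
      (π : A →⋆ₐ[ℂ] (H →L[ℂ] H)) (ρ : B →⋆ₐ[ℂ] (K →L[ℂ] K)),
      Function.Injective π ∧ Function.Injective ρ ∧ HasTensorNorm iA iB π ρ

end

end Vale.P101.ZSStatement
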