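import Vale.Agent.P101.ZStab.Pins

/-!
# P101 `Z`-stability: coordinates of the connecting maps

`P = p (1 + (p+1) l)` and `Q = P + 1 = (p+1) (1 + p l)`.  The fibre at `0` of the connecting map has
the list `0` (`k₁` times) and the grid points (`Q` times each), the fibre at `1` the grid points
(`P` times each) and `1` (`k₀` times).
-/

open scoped Kronecker Matrix.Norms.L2Operator

namespace Vale.P101.ZS

noncomputable section

variable (p l : ℕ)

/-- `P` as a multiple of `p`. -/
def k₀ : ℕ := 1 + (p + 1) * l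

/-- `Q` as a multiple of `p + 1`. -/
def k₁ : ℕ := 1 + p * l

theorem nextP_eq : nextP p l = k₀ p l * p := by rw [nextP, k₀, mul_comm]

theorem nextP_succ : nextP p l + 1 = k₁ p l * (p + 1) := by rw [nextP, k₁]; ring

/-- The indices of the stage `(p, p+1)`. -/
abbrev In := Fin p × Fin (p + 1)

/-- The indices of the next stage. -/
abbrev Out := Fin (nextP p l) × Fin (nextP p l + 1)

/-- The list at `0`. -/
abbrev Pos₀ := Fin (k₁ p l) ⊕ (Fin l × Fin (nextP p l + 1))

/-- The list at `1`. -/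
abbrev Pos₁ := Fin (k₀ p l) ⊕ (Fin l × Fin (nextP p l))

/-- The grid point. -/
def grid (c : Fin l) : ℝ := ((c : ℕ) + 1) / ((l : ℝ) + 1)

/-- The labels at `0`. -/
def lab₀ : Pos₀ p l → ℝ := Sum.elim (fun _ => 0) fun x => grid l x.1

/-- The labels at `1`. -/
def lab₁ : Pos₁ p l → ℝ := Sum.elim (fun _ => 1) fun x => grid l x.1

/-- Indices of `M_P` at `0`: one block at the endpoint and the grid blocks. -/
abbrev Sm₀ := Fin p ⊕ (Fin l × In p)

/-- Indices of `M_Q` at `1`: one block at the endpoint and the grid blocks. -/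
abbrev Sm₁ := Fin (p + 1) ⊕ (Fin l × In p)

/-- The blocks of `M_P` at `0`. -/
def eP : Fin (nextP p l) ≃ Sm₀ p l :=
  (finCongr (show _ = Fintype.card _ by
    simp only [Fintype.card_sum, Fintype.card_prod, Fintype.card_fin, nextP]; ring)).trans
    (Fintype.equivFin _).symm

/-- The blocks of `M_Q` at `1`. -/
def eQ : Fin (nextP p l + 1) ≃ Sm₁ p l :=
  (finCongr (show _ = Fintype.card _ by
    simp only [Fintype.card_sum, Fintype.card_prod, Fintype.card_fin, nextP]; ring)).trans
    (Fintype.equivFin _).symm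

/-- `Q = k₁ (p+1)`. -/
def eQsplit : Fin (nextP p l + 1) ≃ Fin (k₁ p l) × Fin (p + 1) :=
  (finCongr (nextP_succ p l)).trans finProdFinEquiv.symm

/-- `P = k₀ p`. -/
def ePsplit : Fin (nextP p l) ≃ Fin (k₀ p l) × Fin p :=
  (finCongr (nextP_eq p l)).trans finProdFinEquiv.symm

/-- The blocks of the fibre at `0`. -/
def e₀ : Out p l ≃ Pos₀ p l × In p where
  toFun x := match eP p l x.1 with
    | .inl a => (.inl (eQsplit p l x.2).1, (a, (eQsplit p l x.2).2))
    | .inr (c, i) => (.inr (c, x.2), i)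
  invFun y := match y with
    | (.inl j, (a, r)) => ((eP p l).symm (.inl a), (eQsplit p l).symm (j, r))
    | (.inr (c, b), i) => ((eP p l).symm (.inr (c, i)), b)
  left_inv x := by
    rcases h : eP p l x.1 with a | ⟨c, i⟩ <;> simp only [h] <;>
      simp [← h]
  right_inv y := by
    rcases y with ⟨j | ⟨c, b⟩, i⟩ <;> simp

/-- The blocks of the fibre at `1`. -/
def e₁ : Out p l ≃ Pos₁ p l × In p where
  toFun x := match eQ p l x.2 with
    | .inl b => (.inl (ePsplit p l x.1).1, ((ePsplit p l x.1).2, b))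
    | .inr (c, i) => (.inr (c, x.1), i)
  invFun y := match y with
    | (.inl j, (r, b)) => ((ePsplit p l).symm (j, r), (eQ p l).symm (.inl b))
    | (.inr (c, a), i) => (a, (eQ p l).symm (.inr (c, i)))
  left_inv x := by
    rcases h : eQ p l x.2 with b | ⟨c, i⟩ <;> simp only [h] <;>
      simp [← h]
  right_inv y := by
    rcases y with ⟨j | ⟨c, a⟩, i⟩ <;> simp

/-- Block diagonal of a function on the stage at given points. -/
def dg {J : Type*} [DecidableEq J] {R : Type*} [Zero R] {ι : Type*} (g : ℝ → Matrix ι ι R)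
    (a : J → ℝ) : Matrix (J × ι) (J × ι) R :=
  fun x y => if x.1 = y.1 then g (a x.1) x.2 y.2 else 0

/-- The fibre at `0` in `M_P ⊗ M_Q`. -/
def rep₀ (g : ℝ → Mat p (p + 1)) : Matrix (Out p l) (Out p l) ℂ :=
  (dg g (lab₀ p l)).submatrix (e₀ p l) (e₀ p l)

/-- The fibre at `1` in `M_P ⊗ M_Q`. -/
def rep₁ (g : ℝ → Mat p (p + 1)) : Matrix (Out p l) (Out p l) ℂ :=
  (dg g (lab₁ p l)).submatrix (e₁ p l) (e₁ p l)

/-- The fibre at `0` in `M_P`: the corner of `g 0` and the grid values. -/
def small₀ (g : ℝ → Mat p (p + 1)) : Matrix (Fin (nextP p l)) (Fin (nextP p l)) ℂ :=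
  (Matrix.fromBlocks (fun a a' => g 0 (a, 0) (a', 0)) 0 0 (dg g (grid l))).submatrix (eP p l)
    (eP p l)

/-- The fibre at `1` in `M_Q`: the corner of `g 1` and the grid values. -/
def small₁ (hp : 0 < p) (g : ℝ → Mat p (p + 1)) :
    Matrix (Fin (nextP p l + 1)) (Fin (nextP p l + 1)) ℂ :=
  (Matrix.fromBlocks (fun b b' => g 1 (⟨0, hp⟩, b) (⟨0, hp⟩, b')) 0 0
    (dg g (grid l))).submatrix (eQ p l) (eQ p l)

end

end Vale.P101.ZS
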